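import Crest.Agent.R1s.Ev

/-! Row 1: primes in progressions with class conditions. -/

set_option autoImplicit false

namespace Crest.Agent.R1s

open Finset Filter
open Crest.Agent.R5 (pr pd ee)

namespace APAux

theorem cop {p : ℕ} {t : Finset ℕ} (hp : p.Prime) (ht : ∀ l ∈ t, l.Prime) (h : p ∉ t) :
    Nat.Coprime p (pd t) :=
  (Nat.Prime.coprime_iff_not_dvd hp).2 fun e => h ((prime_dvd_pd ht hp).1 e)

theorem crt (cl : ℕ → ℕ) (t : Finset ℕ) (ht : ∀ p ∈ t, p.Prime) :
    ∃ c : ℕ, ∀ j, (∀ p ∈ t, j ≡ cl p [MOD p]) ↔ j ≡ c [MOD pd t] := by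
  induction t using Finset.induction_on with
  | empty => exact ⟨0, fun j => by simp [pd_empty, Nat.modEq_one]⟩
  | insert p t h ih =>
    have ht' : ∀ l ∈ t, l.Prime := fun l hl => ht l (mem_insert_of_mem hl)
    obtain ⟨c, hc⟩ := ih ht'
    have co := cop (ht p (mem_insert_self _ _)) ht' h
    obtain ⟨c', h1, h2⟩ := Nat.chineseRemainder co (cl p) c
    refine ⟨c', fun j => ?_⟩
    rw [forall_mem_insert, hc, pd_insert h, ← Nat.modEq_and_modEq_iff_modEq_mul co]
    exact ⟨fun e => ⟨e.1.trans h1.symm, e.2.trans h2.symm⟩, fun e => ⟨e.1.trans h1, e.2.trans h2⟩⟩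

theorem tot (q : ℕ) (t : Finset ℕ) (ht : ∀ p ∈ t, p.Prime) :
    ((q * pd t).totient : ℝ) * ∏ p ∈ t, gq q p = q.totient := by
  induction t using Finset.induction_on with
  | empty => simp [pd_empty]
  | insert p t h ih =>
    have ht' : ∀ l ∈ t, l.Prime := fun l hl => ht l (mem_insert_of_mem hl)
    have hp := ht p (mem_insert_self _ _)
    have p2 : (2 : ℝ) ≤ p := by exact_mod_cast hp.two_le
    rw [prod_insert h, pd_insert h, mul_left_comm q, ← ih ht', ← mul_assoc]
    congr 1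
    unfold gq
    split_ifs with e
    · rw [Nat.totient_mul_of_prime_of_dvd hp (e.mul_right _)]
      push_cast
      field_simp
    · rw [Nat.totient_mul_of_prime_of_not_dvd hp fun e' =>
        ((Nat.Prime.dvd_mul hp).1 e').elim e fun e'' => h ((prime_dvd_pd ht' hp).1 e''),
        Nat.cast_mul, Nat.cast_sub hp.one_le, Nat.cast_one]
      have : (p : ℝ) - 1 ≠ 0 := by linarith
      field_simp

theorem reindex {a q : ℕ} (T c d : ℕ) (ha : 1 ≤ a) (hq : 1 ≤ q) :
    ∑ j ∈ (range T).filter (fun j => j ≡ c [MOD d]), lp (a + q * j) =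
      ∑ n ∈ Ioc (a - 1) (a + q * T - 1),
        (if n.Prime ∧ n ≡ a + q * c [MOD q * d] then Real.log n else 0) := by
  have e : ∀ n : ℕ, (if n.Prime ∧ n ≡ a + q * c [MOD q * d] then Real.log n else 0) =
      if n ≡ a + q * c [MOD q * d] then lp n else 0 := fun n => by
    unfold lp
    by_cases h1 : n.Prime <;> simp [h1]
  simp only [e]
  rw [← sum_filter]
  refine sum_bij (fun j _ => a + q * j) (fun j hj => ?_) (fun j _ j' _ h => ?_) (fun n hn => ?_)
    fun _ _ => rfl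
  · obtain ⟨h1, h2⟩ := mem_filter.1 hj
    have := Nat.mul_lt_mul_of_pos_left (mem_range.1 h1) hq
    exact mem_filter.2 ⟨mem_Ioc.2 ⟨by omega, by omega⟩, (h2.mul_left' q).add_left a⟩
  · exact Nat.eq_of_mul_eq_mul_left hq (by omega)
  · obtain ⟨h1, h2⟩ := mem_filter.1 hn
    obtain ⟨h3, h4⟩ := mem_Ioc.1 h1
    have h5 : a ≡ n [MOD q] := by
      have := h2.of_mul_right d
      exact (this.trans (Nat.add_mul_mod_self_left a q c)).symm
    obtain ⟨j, hj⟩ := (Nat.modEq_iff_dvd' (by omega)).1 h5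
    obtain rfl : n = a + q * j := by omega
    refine ⟨j, mem_filter.2 ⟨mem_range.2 (Nat.lt_of_mul_lt_mul_left (a := q) (by omega)), ?_⟩, rfl⟩
    exact Nat.ModEq.mul_left_cancel' (by omega) (Nat.ModEq.add_left_cancel' a h2)

end APAux

theorem apOK : ThetaStmt → APStmt := by
  rintro ⟨δ, C, δ0, δ1, C0, H⟩
  refine ⟨δ, 2 * C, δ0, δ1, by positivity, fun a q T cl t ha hq co ht => ?_⟩
  have ht' : ∀ p ∈ t, p.Prime := fun p hp => (ht p hp).1
  obtain ⟨c, hc⟩ := APAux.crt cl t ht'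
  have d0 := pd_pos ht'
  have r1 : 1 ≤ q * pd t := Nat.mul_pos hq d0
  have co' : Nat.Coprime (a + q * c) (q * pd t) := by
    refine Nat.Coprime.mul_right (by simpa using co) (Nat.Coprime.prod_right fun p hp => ?_)
    refine ((Nat.Prime.coprime_iff_not_dvd (ht' p hp)).2 fun e => (ht p hp).2 ?_).symm
    exact (((((hc c).2 rfl p hp).mul_left q).add_left a).dvd_iff dvd_rfl).1 e
  have h1 := H (q * pd t) (a + q * c) (a + q * T - 1) r1 co'
  have h2 := H (q * pd t) (a + q * c) (a - 1) r1 co'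
  simp only [hc]
  rw [APAux.reindex T c _ ha hq]
  rw [← sum_Ioc_consecutive _ (Nat.zero_le (a - 1)) (by omega : a - 1 ≤ a + q * T - 1)] at h1
  have t1 : (0 : ℝ) < q.totient := by exact_mod_cast Nat.totient_pos.2 hq
  have t2 : (0 : ℝ) < (q * pd t).totient := by exact_mod_cast Nat.totient_pos.2 r1
  have e : (T : ℝ) * (q / (q.totient : ℝ)) * ∏ p ∈ t, gq q p =
      ((a + q * T - 1 : ℕ) : ℝ) / (q * pd t).totient - ((a - 1 : ℕ) : ℝ) / (q * pd t).totient := by
    rw [show a + q * T - 1 = a - 1 + q * T by omega, eq_div_of_mul_eq t2.ne'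
      ((mul_comm _ _).trans (APAux.tot q t ht'))]
    push_cast
    field_simp
    ring
  have l0 : 0 ≤ Real.log (2 * (q * pd t : ℕ)) := Real.log_nonneg (by
    have : (1 : ℝ) ≤ (q * pd t : ℕ) := by exact_mod_cast r1
    linarith)
  have b : ∀ N : ℕ, N ≤ a + q * T → C * (N : ℝ) ^ (1 - δ) * Real.log (2 * (q * pd t : ℕ)) ≤
      C * ((a + q * T : ℕ) : ℝ) ^ (1 - δ) * Real.log (2 * (q * pd t : ℕ)) := fun N hN => by
    have : 0 ≤ 1 - δ := by linarith
    gcongr
  have b1 := abs_le.1 (h1.trans (b _ (by omega)))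
  have b2 := abs_le.1 (h2.trans (b _ (by omega)))
  rw [e, abs_le]
  constructor <;> linarith [b1.1, b1.2, b2.1, b2.2]

end Crest.Agent.R1s
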