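import Crest.Agent.R1s.Ev
import Crest.Agent.R26.BH

/-! Row 1: Brun-Hooley weights for a general density. -/

set_option autoImplicit false

namespace Crest.Agent.R1s

open Finset Filter
open Crest.Agent.R5 (pr pd ee)

namespace BHAux

open Crest.Agent.R26.BH (upper lower split ite_split tm tm_sign bj bj_spec block_sum)

/-- the density takes values in `[0, 1/2]` -/
def DensOK (g : ℕ → ℝ) : Prop := ∀ p, 0 ≤ g p ∧ g p ≤ 1 / 2

theorem DensOK.w01 {g : ℕ → ℝ} (hg : DensOK g) (p : ℕ) : 0 ≤ g p ∧ g p ≤ 1 :=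
  ⟨(hg p).1, by linarith [(hg p).2]⟩

theorem DensOK.Vnn {g : ℕ → ℝ} (hg : DensOK g) (S : Finset ℕ) : 0 ≤ ∏ p ∈ S, (1 - g p) :=
  prod_nonneg fun p _ => sub_nonneg.2 (hg.w01 p).2

/-- upper weights `u` and defect `d` (the lower weights are `u - d`) -/
structure Sv (g : ℕ → ℝ) (S : Finset ℕ) (Y B : ℝ) (u d : Finset ℕ → ℝ) : Prop where
  up : ∀ T ⊆ S, (if T = ∅ then (1 : ℝ) else 0) ≤ ∑ s ∈ T.powerset, u s
  lo : ∀ T ⊆ S, ∑ s ∈ T.powerset, (u s - d s) ≤ (if T = ∅ then (1 : ℝ) else 0)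
  hu : ∀ s, |u s| ≤ 1
  hd : ∀ s, |d s| ≤ 1
  dis : ∀ s, u s ≠ 0 → d s = 0
  lev : ∀ s ⊆ S, (u s ≠ 0 ∨ d s ≠ 0) → (pd s : ℝ) ≤ Y
  err : ∏ p ∈ S, (1 - g p) + 2 * ∑ s ∈ S.powerset, d s * ∏ p ∈ s, g p ≤
    (∏ p ∈ S, (1 - g p)) * Real.exp (2 * B)

theorem Sv.weaken {g : ℕ → ℝ} (hg : DensOK g) {S : Finset ℕ} {Y B Y' B' : ℝ} {u d : Finset ℕ → ℝ} (h : Sv g S Y B u d)
    (hY : Y ≤ Y') (hB : B ≤ B') : Sv g S Y' B' u d :=
  ⟨h.up, h.lo, h.hu, h.hd, h.dis, fun s hs h' => (h.lev s hs h').trans hY,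
    h.err.trans (mul_le_mul_of_nonneg_left (Real.exp_le_exp.2 (by linarith)) (hg.Vnn S))⟩

theorem compose {g : ℕ → ℝ} (hg : DensOK g) (P : ℕ → Prop) [DecidablePred P] (S : Finset ℕ) {Y1 B1 Y2 B2 : ℝ}
    {u1 d1 u2 d2 : Finset ℕ → ℝ} (h1 : Sv g (S.filter P) Y1 B1 u1 d1)
    (h2 : Sv g (S.filter fun p => ¬ P p) Y2 B2 u2 d2) :
    Sv g S (Y1 * Y2) (B1 + B2) (fun s => u1 (s.filter P) * u2 (s.filter fun p => ¬ P p))
      (fun s => d1 (s.filter P) * u2 (s.filter fun p => ¬ P p) +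
        u1 (s.filter P) * d2 (s.filter fun p => ¬ P p)) := by
  have i01 : ∀ T : Finset ℕ, (0 : ℝ) ≤ if T = ∅ then (1 : ℝ) else 0 := by
    intro T; split_ifs <;> norm_num
  refine ⟨?_, ?_, ?_, ?_, ?_, ?_, ?_⟩
  · intro T hT
    rw [split P T u1 u2, ite_split P T]
    exact mul_le_mul (h1.up _ (filter_subset_filter _ hT)) (h2.up _ (filter_subset_filter _ hT))
      (i01 _) ((i01 _).trans (h1.up _ (filter_subset_filter _ hT)))
  · intro T hT
    rw [sum_sub_distrib, sum_add_distrib, split P T u1 u2, split P T d1 u2, split P T u1 d2,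
      ite_split P T]
    have a1 := h1.up _ (filter_subset_filter _ hT)
    have a2 := h2.up _ (filter_subset_filter _ hT)
    have b1 := h1.lo _ (filter_subset_filter _ hT)
    have b2 := h2.lo _ (filter_subset_filter _ hT)
    rw [sum_sub_distrib] at b1 b2
    have c1 := i01 (T.filter P)
    have c2 := i01 (T.filter fun p => ¬ P p)
    generalize (if T.filter P = ∅ then (1 : ℝ) else 0) = x1 at *
    generalize (if T.filter (fun p => ¬ P p) = ∅ then (1 : ℝ) else 0) = x2 at *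
    generalize ∑ s ∈ (T.filter P).powerset, u1 s = U1 at *
    generalize ∑ s ∈ (T.filter P).powerset, d1 s = D1 at *
    generalize ∑ s ∈ (T.filter fun p => ¬ P p).powerset, u2 s = U2 at *
    generalize ∑ s ∈ (T.filter fun p => ¬ P p).powerset, d2 s = D2 at *
    nlinarith [mul_nonneg (sub_nonneg.2 a1) (sub_nonneg.2 a2),
      mul_nonneg (sub_nonneg.2 b1) (c2.trans a2), mul_nonneg (sub_nonneg.2 b2) (c1.trans a1)]
  · intro s
    rw [abs_mul]
    exact mul_le_one₀ (h1.hu _) (abs_nonneg _) (h2.hu _)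
  · intro s
    by_cases h : u1 (s.filter P) = 0
    · simp only [h, zero_mul, add_zero, abs_mul]
      exact mul_le_one₀ (h1.hd _) (abs_nonneg _) (h2.hu _)
    · simp only [h1.dis _ h, zero_mul, zero_add, abs_mul]
      exact mul_le_one₀ (h1.hu _) (abs_nonneg _) (h2.hd _)
  · intro s hs
    rw [h1.dis _ (left_ne_zero_of_mul hs), h2.dis _ (right_ne_zero_of_mul hs)]; simp
  · intro s hs h
    have e : (pd s : ℝ) = pd (s.filter P) * pd (s.filter fun p => ¬ P p) := by
      unfold pd; rw [← Nat.cast_mul, prod_filter_mul_prod_filter_not]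
    have k1 : u1 (s.filter P) ≠ 0 ∨ d1 (s.filter P) ≠ 0 := by
      by_contra hc
      push Not at hc
      simp [hc.1, hc.2] at h
    have k2 : u2 (s.filter fun p => ¬ P p) ≠ 0 ∨ d2 (s.filter fun p => ¬ P p) ≠ 0 := by
      by_contra hc
      push Not at hc
      simp [hc.1, hc.2] at h
    have l1 := h1.lev _ (filter_subset_filter _ hs) k1
    have l2 := h2.lev _ (filter_subset_filter _ hs) k2
    rw [e]
    exact mul_le_mul l1 l2 (by positivity) (le_trans (by positivity) l1)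
  · have eV : ∏ p ∈ S, (1 - g p) = (∏ p ∈ S.filter P, (1 - g p)) *
        ∏ p ∈ S.filter (fun p => ¬ P p), (1 - g p) :=
      (prod_filter_mul_prod_filter_not _ _ _).symm
    have eD : ∑ s ∈ S.powerset, (d1 (s.filter P) * u2 (s.filter fun p => ¬ P p) +
        u1 (s.filter P) * d2 (s.filter fun p => ¬ P p)) * ∏ p ∈ s, g p =
        (∑ s ∈ (S.filter P).powerset, d1 s * ∏ p ∈ s, g p) *
          (∑ s ∈ (S.filter fun p => ¬ P p).powerset, u2 s * ∏ p ∈ s, g p) +
        (∑ s ∈ (S.filter P).powerset, u1 s * ∏ p ∈ s, g p) *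
          (∑ s ∈ (S.filter fun p => ¬ P p).powerset, d2 s * ∏ p ∈ s, g p) := by
      rw [← split P S (fun s => d1 s * ∏ p ∈ s, g p)
        (fun s => u2 s * ∏ p ∈ s, g p), ← split P S
        (fun s => u1 s * ∏ p ∈ s, g p) (fun s => d2 s * ∏ p ∈ s, g p),
        ← sum_add_distrib]
      refine sum_congr rfl fun s _ => ?_
      rw [← prod_filter_mul_prod_filter_not s P]; ring
    have a1 := upper _ _ (fun p _ => hg.w01 p) _ h1.up
    have a2 := upper _ _ (fun p _ => hg.w01 p) _ h2.up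
    have b1 := lower _ _ (fun p _ => hg.w01 p) _ h1.lo
    have b2 := lower _ _ (fun p _ => hg.w01 p) _ h2.lo
    simp only [sub_mul, sum_sub_distrib] at b1 b2
    have e1 := h1.err
    have e2 := h2.err
    have v1 := hg.Vnn (S.filter P)
    have v2 := hg.Vnn (S.filter fun p => ¬ P p)
    rw [eD, eV, mul_add 2 B1, Real.exp_add]
    generalize ∏ p ∈ S.filter P, (1 - g p) = V1 at *
    generalize ∏ p ∈ S.filter (fun p => ¬ P p), (1 - g p) = V2 at *
    generalize ∑ s ∈ (S.filter P).powerset, u1 s * ∏ p ∈ s, g p = U1 at *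
    generalize ∑ s ∈ (S.filter P).powerset, d1 s * ∏ p ∈ s, g p = D1 at *
    generalize ∑ s ∈ (S.filter fun p => ¬ P p).powerset, u2 s * ∏ p ∈ s, g p = U2 at *
    generalize ∑ s ∈ (S.filter fun p => ¬ P p).powerset, d2 s * ∏ p ∈ s, g p = D2 at *
    have d1 : 0 ≤ D1 := by linarith
    have d2 : 0 ≤ D2 := by linarith
    have m := mul_le_mul e1 e2 (by linarith) (by positivity)
    have m1 : D1 * U2 ≤ D1 * (V2 + D2) := mul_le_mul_of_nonneg_left (by linarith) d1
    have m2 : U1 * D2 ≤ (V1 + D1) * D2 := mul_le_mul_of_nonneg_right (by linarith) d2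
    nlinarith

theorem single {g : ℕ → ℝ} (hg : DensOK g) (S : Finset ℕ) (y L : ℝ) (n : ℕ) (hy : 1 ≤ y) (hS : ∀ p ∈ S, 2 ≤ p ∧ (p : ℝ) ≤ y)
    (hL : ∑ p ∈ S, g p ≤ L) :
    Sv g S (y ^ (2 * n + 1)) (Real.exp (4 * L) / 2 ^ (2 * n + 1)) (tm (2 * n))
      (fun s => if s.card = 2 * n + 1 then 1 else 0) := by
  refine ⟨?_, ?_, ?_, ?_, ?_, ?_, ?_⟩
  · intro T _
    by_cases hT : T = ∅
    · simp [hT, tm]
    · have := tm_sign (2 * n) hT
      rw [if_neg hT]
      simpa [pow_mul] using this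
  · intro T _
    have e : ∀ s : Finset ℕ, tm (2 * n) s - (if s.card = 2 * n + 1 then 1 else 0) =
        tm (2 * n + 1) s := by
      intro s
      unfold tm
      by_cases h1 : s.card ≤ 2 * n
      · rw [if_pos h1, if_neg (by omega), if_pos (by omega), sub_zero]
      · by_cases h2 : s.card = 2 * n + 1
        · rw [if_neg h1, if_pos h2, if_pos h2.le, h2, pow_succ, pow_mul]; norm_num
        · rw [if_neg h1, if_neg h2, if_neg (by omega), sub_zero]
    simp only [e]
    by_cases hT : T = ∅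
    · simp [hT, tm]
    · have := tm_sign (2 * n + 1) hT
      rw [if_neg hT]
      rw [pow_succ, pow_mul] at this
      norm_num at this
      exact this
  · intro s; unfold tm; split_ifs <;> simp
  · intro s; split_ifs <;> simp
  · intro s hs
    unfold tm at hs
    have : s.card ≤ 2 * n := by
      by_contra h; exact hs (if_neg h)
    exact if_neg (by omega)
  · intro s hs h
    have hc : s.card ≤ 2 * n + 1 := by
      rcases h with h | h
      · unfold tm at h
        by_contra h'; exact h (if_neg (by omega))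
      · by_contra h'; exact h (if_neg (by omega))
    calc (pd s : ℝ) = ∏ p ∈ s, (p : ℝ) := by unfold pd; push_cast; rfl
      _ ≤ y ^ s.card := by
          rw [← prod_const]
          exact prod_le_prod (fun p _ => by positivity) fun p hp => (hS p (hs hp)).2
      _ ≤ y ^ (2 * n + 1) := pow_le_pow_right₀ hy hc
  · have e1 := R5.TV.esymm_le S (fun p => g p) (fun p => (hg p).1) (2 * n + 1) 2
      (by norm_num)
    have e2 : ∑ s ∈ S.powerset, (if s.card = 2 * n + 1 then (1 : ℝ) else 0) *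
        ∏ p ∈ s, g p =
        ∑ τ ∈ S.powerset.filter (fun τ => τ.card = 2 * n + 1), ∏ p ∈ τ, g p := by
      rw [sum_filter]
      refine sum_congr rfl fun s _ => ?_
      split_ifs <;> simp
    have hV : Real.exp (-(2 * L)) ≤ ∏ p ∈ S, (1 - g p) := by
      calc Real.exp (-(2 * L)) ≤ Real.exp (∑ p ∈ S, -(2 * g p)) := by
            rw [sum_neg_distrib, ← mul_sum]
            exact Real.exp_le_exp.2 (by linarith)
        _ = ∏ p ∈ S, Real.exp (-(2 * g p)) := Real.exp_sum _ _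
        _ ≤ _ := by
            refine prod_le_prod (fun p _ => (Real.exp_pos _).le) fun p hp => ?_
            have hx0 : 0 ≤ g p := (hg p).1
            have hx : g p ≤ 1 / 2 := (hg p).2
            generalize g p = x at *
            rw [Real.exp_neg, inv_le_comm₀ (Real.exp_pos _) (by linarith)]
            refine le_trans ?_ (Real.add_one_le_exp _)
            rw [inv_le_iff_one_le_mul₀ (by linarith)]
            nlinarith
    rw [e2]
    set D := ∑ τ ∈ S.powerset.filter (fun τ => τ.card = 2 * n + 1), ∏ p ∈ τ, g p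
    set V := ∏ p ∈ S, (1 - g p)
    have hp : (0 : ℝ) < 2 ^ (2 * n + 1) := by positivity
    have e3 : D ≤ V * (Real.exp (4 * L) / 2 ^ (2 * n + 1)) := by
      rw [← mul_div_assoc, le_div_iff₀ hp]
      have : Real.exp (2 * L) ≤ V * Real.exp (4 * L) := by
        calc Real.exp (2 * L) = Real.exp (-(2 * L)) * Real.exp (4 * L) := by
              rw [← Real.exp_add]; ring_nf
          _ ≤ _ := mul_le_mul_of_nonneg_right hV (Real.exp_pos _).le
      have h4 : Real.exp (2 * ∑ p ∈ S, g p) ≤ Real.exp (2 * L) :=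
        Real.exp_le_exp.2 (by linarith)
      linarith
    have e4 := Real.add_one_le_exp (2 * (Real.exp (4 * L) / 2 ^ (2 * n + 1)))
    have v := hg.Vnn S
    nlinarith [mul_le_mul_of_nonneg_left e4 v]

theorem blocks {g : ℕ → ℝ} (hg : DensOK g) {L : ℝ} (hL : ∀ (z j : ℕ) (S : Finset ℕ),
    (∀ p ∈ S, p.Prime ∧ p ≤ z ∧ bj z p = j) → ∑ p ∈ S, g p ≤ L) (z m : ℕ) (hz : 1 ≤ z)
    (n : ℕ) : ∀ S : Finset ℕ, (∀ p ∈ S, p.Prime ∧ p ≤ z ∧ bj z p < n) →
    ∃ u d, Sv g S ((z : ℝ) ^ ((4 * m + 6 : ℝ) - (4 * m + 4 * n + 6) / 2 ^ n))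
      (Real.exp (4 * L) / 2 ^ m * (1 - 1 / 2 ^ n)) u d := by
  have hz' : (1 : ℝ) ≤ z := by exact_mod_cast hz
  induction n with
  | zero =>
    intro S hS
    have : S = ∅ := eq_empty_of_forall_notMem fun p hp => by simpa using (hS p hp).2.2
    subst this
    refine ⟨fun s => if s = ∅ then 1 else 0, fun _ => 0, ?_, ?_, ?_, ?_, ?_, ?_, ?_⟩
    · intro T hT; rw [subset_empty.1 hT]; simp
    · intro T hT; rw [subset_empty.1 hT]; simp
    · intro s; split_ifs <;> simp
    · intro s; simp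
    · intro s _; rfl
    · intro s hs _; rw [subset_empty.1 hs]; simp [pd]
    · simp
  | succ n ih =>
    intro S hS
    obtain ⟨u1, d1, h1⟩ := ih (S.filter fun p => bj z p < n) fun p hp =>
      ⟨(hS p (mem_filter.1 hp).1).1, (hS p (mem_filter.1 hp).1).2.1, (mem_filter.1 hp).2⟩
    have hb : ∀ p ∈ S.filter fun p => ¬ bj z p < n, p.Prime ∧ p ≤ z ∧ bj z p = n := by
      intro p hp
      obtain ⟨a, b, c⟩ := hS p (mem_filter.1 hp).1
      exact ⟨a, b, by have := (mem_filter.1 hp).2; omega⟩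
    have h2 := single hg (S.filter fun p => ¬ bj z p < n) ((z : ℝ) ^ ((1 : ℝ) / 2 ^ n)) L (m + n)
      (Real.one_le_rpow hz' (by positivity)) (by
        intro p hp
        obtain ⟨a, b, c⟩ := hb p hp
        refine ⟨a.two_le, ?_⟩
        have s1 := (bj_spec a.two_le b).1
        rw [c] at s1
        have s2 : (p : ℝ) ^ ((2 ^ n : ℕ) : ℝ) ≤ z := by
          rw [Real.rpow_natCast]; exact_mod_cast s1
        rw [one_div, Real.le_rpow_inv_iff_of_pos (by positivity) (by positivity) (by positivity)]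
        push_cast at s2
        exact s2) (hL z n _ hb)
    refine ⟨_, _, (compose hg (fun p => bj z p < n) S h1 h2).weaken hg (le_of_eq ?_) ?_⟩
    · rw [← Real.rpow_natCast _ (2 * (m + n) + 1), ← Real.rpow_mul (by positivity),
        ← Real.rpow_add (by positivity)]
      congr 1
      push_cast
      field_simp
      ring
    · have e : Real.exp (4 * L) / 2 ^ (2 * (m + n) + 1) ≤
          Real.exp (4 * L) / 2 ^ m * (1 / 2 ^ (n + 1)) := by
        rw [div_mul_div_comm, mul_one, ← pow_add]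
        exact div_le_div_of_nonneg_left (Real.exp_pos _).le (by positivity)
          (pow_le_pow_right₀ (by norm_num) (by omega))
      have e2 : (1 : ℝ) - 1 / 2 ^ (n + 1) = (1 - 1 / 2 ^ n) + 1 / 2 ^ (n + 1) := by
        field_simp; ring
      rw [e2, mul_add (Real.exp (4 * L) / 2 ^ m)]
      linarith

end BHAux

open BHAux in
theorem bhOK : BHStmt := by
  classical
  obtain ⟨L, hL⟩ := R26.BH.block_sum
  set c := Real.exp (4 * (2 * L)) with hc
  have c0 : 0 < c := Real.exp_pos _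
  obtain ⟨m, hm⟩ := pow_unbounded_of_one_lt (6 * c) (one_lt_two (α := ℝ))
  refine ⟨4 * m + 6, fun z S g hz hS hg => ?_⟩
  set g' : ℕ → ℝ := fun p => if p ∈ S then g p else 0 with hg'
  have gok : DensOK g' := by
    intro p
    by_cases hp : p ∈ S
    · simp only [hg', if_pos hp]; exact ⟨(hg p hp).1, (hg p hp).2.1⟩
    · simp only [hg', if_neg hp]; norm_num
  have g2 : ∀ p : ℕ, g' p ≤ 2 * (1 / (p : ℝ)) := by
    intro p
    by_cases hp : p ∈ S
    · simp only [hg', if_pos hp, mul_one_div]; exact (hg p hp).2.2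
    · simp only [hg', if_neg hp]; positivity
  have hL' : ∀ (z j : ℕ) (S : Finset ℕ),
      (∀ p ∈ S, p.Prime ∧ p ≤ z ∧ R26.BH.bj z p = j) → ∑ p ∈ S, g' p ≤ 2 * L := by
    intro z j S hS
    calc ∑ p ∈ S, g' p ≤ ∑ p ∈ S, 2 * (1 / (p : ℝ)) := sum_le_sum fun p _ => g2 p
      _ = 2 * ∑ p ∈ S, 1 / (p : ℝ) := by rw [mul_sum]
      _ ≤ 2 * L := by linarith [hL z j S hS]
  have hz0 : (0 : ℝ) ≤ z := by linarith
  have hz1 : 1 ≤ ⌊z⌋₊ := Nat.le_floor (by exact_mod_cast hz)
  have hz1' : (1 : ℝ) ≤ ⌊z⌋₊ := by exact_mod_cast hz1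
  set n := S.sup (R26.BH.bj ⌊z⌋₊) + 1 with hn
  obtain ⟨u, d, h⟩ := blocks gok hL' ⌊z⌋₊ m hz1 n S fun p hp =>
    ⟨(hS p hp).1, Nat.le_floor (hS p hp).2, Nat.lt_succ_of_le (le_sup (f := R26.BH.bj ⌊z⌋₊) hp)⟩
  have hB : c / 2 ^ m * (1 - 1 / 2 ^ n) ≤ 1 / 6 := by
    have a1 : (0 : ℝ) ≤ 1 / 2 ^ n := by positivity
    have a2 : 0 ≤ c / 2 ^ m := by positivity
    have a3 : c / 2 ^ m ≤ 1 / 6 := by
      rw [div_le_iff₀ (by positivity)]; linarith
    nlinarith
  have h' := h.weaken gok (Y' := z ^ (4 * m + 6)) (by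
    have a1 : (0 : ℝ) ≤ (4 * m + 4 * (n : ℝ) + 6) / 2 ^ n := by positivity
    calc (⌊z⌋₊ : ℝ) ^ ((4 * m + 6 : ℝ) - (4 * m + 4 * n + 6) / 2 ^ n)
        ≤ (⌊z⌋₊ : ℝ) ^ (((4 * m + 6 : ℕ) : ℝ)) := by
          refine Real.rpow_le_rpow_of_exponent_le hz1' ?_
          push_cast
          linarith
      _ = (⌊z⌋₊ : ℝ) ^ (4 * m + 6) := Real.rpow_natCast _ _
      _ ≤ z ^ (4 * m + 6) := pow_le_pow_left₀ (by positivity) (Nat.floor_le hz0) _) hB
  refine ⟨fun s => u s - d s, h'.lo, fun s => ?_, fun s hs hne => ?_, ?_⟩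
  · by_cases hu : u s = 0
    · simp only [hu, zero_sub, abs_neg]; exact h'.hd s
    · simp only [h'.dis s hu, sub_zero]; exact h'.hu s
  · refine h'.lev s hs ?_
    by_contra hh
    push Not at hh
    simp [hh.1, hh.2] at hne
  · have e1 : ∏ p ∈ S, (1 - g p) = ∏ p ∈ S, (1 - g' p) :=
      prod_congr rfl fun p hp => by simp only [hg', if_pos hp]
    have e2 : ∑ t ∈ S.powerset, (u t - d t) * ∏ p ∈ t, g p =
        ∑ t ∈ S.powerset, (u t - d t) * ∏ p ∈ t, g' p := by
      refine sum_congr rfl fun t ht => ?_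
      congr 1
      exact prod_congr rfl fun p hp => by simp only [hg', if_pos (mem_powerset.1 ht hp)]
    rw [e1, e2]
    have a1 := R26.BH.upper _ _ (fun p _ => gok.w01 p) _ h'.up
    have a2 := h'.err
    have v := gok.Vnn S
    have a3 : Real.exp (2 * (1 / 6)) ≤ 3 / 2 := by
      have b1 := Real.add_one_le_exp (-(2 * (1 / 6) : ℝ))
      have b2 : Real.exp (-(2 * (1 / 6))) * Real.exp (2 * (1 / 6)) = 1 := by
        rw [← Real.exp_add]; simp
      have b3 := Real.exp_pos (2 * (1 / 6))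
      nlinarith
    simp only [sub_mul, sum_sub_distrib]
    nlinarith [mul_le_mul_of_nonneg_left a3 v]

end Crest.Agent.R1s
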