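import Crest.Agent.R1s.Ev

/-! Row 1: counting in a progression with several classes. -/

set_option autoImplicit false

namespace Crest.Agent.R1s

open Finset Filter
open Crest.Agent.R5 (pr pd ee)

namespace CRTAux

theorem base (T p c : ℕ) (hp : 1 ≤ p) :
    |(((range T).filter (fun j => j ≡ c [MOD p])).card : ℝ) - T / p| ≤ 1 := by
  rw [← Nat.count_eq_card_filter_range, Nat.count_modEq_card T hp c]
  have h1 : ((T / p : ℕ) : ℝ) ≤ T / p := Nat.cast_div_le
  have h2 : (T : ℝ) / p < ((T / p : ℕ) : ℝ) + 1 := by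
    rw [← Nat.floor_div_eq_div (K := ℝ)]
    exact Nat.lt_floor_add_one _
  rw [abs_le]
  split_ifs <;> push_cast <;> constructor <;> linarith

end CRTAux

theorem crtOK : CRTStmt := by
  intro T p c t Ω
  induction t using Finset.induction_on generalizing p c with
  | empty =>
    intro hp _
    simpa [pd_empty] using CRTAux.base T p c hp
  | insert l t hl ih =>
    intro hp h
    obtain ⟨hl1, hl2, hl3⟩ := h l (mem_insert_self _ _)
    have hco : p.Coprime l := ((Nat.Prime.coprime_iff_not_dvd hl1).2 hl2).symm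
    have hl0 : (0 : ℝ) < l := by exact_mod_cast hl1.pos
    have hp0 : (0 : ℝ) < p := by exact_mod_cast hp
    have hfib : ∀ x ∈ Ω l, (((range T).filter
        (fun j => j ≡ c [MOD p] ∧ ∀ l' ∈ insert l t, j % l' ∈ Ω l')).filter fun j => j % l = x) =
        (range T).filter (fun j => j ≡ (Nat.chineseRemainder hco c x : ℕ) [MOD p * l] ∧
          ∀ l' ∈ t, j % l' ∈ Ω l') := fun x hx => by
      obtain ⟨h1, h2⟩ := (Nat.chineseRemainder hco c x).2
      rw [filter_filter]
      refine filter_congr fun j _ => ?_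
      rw [← Nat.modEq_and_modEq_iff_modEq_mul hco, forall_mem_insert]
      have h3 : j % l = x ↔ j ≡ x [MOD l] := by
        rw [Nat.ModEq, Nat.mod_eq_of_lt (hl3 x hx)]
      constructor
      · rintro ⟨⟨a1, -, a3⟩, a4⟩
        exact ⟨⟨a1.trans h1.symm, (h3.1 a4).trans h2.symm⟩, a3⟩
      · rintro ⟨⟨a1, a2⟩, a3⟩
        have a4 := h3.2 (a2.trans h2)
        exact ⟨⟨a1.trans h1, a4 ▸ hx, a3⟩, a4⟩
    have hcard : (Ω l).card ≤ l :=
      (card_le_card fun x hx => mem_range.2 (hl3 x hx)).trans (card_range l).le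
    rw [card_eq_sum_card_fiberwise (f := fun j => j % l) (t := Ω l)
      fun j hj => (mem_filter.1 hj).2.2 l (mem_insert_self _ _), sum_congr rfl fun x hx =>
      congrArg card (hfib x hx), prod_insert hl, pd_insert hl, Nat.cast_sum]
    have e : (T : ℝ) / p * (((Ω l).card / (l : ℝ)) * ∏ l ∈ t, ((Ω l).card / (l : ℝ))) =
        ∑ _x ∈ Ω l, (T : ℝ) / (p * l : ℕ) * ∏ l ∈ t, ((Ω l).card / (l : ℝ)) := by
      rw [sum_const, nsmul_eq_mul, Nat.cast_mul]
      field_simp
    rw [e, ← sum_sub_distrib]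
    refine (abs_sum_le_sum_abs _ _).trans ((sum_le_sum fun x _ => ih (p * l) _
      (Nat.mul_pos hp hl1.pos) fun l' hl' => ?_).trans ?_)
    · obtain ⟨a1, a2, a3⟩ := h l' (mem_insert_of_mem hl')
      refine ⟨a1, fun hd => ?_, a3⟩
      rcases (Nat.Prime.dvd_mul a1).1 hd with hd | hd
      · exact a2 hd
      · exact hl ((Nat.prime_dvd_prime_iff_eq a1 hl1).1 hd ▸ hl')
    · rw [sum_const, nsmul_eq_mul, Nat.cast_mul]
      exact mul_le_mul_of_nonneg_right (Nat.cast_le.2 hcard) (Nat.cast_nonneg _)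

end Crest.Agent.R1s
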