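import Crest.Agent.R1s.Ev

/-! Row 1: the structured case. -/

set_option autoImplicit false

namespace Crest.Agent.R1s

open Finset Filter
open Crest.Agent.R5 (pr pd ee)

namespace CaseAAux

/-- the class of `j` with `p ∣ N + i₀ + σ j` -/
def cls (N i₀ σ : ℤ) (p : ℕ) : ℕ := ((-(σ * (N + i₀))) % p).toNat

theorem cls_cast (N i₀ σ : ℤ) {p : ℕ} (hp : 0 < p) :
    ((cls N i₀ σ p : ℕ) : ℤ) = (-(σ * (N + i₀))) % p :=
  Int.toNat_of_nonneg (Int.emod_nonneg _ (by exact_mod_cast hp.ne'))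

theorem cls_iff (N i₀ : ℤ) {σ : ℤ} (hσ : σ * σ = 1) {p : ℕ} (hp : 0 < p) (j : ℕ) :
    j ≡ cls N i₀ σ p [MOD p] ↔ (p : ℤ) ∣ N + (i₀ + σ * j) := by
  rw [← Int.natCast_modEq_iff, cls_cast N i₀ σ hp]
  have h1 : ((j : ℤ) ≡ (-(σ * (N + i₀))) % p [ZMOD p]) ↔ (j : ℤ) ≡ -(σ * (N + i₀)) [ZMOD p] :=
    ⟨fun h => h.trans (Int.mod_modEq _ _), fun h => h.trans (Int.mod_modEq _ _).symm⟩
  rw [h1, Int.modEq_comm, Int.modEq_iff_dvd]
  constructor
  · intro h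
    have h2 : N + (i₀ + σ * j) = σ * (j - -(σ * (N + i₀))) := by
      linear_combination (-(N + i₀)) * hσ
    rw [h2]
    exact h.mul_left _
  · intro h
    have h2 : (j : ℤ) - -(σ * (N + i₀)) = σ * (N + (i₀ + σ * j)) := by
      linear_combination (-(j : ℤ)) * hσ
    rw [h2]
    exact h.mul_left _

theorem non_dvd (N i₀ a₀ : ℤ) {σ : ℤ} (hσ : σ * σ = 1) {a q p : ℕ} (hp : 0 < p)
    (ha : (a : ℤ) = σ * (q * i₀ - a₀)) (h : p ∣ a + q * cls N i₀ σ p) :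
    (p : ℤ) ∣ q * N + a₀ := by
  have h1 : (p : ℤ) ∣ N + (i₀ + σ * (cls N i₀ σ p : ℕ)) :=
    (cls_iff N i₀ hσ hp _).1 (Nat.ModEq.refl _)
  have h2 : (p : ℤ) ∣ (a : ℤ) + q * (cls N i₀ σ p : ℕ) := by exact_mod_cast h
  have h3 : (q : ℤ) * N + a₀ = q * (N + (i₀ + σ * (cls N i₀ σ p : ℕ))) -
      σ * ((a : ℤ) + q * (cls N i₀ σ p : ℕ)) := by
    rw [ha]
    linear_combination (q * i₀ - a₀) * hσ
  rw [h3]
  exact (h1.mul_left _).sub (h2.mul_left _)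

theorem card_le (η : ℝ) (m a q T : ℕ) (N i₀ a₀ : ℤ) {σ : ℤ} (hσ : σ * σ = 1)
    (ha : (a : ℤ) = σ * (q * i₀ - a₀)) (hz : zz m < a)
    (hi : ∀ j : ℕ, j < T → 0 ≤ i₀ + σ * j ∧ i₀ + σ * j < m) :
    ((range T).filter (fun j => (a + q * j).Prime ∧
      (∀ l ∈ (pr 2 ((m : ℝ) ^ (2 * η))).filter (fun p : ℕ => ¬ (p : ℤ) ∣ q * N + a₀),
        ¬ j ≡ cls N i₀ σ l [MOD l]) ∧
      ∀ p ∈ (Hi η m).filter (fun p : ℕ => ¬ (p : ℤ) ∣ q * N + a₀),
        ¬ j ≡ cls N i₀ σ p [MOD p])).card ≤ (surv N m (zz m)).card := by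
  refine card_le_card_of_injOn (fun j => (i₀ + σ * j).toNat) (fun j hj => ?_)
    (fun j hj j' hj' h => ?_)
  · obtain ⟨hjT, hpr, hS, hS'⟩ := mem_filter.1 (mem_coe.1 hj)
    obtain ⟨h0, h1⟩ := hi j (mem_range.1 hjT)
    refine mem_coe.2 (mem_filter.2 ⟨mem_range.2 (by beta_reduce; omega), fun p hp hd => ?_⟩)
    obtain ⟨hpp, hp2, hpz⟩ := mem_pr.1 hp
    rw [Int.toNat_of_nonneg h0] at hd
    by_cases hq : (p : ℤ) ∣ q * N + a₀
    · have h2 : (a : ℤ) + q * j = σ * (q * (N + (i₀ + σ * j)) - (q * N + a₀)) := by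
        rw [ha]
        linear_combination (-(q * j : ℤ)) * hσ
      have h3 : (p : ℤ) ∣ (a : ℤ) + q * j := by
        rw [h2]
        exact ((hd.mul_left _).sub hq).mul_left _
      have h4 : p ∣ a + q * j := by exact_mod_cast h3
      have h5 : p = a + q * j := (Nat.prime_dvd_prime_iff_eq hpp hpr).1 h4
      have h6 : (a : ℝ) ≤ p := by
        rw [h5]
        exact_mod_cast Nat.le_add_right _ _
      linarith
    · have hc := (cls_iff N i₀ hσ hpp.pos j).2 hd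
      by_cases hy : (p : ℝ) ≤ (m : ℝ) ^ (2 * η)
      · exact hS p (mem_filter.2 ⟨mem_pr.2 ⟨hpp, hp2, hy⟩, hq⟩) hc
      · exact hS' p (mem_filter.2 ⟨mem_pr.2 ⟨hpp, not_le.1 hy, hpz⟩, hq⟩) hc
  · have h0 := (hi j (mem_range.1 (mem_filter.1 (mem_coe.1 hj)).1)).1
    have h0' := (hi j' (mem_range.1 (mem_filter.1 (mem_coe.1 hj')).1)).1
    have h1 : i₀ + σ * j = i₀ + σ * j' := by
      rw [← Int.toNat_of_nonneg h0, ← Int.toNat_of_nonneg h0']
      exact congrArg _ h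
    have h2 : (j : ℤ) = j' := by linear_combination σ * h1 - ((j : ℤ) - j') * hσ
    exact_mod_cast h2

theorem coprime_of {a q : ℕ} {σ i₀ a₀ : ℤ} (hσ : σ * σ = 1) (ha : (a : ℤ) = σ * (q * i₀ - a₀))
    (hg : Int.gcd a₀ q = 1) : Nat.Coprime a q := by
  rw [← Nat.isCoprime_iff_coprime]
  obtain ⟨u, v, huv⟩ := Int.isCoprime_iff_gcd_eq_one.2 hg
  refine ⟨-(u * σ), v + u * i₀, ?_⟩
  rw [ha]
  linear_combination huv - u * (q * i₀ - a₀) * hσ

end CaseAAux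

open CaseAAux in
theorem caseA : PrimeAStmt → CaseAStmt := by
  rintro ⟨η₀, hη₀, h⟩
  refine ⟨η₀, hη₀, fun η hη hη' => ?_⟩
  obtain ⟨c₀, hc₀, h⟩ := h η hη hη'
  refine ⟨c₀, hc₀, ?_⟩
  filter_upwards [h, ev_zz (c := 1 / 4) (by norm_num), ev_rpow 9 (c := 1 / 4) (by norm_num),
    ev_rpow 2 hη, eventually_ge_atTop 8] with m h hz h9 h2 hm N hD
  have hm0 : (0 : ℝ) < m := by exact_mod_cast (by omega : 0 < m)
  have hzz : zz m < m / 8 := by
    have e : (m : ℝ) = (m : ℝ) ^ (1 / 2 + 1 / 4 : ℝ) * (m : ℝ) ^ (1 / 4 : ℝ) := by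
      rw [← Real.rpow_add hm0]
      norm_num
    have hp : 0 < (m : ℝ) ^ (1 / 2 + 1 / 4 : ℝ) := Real.rpow_pos_of_pos hm0 _
    have := hz.2
    nlinarith
  unfold Defic at hD
  push Not at hD
  obtain ⟨q, a₀, hq1, hq, ha₀, hg, hsum⟩ := hD
  have e1 : (m : ℝ) ^ (1 + η) = m * (m : ℝ) ^ η := by rw [Real.rpow_add hm0, Real.rpow_one]
  have e2 : (m : ℝ) ^ (1 + 2 * η) = m * (m : ℝ) ^ η * (m : ℝ) ^ η := by
    rw [← e1, ← Real.rpow_add hm0]
    ring_nf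
  rw [e1] at ha₀
  have hq1' : (1 : ℤ) ≤ q := by exact_mod_cast hq1
  set T := m / 4 with hT
  have key : ∀ (σ i₀ : ℤ), σ * σ = 1 → (m : ℤ) ≤ 4 * (σ * (q * i₀ - a₀)) →
      σ * (q * i₀ - a₀) ≤ q * m + |a₀| →
      (∀ j : ℕ, j < T → 0 ≤ i₀ + σ * j ∧ i₀ + σ * j < m) →
      (m : ℝ) / Real.log m ^ 5 ≤ (surv N m (zz m)).card := by
    intro σ i₀ hσ hlo hhi hi
    obtain ⟨a, ha⟩ : ∃ a : ℕ, (a : ℤ) = σ * (q * i₀ - a₀) :=
      ⟨_, Int.toNat_of_nonneg (by omega)⟩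
    rw [← ha] at hlo hhi
    have hlo' : (m : ℝ) ≤ 4 * a := by exact_mod_cast hlo
    have hhi' : (a : ℝ) ≤ q * m + |(a₀ : ℝ)| := by exact_mod_cast hhi
    have hT8 : (m : ℝ) ≤ 8 * T := by exact_mod_cast (by omega : m ≤ 8 * T)
    have hok : AOK η m a q T (cls N i₀ σ)
        ((pr 2 ((m : ℝ) ^ (2 * η))).filter (fun p : ℕ => ¬ (p : ℤ) ∣ q * N + a₀)) :=
      { T_ge := by linarith
        T_le := by omega
        q_ge := hq1
        q_le := hq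
        a_ge := by linarith
        a_le := by
          rw [e2]
          have h3 : (q : ℝ) * m ≤ m * (m : ℝ) ^ η := by
            rw [mul_comm]
            exact mul_le_mul_of_nonneg_left hq hm0.le
          have h4 : 0 ≤ m * (m : ℝ) ^ η := by positivity
          nlinarith
        cop := coprime_of hσ ha hg
        sub := filter_subset _ _
        non := fun p hp hd => (mem_filter.1 hp).2
          (non_dvd N i₀ a₀ hσ (mem_pr.1 (mem_filter.1 hp).1).1.pos ha hd) }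
    refine (h a q T _ _ _ hok (filter_subset _ _) hsum).trans ?_
    exact_mod_cast card_le η m a q T N i₀ a₀ hσ ha (by linarith) hi
  have hT1 : 4 * (T : ℤ) ≤ m := by omega
  have hT2 : (0 : ℤ) ≤ T := by omega
  have hm' : (0 : ℤ) ≤ m := by omega
  have hab := le_abs_self a₀
  have hab' := neg_abs_le a₀
  by_cases hc : 2 * a₀ ≤ q * m
  · refine key 1 (m - T) (by norm_num) (by nlinarith) (by nlinarith) fun j hj => ?_
    constructor <;> omega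
  · refine key (-1) (T - 1) (by norm_num) (by nlinarith) ?_ fun j hj => ?_
    · have hT3 : (0 : ℤ) ≤ T - 1 := by omega
      nlinarith
    · constructor <;> omega

end Crest.Agent.R1s
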