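import Crest.Agent.R1s.Ev

/-! Row 1: lower bound after the small primes. -/

set_option autoImplicit false

namespace Crest.Agent.R1s

open Finset Filter
open Crest.Agent.R5 (pr pd ee)

namespace LowAAux

/-- a lower bound sieve with weights `l` -/
theorem sieve_low (S : Finset ℕ) (hS : ∀ p ∈ S, p.Prime) (l : Finset ℕ → ℝ) (g w : ℕ → ℝ)
    (cl : ℕ → ℕ) (T : ℕ) (X E Y V : ℝ) (hX : 0 ≤ X) (hE : 0 ≤ E) (hY : 0 ≤ Y)
    (hw : ∀ j, 0 ≤ w j)
    (h1 : ∀ U ⊆ S, ∑ t ∈ U.powerset, l t ≤ if U = ∅ then 1 else 0) (h2 : ∀ t, |l t| ≤ 1)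
    (h3 : ∀ t ⊆ S, l t ≠ 0 → (pd t : ℝ) ≤ Y)
    (h4 : V ≤ ∑ t ∈ S.powerset, l t * ∏ p ∈ t, g p)
    (h5 : ∀ t ⊆ S, (pd t : ℝ) ≤ Y →
      |∑ j ∈ (range T).filter (fun j => ∀ p ∈ t, j ≡ cl p [MOD p]), w j - X * ∏ p ∈ t, g p| ≤ E) :
    X * V - Y * E ≤ ∑ j ∈ (range T).filter (fun j => ∀ p ∈ S, ¬ j ≡ cl p [MOD p]), w j := by
  have a1 : ∑ t ∈ S.powerset,
      l t * ∑ j ∈ (range T).filter (fun j => ∀ p ∈ t, j ≡ cl p [MOD p]), w j ≤
      ∑ j ∈ (range T).filter (fun j => ∀ p ∈ S, ¬ j ≡ cl p [MOD p]), w j := by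
    simp_rw [sum_filter, mul_sum]
    rw [sum_comm]
    refine sum_le_sum fun j _ => ?_
    have b1 := h1 (S.filter (fun p => j ≡ cl p [MOD p])) (filter_subset _ _)
    have b2 : (S.filter (fun p => j ≡ cl p [MOD p])).powerset =
        S.powerset.filter (fun t => ∀ p ∈ t, j ≡ cl p [MOD p]) := by
      ext t
      simp only [mem_powerset, mem_filter, subset_iff]
      exact ⟨fun H => ⟨fun p hp => (H hp).1, fun p hp => (H hp).2⟩,
        fun H p hp => ⟨H.1 hp, H.2 p hp⟩⟩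
    have b3 : ∑ t ∈ S.powerset, l t * (if ∀ p ∈ t, j ≡ cl p [MOD p] then w j else 0) =
        (∑ t ∈ (S.filter (fun p => j ≡ cl p [MOD p])).powerset, l t) * w j := by
      rw [b2, sum_filter, sum_mul]
      refine sum_congr rfl fun t _ => ?_
      split_ifs <;> simp
    rw [b3]
    refine (mul_le_mul_of_nonneg_right b1 (hw j)).trans (le_of_eq ?_)
    simp only [filter_eq_empty_iff]
    by_cases H : ∀ p ∈ S, ¬ j ≡ cl p [MOD p]
    · rw [if_pos H, if_pos H, one_mul]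
    · rw [if_neg H, if_neg H, zero_mul]
  refine le_trans ?_ a1
  have a2 : ∀ t ∈ S.powerset, X * (l t * ∏ p ∈ t, g p) - (if l t ≠ 0 then E else 0) ≤
      l t * ∑ j ∈ (range T).filter (fun j => ∀ p ∈ t, j ≡ cl p [MOD p]), w j := by
    intro t ht
    by_cases h0 : l t = 0
    · simp [h0]
    · rw [if_pos h0]
      have b1 := h5 t (mem_powerset.1 ht) (h3 t (mem_powerset.1 ht) h0)
      set A := ∑ j ∈ (range T).filter (fun j => ∀ p ∈ t, j ≡ cl p [MOD p]), w j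
      have b2 : |l t * (A - X * ∏ p ∈ t, g p)| ≤ E := by
        rw [abs_mul]
        calc _ ≤ 1 * E := mul_le_mul (h2 t) b1 (abs_nonneg _) zero_le_one
          _ = E := one_mul E
      have b3 := (abs_le.1 b2).1
      linarith
  refine le_trans ?_ (sum_le_sum a2)
  rw [sum_sub_distrib, ← mul_sum, ← sum_filter, sum_const, nsmul_eq_mul]
  have a3 : ((S.powerset.filter (fun t => l t ≠ 0)).card : ℝ) ≤ Y := by
    refine card_pd_le hY fun t ht => ?_
    obtain ⟨b1, b2⟩ := mem_filter.1 ht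
    exact ⟨fun p hp => hS p (mem_powerset.1 b1 hp), h3 t (mem_powerset.1 b1) b2⟩
  have a4 := mul_le_mul_of_nonneg_left h4 hX
  have a5 := mul_le_mul_of_nonneg_right a3 hE
  linarith

theorem gq_bd (q : ℕ) {p : ℕ} (hp : 2 < p) : 0 ≤ gq q p ∧ gq q p ≤ 1 / 2 ∧ gq q p ≤ 2 / p := by
  have h3 : (3 : ℝ) ≤ p := by exact_mod_cast hp
  unfold gq
  split_ifs
  · refine ⟨by positivity, one_div_le_one_div_of_le (by norm_num) (by linarith), ?_⟩
    exact div_le_div_of_nonneg_right (by norm_num) (by linarith)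
  · refine ⟨one_div_nonneg.2 (by linarith), one_div_le_one_div_of_le (by norm_num) (by linarith), ?_⟩
    rw [div_le_div_iff₀ (by linarith) (by linarith)]
    linarith

theorem lp_nonneg (n : ℕ) : 0 ≤ lp n := by
  unfold lp
  split_ifs
  · exact Real.log_natCast_nonneg n
  · exact le_rfl

end LowAAux

open LowAAux in
theorem lowA : BHStmt → APStmt → V1Stmt → LowAStmt := by
  rintro ⟨s, hBH⟩ ⟨δ, C, hδ, hδ4, hC, hAP⟩ hV1
  refine ⟨δ / (8 * ((s : ℝ) + 1)), by positivity, fun η hη hη0 => ?_⟩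
  have hs0 : (0 : ℝ) ≤ s := Nat.cast_nonneg s
  have hη1 : η * (8 * ((s : ℝ) + 1)) ≤ δ := by rwa [le_div_iff₀ (by positivity)] at hη0
  have hη2 : 2 * η * s ≤ δ / 4 := by nlinarith
  have hη3 : 2 * η ≤ δ / 4 := by nlinarith
  filter_upwards [hV1, ev_log 1, eventually_ge_atTop 8,
    ev_log_pow (3 * C) 5 (c := δ / 2) (by positivity)] with m hV hL hm hE a q T cl S h
  set L := Real.log m with hLdef
  have hm8 : (8 : ℝ) ≤ m := by exact_mod_cast hm
  have hm1 : (1 : ℝ) ≤ m := by linarith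
  have hm0 : (0 : ℝ) < m := by linarith
  have hL0 : 0 < L := by linarith
  have hSp : ∀ p ∈ S, p.Prime ∧ 2 < p ∧ (p : ℝ) ≤ (m : ℝ) ^ (2 * η) := fun p hp => by
    obtain ⟨b1, b2, b3⟩ := mem_pr.1 (h.sub hp)
    exact ⟨b1, by exact_mod_cast b2, b3⟩
  have hle : ∀ x : ℝ, x ≤ 1 → (m : ℝ) ^ x ≤ m := fun x hx => by
    simpa using Real.rpow_le_rpow_of_exponent_le hm1 hx
  have hz1 : 1 ≤ (m : ℝ) ^ (2 * η) := Real.one_le_rpow hm1 (by positivity)
  obtain ⟨l, l1, l2, l3, l4⟩ := hBH ((m : ℝ) ^ (2 * η)) S (gq q) hz1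
    (fun p hp => ⟨(hSp p hp).1, (hSp p hp).2.2⟩) (fun p hp => gq_bd q (hSp p hp).2.1)
  have hVm : 64 / L ^ 4 ≤ ∏ p ∈ S, (1 - gq q p) := by
    refine hV q S fun p hp => mem_pr.2 ⟨(hSp p hp).1, by exact_mod_cast (hSp p hp).2.1, ?_⟩
    exact (hSp p hp).2.2.trans (hle _ (by linarith))
  have hφ : 1 ≤ (q : ℝ) / (q.totient : ℝ) := by
    have b1 : 0 < q.totient := Nat.totient_pos.2 h.q_ge
    rw [le_div_iff₀ (by exact_mod_cast b1), one_mul]
    exact_mod_cast Nat.totient_le q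
  have ha1 : 1 ≤ a := by
    have : (1 : ℝ) ≤ a := le_trans (by linarith) h.a_ge
    exact_mod_cast this
  have hY : ((m : ℝ) ^ (2 * η)) ^ s ≤ (m : ℝ) ^ (δ / 4) := by
    rw [← Real.rpow_natCast, ← Real.rpow_mul hm0.le]
    exact Real.rpow_le_rpow_of_exponent_le hm1 hη2
  have hN : ((a + q * T : ℕ) : ℝ) ^ (1 - δ) ≤ 2 * (m : ℝ) ^ (1 - 3 * δ / 4) := by
    have b1 : ((a + q * T : ℕ) : ℝ) ≤ 2 * (m : ℝ) ^ (1 + 2 * η) := by
      have b2 : (q : ℝ) * T ≤ (m : ℝ) ^ η * m :=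
        mul_le_mul h.q_le (by exact_mod_cast h.T_le) (Nat.cast_nonneg _) (by positivity)
      have b3 : (m : ℝ) ^ η * m ≤ (m : ℝ) ^ (1 + 2 * η) := by
        rw [← Real.rpow_add_one hm0.ne']
        exact Real.rpow_le_rpow_of_exponent_le hm1 (by linarith)
      have := h.a_le
      push_cast
      linarith
    calc _ ≤ (2 * (m : ℝ) ^ (1 + 2 * η)) ^ (1 - δ) :=
          Real.rpow_le_rpow (Nat.cast_nonneg _) b1 (by linarith)
      _ = 2 ^ (1 - δ) * (m : ℝ) ^ ((1 + 2 * η) * (1 - δ)) := by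
          rw [Real.mul_rpow (by norm_num) (by positivity), ← Real.rpow_mul hm0.le]
      _ ≤ 2 * (m : ℝ) ^ (1 - 3 * δ / 4) := by
          refine mul_le_mul ?_ (Real.rpow_le_rpow_of_exponent_le hm1 (by nlinarith))
            (by positivity) (by norm_num)
          simpa using Real.rpow_le_rpow_of_exponent_le (x := 2) (by norm_num)
            (show 1 - δ ≤ 1 by linarith)
  have key := sieve_low S (fun p hp => (hSp p hp).1) l (gq q) (fun j => lp (a + q * j)) cl T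
    (T * (q / (q.totient : ℝ))) (C * (2 * (m : ℝ) ^ (1 - 3 * δ / 4)) * (3 * L))
    ((m : ℝ) ^ (δ / 4)) (3 / 4 * ∏ p ∈ S, (1 - gq q p)) (by positivity) (by positivity)
    (by positivity) (fun j => lp_nonneg _) l1 l2 (fun t ht h0 => (l3 t ht h0).trans hY) l4
    (fun t ht hpd => by
      refine (hAP a q T cl t ha1 h.q_ge h.cop
        (fun p hp => ⟨(hSp p (ht hp)).1, h.non p (ht hp)⟩)).trans ?_
      have b0 : 0 < pd t := pd_pos fun p hp => (hSp p (ht hp)).1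
      have b1 : (1 : ℝ) ≤ ((q * pd t : ℕ) : ℝ) := by
        exact_mod_cast Nat.mul_pos h.q_ge b0
      have b2 : ((q * pd t : ℕ) : ℝ) ≤ m * m := by
        push_cast
        exact mul_le_mul (h.q_le.trans (hle _ (by linarith))) (hpd.trans (hle _ (by linarith)))
          (Nat.cast_nonneg _) hm0.le
      have b3 : Real.log (2 * ((q * pd t : ℕ) : ℝ)) ≤ 3 * L := by
        have : 3 * L = Real.log ((m : ℝ) ^ 3) := by rw [Real.log_pow]; norm_num [hLdef]
        rw [this]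
        refine Real.log_le_log (by linarith) ?_
        nlinarith [mul_pos hm0 hm0]
      have b4 : 0 ≤ Real.log (2 * ((q * pd t : ℕ) : ℝ)) := Real.log_nonneg (by linarith)
      exact mul_le_mul (mul_le_mul_of_nonneg_left hN hC.le) b3 b4 (by positivity))
  refine le_trans ?_ key
  have c1 : (m : ℝ) ^ (δ / 4) * (C * (2 * (m : ℝ) ^ (1 - 3 * δ / 4)) * (3 * L)) ≤
      2 * m / L ^ 4 := by
    rw [le_div_iff₀ (by positivity)]
    have e1 : (m : ℝ) ^ (δ / 4) * (m : ℝ) ^ (1 - 3 * δ / 4) * (m : ℝ) ^ (δ / 2) = m := by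
      rw [← Real.rpow_add hm0, ← Real.rpow_add hm0]
      have : δ / 4 + (1 - 3 * δ / 4) + δ / 2 = 1 := by ring
      rw [this, Real.rpow_one]
    calc _ = 2 * ((m : ℝ) ^ (δ / 4) * (m : ℝ) ^ (1 - 3 * δ / 4)) * (3 * C * L ^ 5) := by ring
      _ ≤ 2 * ((m : ℝ) ^ (δ / 4) * (m : ℝ) ^ (1 - 3 * δ / 4)) * (m : ℝ) ^ (δ / 2) :=
          mul_le_mul_of_nonneg_left hE (by positivity)
      _ = 2 * m := by rw [mul_assoc, e1]
  have c2 : (m : ℝ) / 8 * 1 * (64 / L ^ 4) ≤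
      T * (q / (q.totient : ℝ)) * ∏ p ∈ S, (1 - gq q p) :=
    mul_le_mul (mul_le_mul h.T_ge hφ zero_le_one (Nat.cast_nonneg _)) hVm (by positivity)
      (by positivity)
  have c3 : (m : ℝ) / 8 * 1 * (64 / L ^ 4) = 4 * (2 * m / L ^ 4) := by ring
  linarith

end Crest.Agent.R1s
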