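import Crest.Agent.R1s.Ev

/-! Row 1: primes avoiding all classes. -/

set_option autoImplicit false

namespace Crest.Agent.R1s

open Finset Filter
open Crest.Agent.R5 (pr pd ee)

namespace PrimeAAux

theorem sum_le (T : ℕ) (f : ℕ → ℕ) (cl : ℕ → ℕ) (S S' : Finset ℕ) (L : ℝ) (hL : 0 ≤ L)
    (hf : ∀ j < T, Real.log (f j) ≤ L) :
    ∑ j ∈ (range T).filter (fun j => ∀ p ∈ S, ¬ j ≡ cl p [MOD p]), lp (f j) ≤
      L * (((range T).filter (fun j => (f j).Prime ∧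
        (∀ l ∈ S, ¬ j ≡ cl l [MOD l]) ∧ ∀ p ∈ S', ¬ j ≡ cl p [MOD p])).card +
        ∑ p ∈ S', (((range T).filter (fun j => j ≡ cl p [MOD p] ∧ (f j).Prime ∧
          ∀ l ∈ S, ¬ j ≡ cl l [MOD l])).card : ℝ)) := by
  classical
  set A := (range T).filter (fun j => (f j).Prime ∧ ∀ l ∈ S, ¬ j ≡ cl l [MOD l]) with hA
  have h1 : ∑ j ∈ (range T).filter (fun j => ∀ p ∈ S, ¬ j ≡ cl p [MOD p]), lp (f j) ≤
      L * A.card := by
    have e : ∑ j ∈ (range T).filter (fun j => ∀ p ∈ S, ¬ j ≡ cl p [MOD p]), lp (f j) =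
        ∑ j ∈ A, Real.log (f j) := by
      simp only [lp]
      rw [← sum_filter, filter_filter]
      exact sum_congr (filter_congr fun j _ => and_comm) fun _ _ => rfl
    rw [e, mul_comm, ← nsmul_eq_mul]
    exact sum_le_card_nsmul _ _ _ fun j hj => hf j (mem_range.1 (mem_filter.1 hj).1)
  refine h1.trans (mul_le_mul_of_nonneg_left ?_ hL)
  have h2 : A ⊆ (range T).filter (fun j => (f j).Prime ∧
        (∀ l ∈ S, ¬ j ≡ cl l [MOD l]) ∧ ∀ p ∈ S', ¬ j ≡ cl p [MOD p]) ∪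
      S'.biUnion fun p => (range T).filter (fun j => j ≡ cl p [MOD p] ∧ (f j).Prime ∧
          ∀ l ∈ S, ¬ j ≡ cl l [MOD l]) := by
    intro j hj
    obtain ⟨hjT, hp, hS⟩ := mem_filter.1 hj
    by_cases h : ∀ p ∈ S', ¬ j ≡ cl p [MOD p]
    · exact mem_union_left _ (mem_filter.2 ⟨hjT, hp, hS, h⟩)
    · push Not at h
      obtain ⟨p, hpS, hc⟩ := h
      exact mem_union_right _ (mem_biUnion.2 ⟨p, hpS, mem_filter.2 ⟨hjT, hc, hp, hS⟩⟩)
  have h3 := (card_le_card h2).trans ((card_union_le _ _).trans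
    (Nat.add_le_add_left card_biUnion_le _))
  exact_mod_cast h3

end PrimeAAux

theorem primeA : LowAStmt → UpAStmt → V1Stmt → PrimeAStmt := by
  rintro ⟨η₀, hη₀, hLow⟩ ⟨C, hC, hUp⟩ hV
  refine ⟨min η₀ (1 / 200), lt_min hη₀ (by norm_num), fun η hη hη' => ?_⟩
  have hη1 : η ≤ 1 / 200 := hη'.trans (min_le_right _ _)
  refine ⟨η / (8 * C), by positivity, ?_⟩
  filter_upwards [hLow η hη (hη'.trans (min_le_left _ _)), hUp η hη hη1, hV, ev_log 1,
    ev_rpow 2 (c := 1 / 2) (by norm_num), eventually_ge_atTop 1]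
    with m hLow hUp hV hL h2 hm a q T cl S S' hok hS' hsum
  have hm1 : (1 : ℝ) ≤ m := by exact_mod_cast hm
  have hm0 : (0 : ℝ) < m := by linarith
  set L := Real.log m with hLdef
  have hL0 : 0 < L := by linarith
  set W : ℝ := T * (q / (q.totient : ℝ)) * ∏ p ∈ S, (1 - gq q p) with hW
  have hSm : S ⊆ pr 2 m := by
    intro p hp
    obtain ⟨h1, h3, h4⟩ := mem_pr.1 (hok.sub hp)
    refine mem_pr.2 ⟨h1, h3, h4.trans ?_⟩
    calc (m : ℝ) ^ (2 * η) ≤ (m : ℝ) ^ (1 : ℝ) :=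
          Real.rpow_le_rpow_of_exponent_le hm1 (by linarith)
      _ = m := Real.rpow_one _
  have hV' := hV q S hSm
  have hq : (1 : ℝ) ≤ q / (q.totient : ℝ) := by
    have h1 : (0 : ℝ) < q.totient := by exact_mod_cast Nat.totient_pos.2 hok.q_ge
    rw [le_div_iff₀ h1, one_mul]
    exact_mod_cast Nat.totient_le q
  have hW1 : m / 8 * 1 * (64 / L ^ 4) ≤ W := by
    have hT := hok.T_ge
    rw [hW]
    gcongr
  have hW0 : 0 ≤ W := le_trans (by positivity) hW1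
  have hlog : ∀ j < T, Real.log ((a + q * j : ℕ) : ℝ) ≤ 2 * L := by
    intro j hj
    have ha0 : (0 : ℝ) < a := lt_of_lt_of_le (by positivity) hok.a_ge
    have h3 : (m : ℝ) ^ (1 + 2 * η) ≤ (m : ℝ) ^ (3 / 2 : ℝ) :=
      Real.rpow_le_rpow_of_exponent_le hm1 (by linarith)
    have h4 : (m : ℝ) ^ η ≤ (m : ℝ) ^ (1 / 2 : ℝ) :=
      Real.rpow_le_rpow_of_exponent_le hm1 (by linarith)
    have h5 : (m : ℝ) ^ (3 / 2 : ℝ) = (m : ℝ) ^ (1 / 2 : ℝ) * m := by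
      rw [← Real.rpow_add_one hm0.ne']
      norm_num
    have h6 : (m : ℝ) ^ (1 / 2 : ℝ) * (m : ℝ) ^ (1 / 2 : ℝ) = m := by
      rw [← Real.rpow_add hm0]
      norm_num
    have h7 : (j : ℝ) ≤ m := by exact_mod_cast (hj.le.trans hok.T_le)
    have h8 : (q : ℝ) * j ≤ (m : ℝ) ^ (1 / 2 : ℝ) * m :=
      mul_le_mul (hok.q_le.trans h4) h7 (Nat.cast_nonneg _) (by positivity)
    have h9 : ((a + q * j : ℕ) : ℝ) ≤ (m : ℝ) ^ 2 := by
      push_cast
      have h10 := hok.a_le.trans (h3.trans h5.le)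
      have h11 : 2 * ((m : ℝ) ^ (1 / 2 : ℝ) * m) ≤
          (m : ℝ) ^ (1 / 2 : ℝ) * ((m : ℝ) ^ (1 / 2 : ℝ) * m) :=
        mul_le_mul_of_nonneg_right h2 (by positivity)
      rw [← mul_assoc ((m : ℝ) ^ (1 / 2 : ℝ)), h6] at h11
      nlinarith
    have h12 : (0 : ℝ) < ((a + q * j : ℕ) : ℝ) := by
      push_cast
      positivity
    calc Real.log ((a + q * j : ℕ) : ℝ) ≤ Real.log ((m : ℝ) ^ 2) := Real.log_le_log h12 h9
      _ = 2 * L := by rw [Real.log_pow]; norm_num [hLdef]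
  have h1 := (hLow a q T cl S hok).trans
    (PrimeAAux.sum_le T (fun j => a + q * j) cl S S' (2 * L) (by positivity) hlog)
  have h3 : ∑ p ∈ S', (((range T).filter (fun j => j ≡ cl p [MOD p] ∧ (a + q * j).Prime ∧
      ∀ l ∈ S, ¬ j ≡ cl l [MOD l])).card : ℝ) ≤ W / (8 * L) := by
    calc _ ≤ ∑ p ∈ S', C * W / (η * L) * (1 / (p : ℝ)) := by
          refine sum_le_sum fun p hp => (hUp a q T cl S hok p (hS' hp) (cl p)).trans (le_of_eq ?_)
          rw [div_mul_div_comm, mul_one, mul_comm (η * L)]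
      _ = C * W / (η * L) * ∑ p ∈ S', 1 / (p : ℝ) := by rw [mul_sum]
      _ ≤ C * W / (η * L) * (η / (8 * C)) := by gcongr
      _ = W / (8 * L) := by field_simp
  set c : ℝ := (((range T).filter (fun j => (a + q * j).Prime ∧
        (∀ l ∈ S, ¬ j ≡ cl l [MOD l]) ∧ ∀ p ∈ S', ¬ j ≡ cl p [MOD p])).card : ℝ) with hc
  have h4 : 1 / 2 * W ≤ 2 * L * (c + W / (8 * L)) := h1.trans (by gcongr)
  have h5 : 2 * L * (c + W / (8 * L)) = 2 * L * c + W / 4 := by field_simp; ring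
  have h6 : m / 8 * 1 * (64 / L ^ 4) = 8 * L * (m / L ^ 5) := by field_simp; ring
  have h7 : 8 * L * (m / L ^ 5) ≤ 8 * L * c := by linarith
  exact le_of_mul_le_mul_left h7 (by positivity)

end Crest.Agent.R1s
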