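import Crest.Agent.R1s.Ev

/-! Row 1: reduction to the core statement. -/

set_option autoImplicit false

namespace Crest.Agent.R1s

open Finset Filter
open Crest.Agent.R5 (pr pd ee)

namespace RedAux

lemma dvd_of_two {p : ℕ} (hp : p.Prime) (h2 : 2 < p) {y : ℤ} (h : (p : ℤ) ∣ 2 * y) :
    (p : ℤ) ∣ y := by
  rcases (Nat.prime_iff_prime_int.1 hp).dvd_or_dvd h with h | h
  · have := Int.le_of_dvd (by norm_num) h
    omega
  · exact h

lemma count_le {p : ℕ} (hp : p.Prime) (h2 : 2 < p) (x0 : ℤ) (m : ℕ) :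
    (((range m).filter (fun i : ℕ => (p : ℤ) ∣ x0 + 2 * i)).card : ℝ) ≤ m / p + 1 := by
  have h1 : ((range m).filter (fun i : ℕ => (p : ℤ) ∣ x0 + 2 * i)).card ≤
      (range (m / p + 1)).card := by
    refine card_le_card_of_injOn (fun i => i / p) (fun i hi => ?_) (fun i hi j hj hij => ?_)
    · simp only [coe_filter, mem_range, Set.mem_ofPred_eq] at hi
      simp only [coe_range, Set.mem_Iio]
      exact Nat.lt_succ_of_le (Nat.div_le_div_right hi.1.le)
    · simp only [coe_filter, mem_range, Set.mem_ofPred_eq] at hi hj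
      have h3 : (p : ℤ) ∣ 2 * ((j : ℤ) - i) := by
        have := dvd_sub hj.2 hi.2
        rwa [show x0 + 2 * (j : ℤ) - (x0 + 2 * i) = 2 * ((j : ℤ) - i) by ring] at this
      have h4 : i ≡ j [MOD p] := (Nat.modEq_iff_dvd).2 (dvd_of_two hp h2 h3)
      have h5 : i % p = j % p := h4
      have h6 : i / p = j / p := hij
      rw [← Nat.div_add_mod i p, ← Nat.div_add_mod j p, h5, h6]
  rw [card_range] at h1
  have h3 : ((m / p : ℕ) : ℝ) ≤ m / p := Nat.cast_div_le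
  have h4 : (((range m).filter (fun i : ℕ => (p : ℤ) ∣ x0 + 2 * i)).card : ℝ) ≤
      ((m / p + 1 : ℕ) : ℝ) := by exact_mod_cast h1
  push_cast at h4
  linarith

/-- the combinatorial step -/
lemma step (m n : ℕ) (hn : 0 < n) (z : ℝ) (hz : 0 < z) (k : ℝ) (hk : (n.primeFactors.card : ℝ) ≤ k)
    (hs : ∀ N : ℤ, k * (m / z + 1) < (surv N m z).card) (x0 : ℤ) (hx : Odd x0) :
    ∃ i < m, Int.gcd (x0 + 2 * i) n = 1 := by
  have hQ : Odd (pd (pr 2 z)) := by
    rw [← Nat.not_even_iff_odd, even_iff_two_dvd]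
    intro h
    have := (prime_dvd_pd (fun p hp => (mem_pr.1 hp).1) Nat.prime_two).1 h
    have := (mem_pr.1 this).2.1
    norm_num at this
  obtain ⟨h, hh⟩ := hQ
  set N : ℤ := x0 * (h + 1) with hN
  set P := n.primeFactors.filter (fun p : ℕ => 2 < p ∧ z < (p : ℝ)) with hP
  set Bad := P.biUnion (fun p => (range m).filter (fun i : ℕ => (p : ℤ) ∣ x0 + 2 * i)) with hB
  have hb : (Bad.card : ℝ) ≤ k * (m / z + 1) := by
    have h1 : (Bad.card : ℝ) ≤
        ∑ p ∈ P, (((range m).filter (fun i : ℕ => (p : ℤ) ∣ x0 + 2 * i)).card : ℝ) := by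
      exact_mod_cast card_biUnion_le
    have h2 : ∑ p ∈ P, (((range m).filter (fun i : ℕ => (p : ℤ) ∣ x0 + 2 * i)).card : ℝ) ≤
        ∑ p ∈ P, ((m : ℝ) / z + 1) := by
      refine sum_le_sum fun p hp => ?_
      obtain ⟨a, b, c⟩ := mem_filter.1 hp
      refine (count_le (Nat.prime_of_mem_primeFactors a) b x0 m).trans ?_
      gcongr
    have h3 : (P.card : ℝ) ≤ k := le_trans (by exact_mod_cast card_filter_le _ _) hk
    rw [sum_const, nsmul_eq_mul] at h2
    have h4 : (P.card : ℝ) * ((m : ℝ) / z + 1) ≤ k * (m / z + 1) := by gcongr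
    linarith
  have hlt : Bad.card < (surv N m z).card := by exact_mod_cast hb.trans_lt (hs N)
  obtain ⟨i, hi, hi'⟩ := exists_mem_notMem_of_card_lt_card hlt
  obtain ⟨him, hi2⟩ := mem_filter.1 hi
  refine ⟨i, mem_range.1 him, ?_⟩
  by_contra hg
  obtain ⟨p, hp, hpg⟩ := Nat.exists_prime_and_dvd hg
  have d1 : (p : ℤ) ∣ x0 + 2 * i := (Int.natCast_dvd_natCast.2 hpg).trans (Int.gcd_dvd_left _ _)
  have d2 : p ∣ n :=
    Int.natCast_dvd_natCast.1 ((Int.natCast_dvd_natCast.2 hpg).trans (Int.gcd_dvd_right _ _))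
  have h2 : 2 < p := by
    rcases hp.two_le.lt_or_eq with h | h
    · exact h
    · subst h
      obtain ⟨t, ht⟩ := hx
      push_cast at d1
      omega
  by_cases hpz : z < (p : ℝ)
  · exact hi' (mem_biUnion.2 ⟨p, mem_filter.2 ⟨Nat.mem_primeFactors.2 ⟨hp, d2, hn.ne'⟩, h2, hpz⟩,
      mem_filter.2 ⟨him, d1⟩⟩)
  · have hpm : p ∈ pr 2 z := mem_pr.2 ⟨hp, by exact_mod_cast h2, not_lt.1 hpz⟩
    refine hi2 p hpm (dvd_of_two hp h2 ?_)
    have d3 : (p : ℤ) ∣ (pd (pr 2 z) : ℤ) := Int.natCast_dvd_natCast.2 (dvd_pd hpm)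
    have e : 2 * (N + i) = x0 * (pd (pr 2 z) : ℤ) + (x0 + 2 * i) := by
      rw [hh, hN]; push_cast; ring
    rw [e]
    exact dvd_add (d3.mul_left _) d1

end RedAux

theorem red : CoreStmt → JacStmt := by
  intro hc
  obtain ⟨m0, hm0⟩ := eventually_atTop.1
    (hc.and ((ev_log 3).and (ev_log_pow 1 7 (c := 1 / 2) (by norm_num))))
  refine ⟨36 * (m0 + 3), by positivity, fun k hk n hn hnk a m hm => ?_⟩
  have k1 : (1 : ℝ) ≤ k := by exact_mod_cast hk
  have m00 : (0 : ℝ) ≤ m0 := Nat.cast_nonneg _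
  set ℓ := Real.log (Real.log (3 * (k : ℝ))) with hℓ
  have l1 : 1 < Real.log (3 * (k : ℝ)) := by
    rw [Real.lt_log_iff_exp_lt (by linarith)]
    linarith [Real.exp_one_lt_d9]
  have l2 : 0 < ℓ := Real.log_pos l1
  have l3 : ℓ ≤ Real.log (3 * (k : ℝ)) := by
    have := Real.log_le_sub_one_of_pos (show 0 < Real.log (3 * (k : ℝ)) by linarith)
    linarith
  have l4 : Real.log (3 * (k : ℝ)) ≤ 2 * √(3 * (k : ℝ)) := by
    have h1 := Real.log_le_sub_one_of_pos (show 0 < √(3 * (k : ℝ)) by positivity)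
    rw [Real.log_sqrt (by positivity)] at h1
    linarith
  have l5 : ℓ ^ 2 ≤ 12 * k := by
    have h1 : ℓ ^ 2 ≤ (2 * √(3 * (k : ℝ))) ^ 2 := by gcongr; linarith
    rw [mul_pow, Real.sq_sqrt (by positivity)] at h1
    linarith
  rw [div_le_iff₀ (by positivity)] at hm
  have mm : (0 : ℝ) ≤ m := Nat.cast_nonneg _
  have h1 : 3 * ((m0 : ℝ) + 3) * k ≤ m := by
    have h2 : (m : ℝ) * ℓ ^ 2 ≤ m * (12 * k) := by gcongr
    have h3 : (12 * k) * (3 * ((m0 : ℝ) + 3) * k) ≤ (12 * k) * m := by nlinarith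
    exact le_of_mul_le_mul_left h3 (by positivity)
  set m' := m / 2 with hm'
  have h9 : (9 : ℝ) ≤ m := by nlinarith
  have h9' : 9 ≤ m := by exact_mod_cast h9
  have h3m : (m : ℝ) ≤ 3 * m' := by
    have : m ≤ 3 * m' := by omega
    exact_mod_cast this
  have hk3 : ((m0 : ℝ) + 3) * k ≤ m' := by linarith
  have hm0' : m0 ≤ m' := by
    have : (m0 : ℝ) ≤ m' := by nlinarith
    exact_mod_cast this
  obtain ⟨c1, c2, c3⟩ := hm0 m' hm0'
  have p0 : (0 : ℝ) < m' := by linarith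
  set L := Real.log (m' : ℝ) with hL
  have lL : ℓ ≤ L := l3.trans (Real.log_le_log (by positivity) (by nlinarith))
  rw [one_mul, ← Real.sqrt_eq_rpow] at c3
  set s := √(m' : ℝ) with hs
  have s0 : 0 < s := Real.sqrt_pos.2 p0
  have ss : s * s = m' := Real.mul_self_sqrt p0.le
  have kk : (k : ℝ) ≤ s * L := by
    refine (pow_le_pow_iff_left₀ (by positivity) (mul_nonneg s0.le (by linarith)) two_ne_zero).1 ?_
    have h2 : (m : ℝ) * ℓ ^ 2 ≤ (3 * m') * L ^ 2 := by gcongr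
    rw [mul_pow, sq s, ss]
    nlinarith [sq_nonneg (k : ℝ), mul_nonneg m00 (sq_nonneg (k : ℝ))]
  have L0 : 0 < L := by linarith
  have key : (k : ℝ) * (m' / zz m' + 1) < m' / L ^ 5 := by
    have e1 : (m' : ℝ) / zz m' = s / L ^ 7 := by
      unfold zz
      rw [← hs, ← hL, ← ss]
      field_simp
    have e2 : 1 ≤ s / L ^ 7 := by rw [le_div_iff₀ (by positivity)]; linarith
    calc (k : ℝ) * (m' / zz m' + 1) ≤ (s * L) * (s / L ^ 7 + s / L ^ 7) := by
          rw [e1]; gcongr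
      _ = (2 / L) * (m' / L ^ 5) := by rw [← ss]; field_simp; ring
      _ < 1 * (m' / L ^ 5) := by
          gcongr
          rw [div_lt_one L0]; linarith
      _ = _ := one_mul _
  have hz : 0 < zz m' := by unfold zz; positivity
  obtain ⟨x0, x1, x2, x3⟩ : ∃ x0 : ℤ, Odd x0 ∧ a ≤ x0 ∧ x0 ≤ a + 1 := by
    rcases Int.even_or_odd a with h | h
    · exact ⟨a + 1, h.add_one, by omega, le_rfl⟩
    · exact ⟨a, h, le_rfl, by omega⟩
  obtain ⟨i, hi, hg⟩ := RedAux.step m' n hn (zz m') hz k (by exact_mod_cast hnk)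
    (fun N => key.trans_le (c1 N)) x0 x1
  exact ⟨x0 + 2 * i, by omega, by omega, hg⟩

end Crest.Agent.R1s
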