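import Crest.Agent.R1s.Ev
import Crest.Agent.R26.FL

/-! Row 1: upper bound for one large class. -/

set_option autoImplicit false

namespace Crest.Agent.R1s

open Finset Filter
open Crest.Agent.R5 (pr pd ee)

namespace UpAAux

theorem pd_union_le {s t : Finset ℕ} (hs : ∀ p ∈ s, p.Prime) :
    pd (s ∪ t) ≤ pd s * pd t := by
  rw [← sdiff_union_self_eq_union, pd_union sdiff_disjoint]
  exact Nat.mul_le_mul_right _ (pd_mono hs sdiff_subset)

theorem sieve (hCRT : CRTStmt) (T p c : ℕ) (hp : 1 ≤ p) (S₀ : Finset ℕ) (Ω : ℕ → Finset ℕ)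
    (hS : ∀ l ∈ S₀, l.Prime ∧ ¬ l ∣ p ∧ ∀ x ∈ Ω l, x < l) (lam : Finset ℕ → ℝ) (R : ℝ)
    (hR : 0 ≤ R) (h0 : lam ∅ = 1) (h1 : ∀ s, |lam s| ≤ 1)
    (h2 : ∀ s, lam s ≠ 0 → (pd s : ℝ) ≤ R) (A : Finset ℕ)
    (hA : ∀ j ∈ A, j < T ∧ j ≡ c [MOD p] ∧ ∀ l ∈ S₀, j % l ∉ Ω l) :
    (A.card : ℝ) ≤ T / p * ∑ s₁ ∈ S₀.powerset, ∑ s₂ ∈ S₀.powerset,
      lam s₁ * lam s₂ * ∏ l ∈ s₁ ∪ s₂, ((Ω l).card / (l : ℝ)) + R ^ 4 := by
  classical
  set J := (range T).filter (fun j => j ≡ c [MOD p]) with hJ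
  set ind : Finset ℕ → ℕ → ℝ := fun s j => if ∀ l ∈ s, j % l ∈ Ω l then 1 else 0 with hind
  have e1 : (A.card : ℝ) ≤ ∑ j ∈ J, (∑ s ∈ S₀.powerset, lam s * ind s j) ^ 2 := by
    refine le_trans ?_ (sum_le_sum_of_subset_of_nonneg (s := A)
      (fun j hj => mem_filter.2 ⟨mem_range.2 (hA j hj).1, (hA j hj).2.1⟩) fun _ _ _ => sq_nonneg _)
    rw [card_eq_sum_ones, Nat.cast_sum]
    refine sum_le_sum fun j hj => ?_
    rw [sum_eq_single ∅]
    · simp [h0, hind]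
    · intro s hs hne
      obtain ⟨l, hl⟩ := nonempty_iff_ne_empty.2 hne
      have := (hA j hj).2.2 l (mem_powerset.1 hs hl)
      simp only [hind]
      rw [if_neg fun h => this (h l hl), mul_zero]
    · intro h
      exact absurd (empty_mem_powerset S₀) h
  have e2 : ∑ j ∈ J, (∑ s ∈ S₀.powerset, lam s * ind s j) ^ 2 =
      ∑ s₁ ∈ S₀.powerset, ∑ s₂ ∈ S₀.powerset, lam s₁ * lam s₂ *
        (((range T).filter (fun j => j ≡ c [MOD p] ∧ ∀ l ∈ s₁ ∪ s₂, j % l ∈ Ω l)).card : ℝ) := by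
    simp only [sq, sum_mul_sum]
    rw [sum_comm]
    refine sum_congr rfl fun s₁ _ => ?_
    rw [sum_comm]
    refine sum_congr rfl fun s₂ _ => ?_
    rw [← filter_filter, ← hJ, card_filter, Nat.cast_sum, mul_sum]
    refine sum_congr rfl fun j _ => ?_
    simp only [hind, forall_mem_union]
    by_cases a1 : ∀ l ∈ s₁, j % l ∈ Ω l
    · by_cases a2 : ∀ l ∈ s₂, j % l ∈ Ω l
      · rw [if_pos a1, if_pos a2, if_pos ⟨a1, a2⟩]
        simp
      · rw [if_neg a2, if_neg fun h : _ ∧ _ => a2 h.2]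
        simp
    · rw [if_neg a1, if_neg fun h : _ ∧ _ => a1 h.1]
      simp
  have e3 : ∑ s ∈ S₀.powerset, |lam s| * pd s ≤ R ^ 2 := by
    rw [← sum_filter_of_ne (p := fun s => lam s ≠ 0) fun s _ h h' => h (by rw [h']; simp)]
    have hc := card_pd_le (U := S₀.powerset.filter fun s => lam s ≠ 0) hR fun t ht =>
      ⟨fun l hl => (hS l (mem_powerset.1 (mem_filter.1 ht).1 hl)).1, h2 t (mem_filter.1 ht).2⟩
    calc _ ≤ ((S₀.powerset.filter fun s => lam s ≠ 0).card : ℝ) * R := by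
          rw [← nsmul_eq_mul]
          refine sum_le_card_nsmul _ _ _ fun s hs => ?_
          calc |lam s| * pd s ≤ 1 * R :=
                mul_le_mul (h1 s) (h2 s (mem_filter.1 hs).2) (Nat.cast_nonneg _) zero_le_one
            _ = R := one_mul _
      _ ≤ R * R := mul_le_mul_of_nonneg_right hc hR
      _ = R ^ 2 := (sq R).symm
  have e4 : ∑ s₁ ∈ S₀.powerset, ∑ s₂ ∈ S₀.powerset, (|lam s₁| * pd s₁) * (|lam s₂| * pd s₂) ≤
      R ^ 4 := by
    rw [← sum_mul_sum]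
    have h0' : 0 ≤ ∑ s ∈ S₀.powerset, |lam s| * pd s := sum_nonneg fun _ _ => by positivity
    calc _ ≤ R ^ 2 * R ^ 2 := mul_le_mul e3 e3 h0' (by positivity)
      _ = R ^ 4 := by ring
  refine e1.trans (e2.le.trans (le_trans ?_ (add_le_add le_rfl e4)))
  rw [mul_sum, ← sum_add_distrib]
  refine sum_le_sum fun s₁ hs₁ => ?_
  rw [mul_sum, ← sum_add_distrib]
  refine sum_le_sum fun s₂ hs₂ => ?_
  have a1 := mem_powerset.1 hs₁
  have a2 := mem_powerset.1 hs₂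
  have a3 := hCRT T p c (s₁ ∪ s₂) Ω hp fun l hl => hS l (union_subset a1 a2 hl)
  have a4 : (pd (s₁ ∪ s₂) : ℝ) ≤ pd s₁ * pd s₂ := by
    exact_mod_cast pd_union_le fun l hl => (hS l (a1 hl)).1
  have a5 := le_abs_self (lam s₁ * lam s₂ *
    ((((range T).filter (fun j => j ≡ c [MOD p] ∧ ∀ l ∈ s₁ ∪ s₂, j % l ∈ Ω l)).card : ℝ) -
      T / p * ∏ l ∈ s₁ ∪ s₂, ((Ω l).card / (l : ℝ))))
  rw [abs_mul, abs_mul] at a5
  have a6 := mul_le_mul_of_nonneg_left (a3.trans a4)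
    (mul_nonneg (abs_nonneg (lam s₁)) (abs_nonneg (lam s₂)))
  nlinarith

theorem exists_root (a q : ℕ) : ∃ r : ℕ → ℕ, ∀ l, l.Prime → ¬ l ∣ q → r l < l ∧ l ∣ a + q * r l := by
  have h : ∀ l : ℕ, ∃ r : ℕ, l.Prime → ¬ l ∣ q → r < l ∧ l ∣ a + q * r := by
    intro l
    by_cases hl : l.Prime ∧ ¬ l ∣ q
    · obtain ⟨u, hu1, hu⟩ := Nat.exists_mul_mod_eq_of_coprime ((l - 1) * a)
        ((Nat.Prime.coprime_iff_not_dvd hl.1).2 hl.2).symm hl.1.ne_zero
      refine ⟨u, fun _ _ => ⟨hu1, ?_⟩⟩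
      have h1 : a + q * u ≡ a + (l - 1) * a [MOD l] := Nat.ModEq.add_left a hu
      have h2 : a + (l - 1) * a = l * a := by
        obtain ⟨k, rfl⟩ := Nat.exists_eq_succ_of_ne_zero hl.1.ne_zero
        simp only [Nat.succ_sub_one, Nat.succ_mul]
        ring
      rw [h2] at h1
      exact (Nat.modEq_zero_iff_dvd).1 (h1.trans (Nat.modEq_zero_iff_dvd.2 (dvd_mul_right _ _)))
    · exact ⟨0, fun h1 h2 => absurd ⟨h1, h2⟩ hl⟩
  choose r hr using h
  exact ⟨r, hr⟩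

/-- the forbidden classes -/
def Om (q : ℕ) (r cl : ℕ → ℕ) (S : Finset ℕ) (l : ℕ) : Finset ℕ :=
  (if l ∣ q then ∅ else {r l}) ∪ (if l ∈ S then {cl l % l} else ∅)

theorem dvd_of_mod {a q l x y : ℕ} (h : x % l = y % l) (hd : l ∣ a + q * y) : l ∣ a + q * x :=
  (Nat.modEq_zero_iff_dvd).1 (((Nat.ModEq.mul_left q h).add_left a).trans
    (Nat.modEq_zero_iff_dvd.2 hd))

theorem card_Om {a q : ℕ} {r cl : ℕ → ℕ} {S : Finset ℕ} {l : ℕ}
    (hr : ¬ l ∣ q → r l < l ∧ l ∣ a + q * r l) (hn : l ∈ S → ¬ l ∣ a + q * cl l) :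
    (Om q r cl S l).card = (if l ∣ q then 0 else 1) + (if l ∈ S then 1 else 0) := by
  unfold Om
  by_cases h1 : l ∣ q <;> by_cases h2 : l ∈ S <;> simp only [h1, h2, if_true, if_false]
  · simp
  · simp
  · rw [card_union_of_disjoint, card_singleton, card_singleton]
    rw [disjoint_singleton]
    intro h
    refine hn h2 (dvd_of_mod (y := r l) ?_ (hr h1).2)
    rw [← h, Nat.mod_eq_of_lt (hr h1).1]
  · simp

theorem prod_q (q : ℕ) (hq : 1 ≤ q) (S₀ : Finset ℕ) (hS : ∀ l ∈ S₀, l.Prime) :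
    ∏ l ∈ S₀, (1 - (if l ∣ q then 0 else 1) / (l : ℝ)) ≤
      q / (q.totient : ℝ) * ∏ l ∈ S₀, (1 - 1 / (l : ℝ)) := by
  have hpos : ∀ l : ℕ, l.Prime → 0 ≤ 1 - 1 / (l : ℝ) ∧ 1 - 1 / (l : ℝ) ≤ 1 := by
    intro l hl
    have : (1 : ℝ) ≤ l := by exact_mod_cast hl.one_le
    have h1 : 1 / (l : ℝ) ≤ 1 := by rw [div_le_one (by linarith)]; exact this
    have h2 : 0 ≤ 1 / (l : ℝ) := by positivity
    constructor <;> linarith
  have e1 : ∏ l ∈ S₀, (1 - (if l ∣ q then 0 else 1) / (l : ℝ)) =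
      ∏ l ∈ S₀.filter (fun l => ¬ l ∣ q), (1 - 1 / (l : ℝ)) := by
    rw [prod_filter]
    refine prod_congr rfl fun l _ => ?_
    by_cases h : l ∣ q <;> simp [h]
  have e2 := prod_filter_mul_prod_filter_not S₀ (fun l => l ∣ q) (fun l => 1 - 1 / (l : ℝ))
  have e3 : (q.totient : ℝ) = q * ∏ l ∈ q.primeFactors, (1 - 1 / (l : ℝ)) := by
    have := congrArg (Rat.cast : ℚ → ℝ) (Nat.totient_eq_mul_prod_factors q)
    simpa using this
  have e4 : ∏ l ∈ q.primeFactors, (1 - 1 / (l : ℝ)) ≤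
      ∏ l ∈ S₀.filter (fun l => l ∣ q), (1 - 1 / (l : ℝ)) :=
    prod_le_prod_of_subset_of_le_one (fun l hl => Nat.mem_primeFactors.2
      ⟨hS l (mem_filter.1 hl).1, (mem_filter.1 hl).2, by omega⟩)
      (fun l hl => (hpos l (Nat.prime_of_mem_primeFactors hl)).1)
      fun l hl _ => (hpos l (Nat.prime_of_mem_primeFactors hl)).2
  have h1 : (0 : ℝ) < q.totient := by exact_mod_cast Nat.totient_pos.2 hq
  have h2 : 0 ≤ ∏ l ∈ S₀.filter (fun l => ¬ l ∣ q), (1 - 1 / (l : ℝ)) :=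
    prod_nonneg fun l hl => (hpos l (hS l (mem_filter.1 hl).1)).1
  have h3 : (0 : ℝ) ≤ q := Nat.cast_nonneg _
  rw [e1, ← e2, div_mul_eq_mul_div, le_div_iff₀ h1, e3]
  have := mul_le_mul_of_nonneg_left e4 (mul_nonneg h2 h3)
  nlinarith

theorem prod_g (q : ℕ) (S S₀ : Finset ℕ) (hsub : S ⊆ S₀) (hS : ∀ l ∈ S, 2 < l) :
    ∏ l ∈ S₀, (1 - (((if l ∣ q then 0 else 1) + (if l ∈ S then 1 else 0) : ℕ) : ℝ) / l) =
      (∏ l ∈ S₀, (1 - (if l ∣ q then 0 else 1) / (l : ℝ))) * ∏ l ∈ S, (1 - gq q l) := by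
  have e : ∏ l ∈ S, (1 - gq q l) = ∏ l ∈ S₀, if l ∈ S then 1 - gq q l else 1 := by
    rw [← prod_filter, filter_mem_eq_inter, inter_eq_right.2 hsub]
  rw [e, ← prod_mul_distrib]
  refine prod_congr rfl fun l _ => ?_
  by_cases h2 : l ∈ S
  · have h3 : (2 : ℝ) < l := by exact_mod_cast hS l h2
    have h4 : (l : ℝ) - 1 ≠ 0 := by linarith
    have h5 : (l : ℝ) ≠ 0 := by linarith
    by_cases h1 : l ∣ q
    · simp [h1, h2, gq]
    · simp only [h1, h2, gq, if_true, if_false]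
      push_cast
      field_simp
      ring
  · by_cases h1 : l ∣ q <;> simp [h1, h2]

end UpAAux

open UpAAux in
theorem upA : R8.SelbergStmt → CRTStmt → V1Stmt → UpAStmt := by
  intro hSel hCRT hV
  obtain ⟨C₁, hC₁, hP⟩ := R26.FLA.prod_le
  obtain ⟨C₂, hC₂, -, hM⟩ := R5.mertens
  refine ⟨2 * C₁ + 1, by positivity, fun η hη hη1 => ?_⟩
  filter_upwards [hV, ev_log 1, ev_log (2 * C₂ / η), ev_rpow 2 hη, eventually_ge_atTop 1,
    ev_zz (c := 1 / 10) (by norm_num), ev_log_pow 1 5 (c := 4 / 25) (by norm_num),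
    ev_rpow 9 (c := 1 / 2) (by norm_num)]
    with m hV hL hL2 h2 hm hz hL5 h9 a q T cl S hok p hp c
  have hm1 : (1 : ℝ) ≤ m := by exact_mod_cast hm
  have hm0 : (0 : ℝ) < m := by linarith
  set L := Real.log m with hLdef
  have hL0 : 0 < L := by linarith
  set V : ℝ := ∏ l ∈ S, (1 - gq q l) with hVdef
  set z : ℕ := ⌊(m : ℝ) ^ (2 * η)⌋₊ with hzdef
  have hzY : (z : ℝ) ≤ (m : ℝ) ^ (2 * η) := Nat.floor_le (by positivity)
  have hYY : (m : ℝ) ^ (2 * η) = (m : ℝ) ^ η * (m : ℝ) ^ η := by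
    rw [← Real.rpow_add hm0, two_mul]
  have hz1 : (m : ℝ) ^ η ≤ z := by
    have := Nat.lt_floor_add_one ((m : ℝ) ^ (2 * η))
    rw [← hzdef, hYY] at this
    nlinarith
  have hz2 : (2 : ℝ) ≤ z := h2.trans hz1
  have hlz : η * L ≤ Real.log z := by
    rw [hLdef, ← Real.log_rpow hm0]
    exact Real.log_le_log (by positivity) hz1
  have hηL : 0 < η * L := by positivity
  have hC₂L : 2 * C₂ ≤ η * L := by rwa [div_le_iff₀ hη, mul_comm L] at hL2
  have hY8 : (m : ℝ) ^ (2 * η) < m / 8 := by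
    have a1 : (m : ℝ) ^ (2 * η) ≤ (m : ℝ) ^ (1 / 2 : ℝ) :=
      Real.rpow_le_rpow_of_exponent_le hm1 (by linarith)
    have a2 : (m : ℝ) ^ (1 / 2 : ℝ) * (m : ℝ) ^ (1 / 2 : ℝ) = m := by
      rw [← Real.rpow_add hm0]
      norm_num
    nlinarith
  obtain ⟨hpp, hpY, hpz⟩ := mem_pr.1 hp
  have hp0 : (0 : ℝ) < p := by exact_mod_cast hpp.pos
  obtain ⟨r, hr⟩ := exists_root a q
  have hsub : S ⊆ pr 0 z := fun l hl => by
    obtain ⟨a1, a2, a3⟩ := mem_pr.1 (hok.sub hl)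
    exact mem_pr.2 ⟨a1, by linarith, by exact_mod_cast Nat.le_floor a3⟩
  have hS2 : ∀ l ∈ S, 2 < l := fun l hl => by exact_mod_cast (mem_pr.1 (hok.sub hl)).2.1
  have hcard : ∀ l ∈ pr 0 z, (Om q r cl S l).card =
      (if l ∣ q then 0 else 1) + (if l ∈ S then 1 else 0) := fun l hl =>
    card_Om (hr l (mem_pr.1 hl).1) (hok.non l)
  have hc2 : ∀ l ∈ pr 0 z, (Om q r cl S l).card ≤ 2 ∧ (Om q r cl S l).card < l := by
    intro l hl
    have a1 := (mem_pr.1 hl).1.two_le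
    rw [hcard l hl]
    by_cases h : l ∈ S
    · have := hS2 l h
      split_ifs <;> omega
    · rw [if_neg h]
      split_ifs <;> omega
  obtain ⟨lam, h0, h1, h3, -, h4⟩ := hSel (pr 0 z) (fun l => (Om q r cl S l).card / (l : ℝ))
    ((z : ℝ) ^ 6) (fun l hl => by
      have a1 := (mem_pr.1 hl).1
      have a2 : (0 : ℝ) < l := by exact_mod_cast a1.pos
      refine ⟨a1.one_le, by positivity, ?_⟩
      rw [div_lt_one a2]
      exact_mod_cast (hc2 l hl).2) (one_lt_pow₀ (by linarith) (by norm_num)) (by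
      calc ∑ l ∈ pr 0 z, (Om q r cl S l).card / (l : ℝ) * Real.log l
          ≤ ∑ l ∈ pr 0 z, 2 * (Real.log l / l) := by
            refine sum_le_sum fun l hl => ?_
            have a1 : ((Om q r cl S l).card : ℝ) ≤ 2 := by exact_mod_cast (hc2 l hl).1
            have a2 : 0 ≤ Real.log l / l := div_nonneg (Real.log_natCast_nonneg l) (Nat.cast_nonneg _)
            rw [div_mul_eq_mul_div, mul_div_assoc]
            exact mul_le_mul_of_nonneg_right a1 a2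
        _ ≤ 2 * (Real.log z + C₂) := by
            rw [← mul_sum]
            exact mul_le_mul_of_nonneg_left (hM z (by linarith)) (by norm_num)
        _ ≤ Real.log ((z : ℝ) ^ 6) / 2 := by
            rw [Real.log_pow]
            push_cast
            linarith)
  have h5 := sieve hCRT T p c hpp.one_le (pr 0 z) (Om q r cl S) (fun l hl => by
      obtain ⟨a1, -, a3⟩ := mem_pr.1 hl
      refine ⟨a1, fun hd => ?_, fun x hx => ?_⟩
      · have := (Nat.prime_dvd_prime_iff_eq a1 hpp).1 hd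
        rw [this] at a3
        linarith
      · unfold Om at hx
        rcases mem_union.1 hx with hx | hx
        · split_ifs at hx with h
          · simp at hx
          · rw [mem_singleton.1 hx]
            exact (hr l a1 h).1
        · split_ifs at hx with h
          · rw [mem_singleton.1 hx]
            exact Nat.mod_lt _ a1.pos
          · simp at hx) lam ((z : ℝ) ^ 6) (by positivity) h0 h1 h3
    ((range T).filter (fun j => j ≡ c [MOD p] ∧ (a + q * j).Prime ∧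
        ∀ l ∈ S, ¬ j ≡ cl l [MOD l])) (fun j hj => by
      obtain ⟨a1, a2, a3, a4⟩ := mem_filter.1 hj
      refine ⟨mem_range.1 a1, a2, fun l hl hx => ?_⟩
      obtain ⟨b1, -, b3⟩ := mem_pr.1 hl
      unfold Om at hx
      rcases mem_union.1 hx with hx | hx
      · split_ifs at hx with h
        · simp at hx
        · have b4 : l ∣ a + q * j := dvd_of_mod (y := r l)
            (by rw [mem_singleton.1 hx, Nat.mod_eq_of_lt (hr l b1 h).1]) (hr l b1 h).2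
          have b5 := (Nat.prime_dvd_prime_iff_eq b1 a3).1 b4
          have b6 : (a : ℝ) ≤ l := by
            rw [b5]
            exact_mod_cast Nat.le_add_right _ _
          have := hok.a_ge
          linarith
      · split_ifs at hx with h
        · exact a4 l h (mem_singleton.1 hx)
        · simp at hx)
  have hSm : S ⊆ pr 2 m := by
    intro l hl
    obtain ⟨a1, a3, a4⟩ := mem_pr.1 (hok.sub hl)
    exact mem_pr.2 ⟨a1, a3, by linarith⟩
  have hV' : 64 / L ^ 4 ≤ V := hV q S hSm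
  have hV0 : 0 ≤ V := le_trans (by positivity) hV'
  have hq : (1 : ℝ) ≤ q / (q.totient : ℝ) := by
    have h1 : (0 : ℝ) < q.totient := by exact_mod_cast Nat.totient_pos.2 hok.q_ge
    rw [le_div_iff₀ h1, one_mul]
    exact_mod_cast Nat.totient_le q
  have h6 : ∏ l ∈ pr 0 z, (1 - (Om q r cl S l).card / (l : ℝ)) ≤
      q / (q.totient : ℝ) * (C₁ / (η * L)) * V := by
    rw [prod_congr rfl fun l hl => by rw [hcard l hl], prod_g q S _ hsub hS2]
    refine mul_le_mul_of_nonneg_right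
      ((prod_q q hok.q_ge _ fun l hl => (mem_pr.1 hl).1).trans ?_) hV0
    refine mul_le_mul_of_nonneg_left ((hP z (by exact_mod_cast hz2)).trans ?_) (by linarith)
    exact div_le_div_of_nonneg_left hC₁.le hηL hlz
  set W : ℝ := T * (q / (q.totient : ℝ)) * V with hW
  have hW1 : m / 8 * 1 * (64 / L ^ 4) ≤ W := by
    have hT := hok.T_ge
    rw [hW]
    gcongr
  have h7 : ((z : ℝ) ^ 6) ^ 4 ≤ W / (p * (η * L)) := by
    have a1 : ((z : ℝ) ^ 6) ^ 4 ≤ (m : ℝ) ^ (6 / 25 : ℝ) := by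
      calc ((z : ℝ) ^ 6) ^ 4 = (z : ℝ) ^ 24 := by ring
        _ ≤ ((m : ℝ) ^ (2 * η)) ^ 24 := by gcongr
        _ = (m : ℝ) ^ (2 * η * 24) := by rw [Real.rpow_mul hm0.le (2 * η)]; norm_num
        _ ≤ _ := Real.rpow_le_rpow_of_exponent_le hm1 (by linarith)
    have a2 : (m : ℝ) ^ (6 / 25 : ℝ) * (m : ℝ) ^ (1 / 2 + 1 / 10 : ℝ) * (m : ℝ) ^ (4 / 25 : ℝ) =
        m := by
      rw [← Real.rpow_add hm0, ← Real.rpow_add hm0]
      norm_num
    have a3 : η * L ≤ L := by nlinarith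
    rw [le_div_iff₀ (by positivity)]
    refine le_trans ?_ hW1
    have a4 : (m : ℝ) / 8 * 1 * (64 / L ^ 4) = 8 * m / L ^ 4 := by ring
    rw [a4, le_div_iff₀ (by positivity)]
    have a5 : (p : ℝ) ≤ (m : ℝ) ^ (1 / 2 + 1 / 10 : ℝ) := hpz.trans hz.2
    calc ((z : ℝ) ^ 6) ^ 4 * (p * (η * L)) * L ^ 4
        ≤ (m : ℝ) ^ (6 / 25 : ℝ) * ((m : ℝ) ^ (1 / 2 + 1 / 10 : ℝ) * L) * L ^ 4 := by gcongr
      _ = (m : ℝ) ^ (6 / 25 : ℝ) * (m : ℝ) ^ (1 / 2 + 1 / 10 : ℝ) * (1 * L ^ 5) := by ring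
      _ ≤ (m : ℝ) ^ (6 / 25 : ℝ) * (m : ℝ) ^ (1 / 2 + 1 / 10 : ℝ) * (m : ℝ) ^ (4 / 25 : ℝ) := by
          gcongr
      _ ≤ 8 * m := by rw [a2]; linarith
  refine h5.trans ?_
  calc _ ≤ T / p * (2 * (q / (q.totient : ℝ) * (C₁ / (η * L)) * V)) + W / (p * (η * L)) := by
        refine add_le_add (mul_le_mul_of_nonneg_left (h4.trans ?_) (by positivity)) h7
        linarith
    _ = (2 * C₁ + 1) * W / (p * (η * L)) := by
        rw [hW]
        field_simp

end Crest.Agent.R1s
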