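import Crest.Agent.R1s.Ev

/-! Row 1: lower bound for the sieve product. -/

set_option autoImplicit false

namespace Crest.Agent.R1s

open Finset Filter
open Crest.Agent.R5 (pr pd ee)

namespace V1Aux

theorem exp_le {x : ℝ} (h0 : 0 ≤ x) (h1 : x ≤ 1 / 2) : Real.exp (-(2 * x)) ≤ 1 - x := by
  rw [Real.exp_neg, inv_le_comm₀ (Real.exp_pos _) (by linarith)]
  refine le_trans ?_ (Real.add_one_le_exp _)
  rw [inv_le_iff_one_le_mul₀ (by linarith)]
  nlinarith

theorem factor (q : ℕ) {p : ℕ} (hp : (3 : ℝ) ≤ p) :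
    Real.exp (-(3 * (1 / (p : ℝ)))) ≤ 1 - gq q p := by
  have h1 : gq q p ≤ 1 / ((p : ℝ) - 1) := by
    unfold gq
    split_ifs
    · exact one_div_le_one_div_of_le (by linarith) (by linarith)
    · exact le_rfl
  have h2 : 1 / ((p : ℝ) - 1) ≤ 1 / 2 := one_div_le_one_div_of_le (by norm_num) (by linarith)
  have h3 : 2 * (1 / ((p : ℝ) - 1)) ≤ 3 * (1 / (p : ℝ)) := by
    rw [mul_one_div, mul_one_div, div_le_div_iff₀ (by linarith) (by linarith)]
    linarith
  have h4 := exp_le (one_div_nonneg.2 (by linarith)) h2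
  have h5 := Real.exp_le_exp.2 (neg_le_neg h3)
  linarith

end V1Aux

theorem v1OK : V1Stmt := by
  obtain ⟨C, hC, h⟩ := recip_le
  filter_upwards [ev_log (64 * Real.exp (3 * C)), ev_log 1, eventually_ge_atTop 2] with m h1 h2 h3
    q S hS
  have hL : 0 < Real.log m := by linarith
  have h4 := (abs_le.1 (h m (by exact_mod_cast h3))).2
  have h5 : ∑ p ∈ S, 1 / (p : ℝ) ≤ ∑ p ∈ pr 0 m, 1 / (p : ℝ) := by
    refine Finset.sum_le_sum_of_subset_of_nonneg (fun p hp => ?_) fun p _ _ => by positivity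
    obtain ⟨a, b, c⟩ := mem_pr.1 (hS hp)
    exact mem_pr.2 ⟨a, by linarith, c⟩
  calc 64 / Real.log m ^ 4 ≤ Real.exp (-(3 * (Real.log (Real.log m) + C))) := by
        rw [mul_add, Real.exp_neg, Real.exp_add,
          show (3 : ℝ) * Real.log (Real.log m) = Real.log (Real.log m ^ 3) by
            rw [Real.log_pow]; norm_num,
          Real.exp_log (by positivity), ← one_div, div_le_div_iff₀ (by positivity) (by positivity)]
        calc 64 * (Real.log m ^ 3 * Real.exp (3 * C)) =
              Real.log m ^ 3 * (64 * Real.exp (3 * C)) := by ring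
          _ ≤ Real.log m ^ 3 * Real.log m := by gcongr
          _ = _ := by ring
    _ ≤ Real.exp (∑ p ∈ S, -(3 * (1 / (p : ℝ)))) := by
        rw [Finset.sum_neg_distrib, ← Finset.mul_sum]
        exact Real.exp_le_exp.2 (by linarith)
    _ ≤ _ := by
        rw [Real.exp_sum]
        refine Finset.prod_le_prod (fun p _ => (Real.exp_pos _).le) fun p hp => V1Aux.factor q ?_
        have : 2 < p := by exact_mod_cast (mem_pr.1 (hS hp)).2.1
        exact_mod_cast this

end Crest.Agent.R1s
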