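import Crest.Agent.R1s.Ev

/-! Row 1: few atypical primes. -/

set_option autoImplicit false

namespace Crest.Agent.R1s

open Finset Filter
open Crest.Agent.R5 (pr pd ee)

namespace AtypAux

/-- the common denominator -/
def den {k : ℕ} (a b : Fin k → ℕ) : ℕ := (∏ i, a i) * ∏ i, b i

/-- the numerator -/
def num {k : ℕ} (a b : Fin k → ℕ) : ℤ :=
  ((∑ i, den a b / a i : ℕ) : ℤ) - ((∑ i, den a b / b i : ℕ) : ℤ)

theorem num_cast {k : ℕ} (a b : Fin k → ℕ) (F : Type*) [Field F] (ha : ∀ i, (a i : F) ≠ 0)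
    (hb : ∀ i, (b i : F) ≠ 0) :
    (num a b : F) = (den a b : F) * (∑ i, (a i : F)⁻¹ - ∑ i, (b i : F)⁻¹) := by
  have h1 : ∀ i, ((den a b / a i : ℕ) : F) = den a b * (a i : F)⁻¹ := fun i => by
    rw [Nat.cast_div (show a i ∣ den a b from (dvd_prod_of_mem a (mem_univ i)).mul_right _) (ha i),
      div_eq_mul_inv]
  have h2 : ∀ i, ((den a b / b i : ℕ) : F) = den a b * (b i : F)⁻¹ := fun i => by
    rw [Nat.cast_div (show b i ∣ den a b from (dvd_prod_of_mem b (mem_univ i)).mul_left _) (hb i),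
      div_eq_mul_inv]
  rw [num, Int.cast_sub, Int.cast_natCast, Int.cast_natCast, Nat.cast_sum, Nat.cast_sum, mul_sub,
    mul_sum, mul_sum]
  simp only [h1, h2]

theorem num_abs {k : ℕ} (a b : Fin k → ℕ) : (num a b).natAbs ≤ k * den a b := by
  have h : ∀ c : Fin k → ℕ, ∑ i, den a b / c i ≤ k * den a b := fun c => by
    calc ∑ i, den a b / c i ≤ ∑ _i : Fin k, den a b := sum_le_sum fun i _ => Nat.div_le_self _ _
      _ = k * den a b := by simp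
  have h1 := h a
  have h2 := h b
  unfold num
  omega

theorem card_primes {N : ℕ} (hN : N ≠ 0) {Z : ℝ} (hZ : 2 ≤ Z) (P : Finset ℕ)
    (hP : ∀ p ∈ P, p.Prime ∧ Z < (p : ℝ) ∧ p ∣ N) {e : ℕ} (he : (N : ℝ) ≤ Z ^ e) : P.card ≤ e := by
  have h1 : ∏ p ∈ P, p ∣ N :=
    Finset.prod_primes_dvd N (fun p hp => (hP p hp).1.prime) fun p hp => (hP p hp).2.2
  have h2 : ((∏ p ∈ P, p : ℕ) : ℝ) ≤ N := by exact_mod_cast Nat.le_of_dvd (Nat.pos_of_ne_zero hN) h1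
  have h3 : Z ^ P.card ≤ ((∏ p ∈ P, p : ℕ) : ℝ) := by
    rw [Nat.cast_prod, ← prod_const]
    exact prod_le_prod (fun _ _ => by linarith) fun p hp => (hP p hp).2.1.le
  exact (pow_le_pow_iff_right₀ (by linarith : 1 < Z)).1 (h3.trans (h2.trans he))

variable {r k n : ℕ} {𝔅 : Fin r → Finset ℕ} {Z : ℝ}

theorem ps_le (hB : Blk 𝔅 n Z) {s : Fin r → ℕ} (hs : s ∈ Fintype.piFinset 𝔅) :
    (ps s : ℝ) ≤ Z ^ r := by
  rw [ps, Nat.cast_prod]
  calc ∏ j, (s j : ℝ) ≤ ∏ _j : Fin r, Z :=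
        prod_le_prod (fun _ _ => Nat.cast_nonneg _) fun j _ =>
          (hB.prime j _ (Fintype.mem_piFinset.1 hs j)).2
    _ = Z ^ r := by simp

theorem ps_ne (hB : Blk 𝔅 n Z) {s : Fin r → ℕ} (hs : s ∈ Fintype.piFinset 𝔅) : ps s ≠ 0 :=
  prod_ne_zero_iff.2 fun j _ => (hB.prime j _ (Fintype.mem_piFinset.1 hs j)).1.ne_zero

theorem ps_ne_mod (hB : Blk 𝔅 n Z) {s : Fin r → ℕ} (hs : s ∈ Fintype.piFinset 𝔅) {p : ℕ}
    [Fact p.Prime] (hp : Z < (p : ℝ)) : ((ps s : ℕ) : ZMod p) ≠ 0 := by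
  rw [ps, Nat.cast_prod]
  refine prod_ne_zero_iff.2 fun j _ h => ?_
  have h1 := hB.prime j _ (Fintype.mem_piFinset.1 hs j)
  have h2 := Nat.le_of_dvd h1.1.pos ((ZMod.natCast_eq_zero_iff _ _).1 h)
  have h3 : (p : ℝ) ≤ s j := by exact_mod_cast h2
  linarith [h1.2]

theorem card_ktup (hB : Blk 𝔅 n Z) : (ktup k 𝔅).card ≤ n ^ (k * r) := by
  have h : (Fintype.piFinset 𝔅).card ≤ n ^ r := by
    rw [Fintype.card_piFinset]
    calc ∏ j, (𝔅 j).card ≤ ∏ _j : Fin r, n := prod_le_prod' fun j _ => hB.card j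
      _ = n ^ r := by simp
  rw [ktup, Fintype.card_piFinset, prod_const, card_univ, Fintype.card_fin, mul_comm, pow_mul]
  exact Nat.pow_le_pow_left h k

theorem few (hB : Blk 𝔅 n Z) (hZ : 2 ≤ Z) {PP : Finset ℕ}
    (hP : ∀ p ∈ PP, p.Prime ∧ Z < (p : ℝ)) {x : (Fin k → Fin r → ℕ) × (Fin k → Fin r → ℕ)}
    (hx : x ∈ ktup k 𝔅 ×ˢ ktup k 𝔅)
    (hne : ¬ ∑ i, 1 / ((ps (x.1 i) : ℕ) : ℚ) = ∑ i, 1 / ((ps (x.2 i) : ℕ) : ℚ)) :
    (PP.filter (fun p => ∑ i, ((ps (x.1 i) : ℕ) : ZMod p)⁻¹ =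
      ∑ i, ((ps (x.2 i) : ℕ) : ZMod p)⁻¹)).card ≤ 2 * k * (r + 1) := by
  have h1 : ∀ i, x.1 i ∈ Fintype.piFinset 𝔅 := Fintype.mem_piFinset.1 (mem_product.1 hx).1
  have h2 : ∀ i, x.2 i ∈ Fintype.piFinset 𝔅 := Fintype.mem_piFinset.1 (mem_product.1 hx).2
  set a : Fin k → ℕ := fun i => ps (x.1 i) with ha
  set b : Fin k → ℕ := fun i => ps (x.2 i) with hb
  have hN : (num a b).natAbs ≠ 0 := by
    intro h0
    have h3 := num_cast a b ℚ (fun i => Nat.cast_ne_zero.2 (ps_ne hB (h1 i)))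
      (fun i => Nat.cast_ne_zero.2 (ps_ne hB (h2 i)))
    rw [Int.natAbs_eq_zero.1 h0, Int.cast_zero] at h3
    have hd : (den a b : ℚ) ≠ 0 := Nat.cast_ne_zero.2 (mul_ne_zero
      (prod_ne_zero_iff.2 fun i _ => ps_ne hB (h1 i)) (prod_ne_zero_iff.2 fun i _ => ps_ne hB (h2 i)))
    have h4 := (mul_eq_zero.1 h3.symm).resolve_left hd
    exact hne (by simpa only [one_div] using sub_eq_zero.1 h4)
  refine card_primes hN hZ _ (fun p hp => ?_) ?_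
  · obtain ⟨hp1, hp2⟩ := mem_filter.1 hp
    obtain ⟨hpp, hpZ⟩ := hP p hp1
    refine ⟨hpp, hpZ, ?_⟩
    have := Fact.mk hpp
    have h3 := num_cast a b (ZMod p) (fun i => ps_ne_mod hB (h1 i) hpZ)
      (fun i => ps_ne_mod hB (h2 i) hpZ)
    rw [sub_eq_zero.2 hp2, mul_zero] at h3
    exact Int.natCast_dvd.1 ((ZMod.intCast_zmod_eq_zero_iff_dvd _ _).1 h3)
  · have hZ0 : 0 ≤ Z := by linarith
    have hp : ∀ c : Fin k → Fin r → ℕ, (∀ i, c i ∈ Fintype.piFinset 𝔅) →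
        ((∏ i, ps (c i) : ℕ) : ℝ) ≤ (Z ^ r) ^ k := fun c hc => by
      rw [Nat.cast_prod]
      calc ∏ i, (ps (c i) : ℝ) ≤ ∏ _i : Fin k, Z ^ r :=
            prod_le_prod (fun _ _ => Nat.cast_nonneg _) fun i _ => ps_le hB (hc i)
        _ = (Z ^ r) ^ k := by simp
    have hd : (den a b : ℝ) ≤ (Z ^ r) ^ k * (Z ^ r) ^ k := by
      rw [den, Nat.cast_mul]
      exact mul_le_mul (hp _ h1) (hp _ h2) (Nat.cast_nonneg _) (by positivity)
    have hk : (k : ℝ) ≤ Z ^ (2 * k) := by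
      have e1 : (k : ℝ) ≤ 2 ^ k := by exact_mod_cast (Nat.lt_two_pow_self (n := k)).le
      have e2 : (2 : ℝ) ^ k ≤ Z ^ k := pow_le_pow_left₀ (by norm_num) hZ k
      have e3 : Z ^ k ≤ Z ^ (2 * k) := pow_le_pow_right₀ (by linarith) (by omega)
      linarith
    calc ((num a b).natAbs : ℝ) ≤ ((k * den a b : ℕ) : ℝ) := by exact_mod_cast num_abs a b
      _ = k * (den a b : ℝ) := Nat.cast_mul _ _
      _ ≤ Z ^ (2 * k) * ((Z ^ r) ^ k * (Z ^ r) ^ k) :=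
          mul_le_mul hk hd (Nat.cast_nonneg _) (by positivity)
      _ = Z ^ (2 * k * (r + 1)) := by ring

end AtypAux

open AtypAux in
theorem atypOK : TrivStmt → AtypStmt := by
  intro hT r k n 𝔅 Z T PP hB hZ hT0 hP
  have htriv := hT r k n 𝔅 Z hB
  set X := ktup k 𝔅 ×ˢ ktup k 𝔅 with hX
  have hXc : X.card ≤ n ^ (2 * k * r) := by
    rw [hX, card_product, show 2 * k * r = k * r + k * r by ring, pow_add]
    exact Nat.mul_le_mul (card_ktup hB) (card_ktup hB)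
  set B := PP.filter (fun p => ((k : ℝ) ^ 2 * n) ^ (k * r) + (n : ℝ) ^ (2 * k * r) * T <
      nsol p k 𝔅) with hBdef
  set Y := X.filter (fun x =>
    ¬ ∑ i, 1 / ((ps (x.1 i) : ℕ) : ℚ) = ∑ i, 1 / ((ps (x.2 i) : ℕ) : ℚ)) with hY
  have hYc : (Y.card : ℝ) ≤ (n : ℝ) ^ (2 * k * r) := by
    exact_mod_cast (card_filter_le _ _).trans hXc
  let sol : ℕ → (Fin k → Fin r → ℕ) × (Fin k → Fin r → ℕ) → Prop := fun p x =>
    ∑ i, ((ps (x.1 i) : ℕ) : ZMod p)⁻¹ = ∑ i, ((ps (x.2 i) : ℕ) : ZMod p)⁻¹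
  have h1 : ∀ p ∈ B, (n : ℝ) ^ (2 * k * r) * T < ((Y.filter (sol p)).card : ℝ) := by
    intro p hp
    have h2 := (mem_filter.1 hp).2
    have h3 : nsol p k 𝔅 ≤ (k ^ 2 * n) ^ (k * r) + (Y.filter (sol p)).card := by
      refine le_trans ?_ (Nat.add_le_add_right htriv _)
      refine le_trans (card_le_card fun x hx => ?_) (card_union_le _ _)
      obtain ⟨hx1, hx2⟩ := mem_filter.1 hx
      by_cases hq : ∑ i, 1 / ((ps (x.1 i) : ℕ) : ℚ) = ∑ i, 1 / ((ps (x.2 i) : ℕ) : ℚ)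
      · exact mem_union_left _ (mem_filter.2 ⟨hx1, hq⟩)
      · exact mem_union_right _ (mem_filter.2 ⟨mem_filter.2 ⟨hx1, hq⟩, hx2⟩)
    have h4 : (nsol p k 𝔅 : ℝ) ≤ ((k : ℝ) ^ 2 * n) ^ (k * r) + (Y.filter (sol p)).card := by
      exact_mod_cast h3
    linarith
  rcases B.eq_empty_or_nonempty with hB0 | ⟨p₀, hp₀⟩
  · rw [hB0, card_empty, Nat.cast_zero]; positivity
  have hpos : 0 < (n : ℝ) ^ (2 * k * r) := by
    have h2 := h1 p₀ hp₀
    have h3 : ((Y.filter (sol p₀)).card : ℝ) ≤ Y.card := by exact_mod_cast card_filter_le _ _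
    have h4 : 0 ≤ (n : ℝ) ^ (2 * k * r) * T := by positivity
    linarith
  have h5 : ∑ p ∈ B, (Y.filter (sol p)).card ≤ Y.card * (2 * k * (r + 1)) := by
    have h : ∑ p ∈ B, (Y.filter (sol p)).card = ∑ x ∈ Y, (B.filter (fun p => sol p x)).card :=
      sum_card_bipartiteAbove_eq_sum_card_bipartiteBelow (r := sol) (s := B) (t := Y)
    rw [h]
    refine sum_le_card_nsmul _ _ _ fun x hx => ?_
    obtain ⟨hx1, hx2⟩ := mem_filter.1 hx
    exact few hB hZ (fun p hp => hP p (mem_filter.1 hp).1) hx1 hx2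
  have h6 : (B.card : ℝ) * ((n : ℝ) ^ (2 * k * r) * T) ≤
      (n : ℝ) ^ (2 * k * r) * (2 * k * (r + 1)) := by
    calc (B.card : ℝ) * ((n : ℝ) ^ (2 * k * r) * T)
        = ∑ _p ∈ B, (n : ℝ) ^ (2 * k * r) * T := by rw [sum_const, nsmul_eq_mul]
      _ ≤ ∑ p ∈ B, ((Y.filter (sol p)).card : ℝ) := sum_le_sum fun p hp => (h1 p hp).le
      _ ≤ (Y.card : ℝ) * (2 * k * (r + 1)) := by exact_mod_cast h5
      _ ≤ _ := mul_le_mul_of_nonneg_right hYc (by positivity)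
  rw [le_div_iff₀ hT0]
  refine le_of_mul_le_mul_left ?_ hpos
  linarith

end Crest.Agent.R1s
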