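import Crest.Agent.R1s.Ev

/-! Row 1: the bad large nodes. -/

set_option autoImplicit false

namespace Crest.Agent.R1s

open Finset Filter
open Crest.Agent.R5 (pr pd ee)

namespace BadAux

/-- the sets with a large smooth part -/
noncomputable def evs (D : ℕ) (Z V : ℝ) : Finset (Finset ℕ) :=
  (pr 0 D).powerset.filter (fun t => pd t ≤ D ∧
    V ≤ (pd (t.filter (fun q : ℕ => (q : ℝ) ≤ Z)) : ℝ))

theorem sum_biUnion_le' {ι α : Type*} [DecidableEq ι] [DecidableEq α] (I : Finset ι)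
    (S : ι → Finset α) (g : α → ℝ) (hg : ∀ a, 0 ≤ g a) :
    ∑ a ∈ I.biUnion S, g a ≤ ∑ i ∈ I, ∑ a ∈ S i, g a := by
  induction I using Finset.induction_on with
  | empty => simp
  | insert i I hi ih =>
    rw [biUnion_insert, sum_insert hi]
    have h1 := sum_union_inter (s₁ := S i) (s₂ := I.biUnion S) (f := g)
    have h2 : 0 ≤ ∑ a ∈ S i ∩ I.biUnion S, g a := sum_nonneg fun a _ => hg a
    linarith

theorem union_prime {j D₀ D : ℕ} {z y : ℝ} {𝒟 : Finset (Finset ℕ)} (h : DesOK j D₀ D z y 𝒟)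
    {d e : Finset ℕ} (hd : d ∈ 𝒟) (he : e ∈ Rp (D / pd d)) : ∀ p ∈ d ∪ e, p.Prime := by
  intro p hp
  rcases mem_union.1 hp with hp | hp
  · exact h.prime hd p hp
  · exact ((mem_Rp.1 he).1 p hp).1

/-- the union bound -/
theorem comb {j D₀ D : ℕ} {z y : ℝ} {𝒟 : Finset (Finset ℕ)} (h : DesOK j D₀ D z y 𝒟)
    (S : Finset ℕ → Finset (Finset ℕ)) (hS : ∀ d ∈ 𝒟, S d ⊆ Rp (D / pd d))
    (I : Finset ℕ) (Z V : ℕ → ℝ)
    (H : ∀ d ∈ 𝒟, ∀ e ∈ S d, ∃ i ∈ I,
      V i ≤ (pd ((d ∪ e).filter (fun q : ℕ => (q : ℝ) ≤ Z i)) : ℝ)) :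
    ∑ d ∈ 𝒟, ∑ e ∈ S d, 1 / ((pd d : ℝ) * pd e) ≤
      ∑ i ∈ I, ∑ t ∈ evs D (Z i) (V i), 1 / (pd t : ℝ) := by
  have hlt : ∀ d ∈ 𝒟, ∀ e ∈ S d, ∀ p ∈ e, ∀ q ∈ d, p < q := fun d hd e he =>
    h.lt hd le_rfl (hS d hd he)
  have e1 : ∑ d ∈ 𝒟, ∑ e ∈ S d, 1 / ((pd d : ℝ) * pd e) =
      ∑ x ∈ 𝒟.sigma S, 1 / (pd (x.1 ∪ x.2) : ℝ) := by
    rw [sum_sigma]
    refine sum_congr rfl fun d hd => sum_congr rfl fun e he => ?_
    rw [pd_union (disjoint_of_lt (hlt d hd e he))]; push_cast; rfl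
  have hinj : Set.InjOn (fun x : (Σ _ : Finset ℕ, Finset ℕ) => x.1 ∪ x.2)
      (𝒟.sigma S : Finset (Σ _ : Finset ℕ, Finset ℕ)) := by
    rintro ⟨d, e⟩ hx ⟨d', e'⟩ hx' hu
    obtain ⟨hd, he⟩ := mem_sigma.1 (mem_coe.1 hx)
    obtain ⟨hd', he'⟩ := mem_sigma.1 (mem_coe.1 hx')
    obtain ⟨rfl, rfl⟩ := union_inj (hlt d hd e he) (hlt d' hd' e' he')
      ((h.card d hd).trans (h.card d' hd').symm) hu
    rfl
  rw [e1, ← sum_image (f := fun t : Finset ℕ => 1 / (pd t : ℝ)) hinj]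
  refine le_trans (sum_le_sum_of_subset_of_nonneg ?_ fun t _ _ => by positivity)
    (sum_biUnion_le' I (fun i => evs D (Z i) (V i)) _ fun t => by positivity)
  intro t ht
  obtain ⟨⟨d, e⟩, hx, rfl⟩ := mem_image.1 ht
  obtain ⟨hd, he⟩ := mem_sigma.1 hx
  obtain ⟨i, hi, hV⟩ := H d hd e he
  have hp := union_prime h hd (hS d hd he)
  have hle : pd (d ∪ e) ≤ D := by
    rw [pd_union (disjoint_of_lt (hlt d hd e he))]
    exact h.mul_le hd h.le (hS d hd he)
  refine mem_biUnion.2 ⟨i, hi, mem_filter.2 ⟨mem_powerset.2 fun p hp' => ?_, hle, hV⟩⟩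
  refine mem_pr.2 ⟨hp p hp', by exact_mod_cast (hp p hp').pos, ?_⟩
  exact_mod_cast (le_pd hp hp').trans hle

/-- a gap among the primes forces a large smooth part -/
theorem gap {j D₀ D : ℕ} {z y : ℝ} {𝒟 : Finset (Finset ℕ)} (h : DesOK j D₀ D z y 𝒟)
    {d e : Finset ℕ} (hd : d ∈ 𝒟) (he : e ∈ Rp (D / pd d)) (hD : D₀ < pd d * pd e)
    {a b : ℝ} (hab : a ≤ b) (hby : b ≤ y)
    (hno : ∀ q ∈ e, ¬ (a < (q : ℝ) ∧ (q : ℝ) ≤ b)) :
    (D₀ : ℝ) * b ≤ D * (pd ((d ∪ e).filter (fun q : ℕ => (q : ℝ) ≤ a)) : ℝ) := by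
  have hlt : ∀ p ∈ e, ∀ q ∈ d, p < q := h.lt hd le_rfl he
  have hbig : ∀ q ∈ d, b < (q : ℝ) := fun q hq => hby.trans_lt (h.big d hd q hq)
  have hne : ((d ∪ e).filter (fun q : ℕ => b < (q : ℝ))).Nonempty := by
    obtain ⟨q, hq⟩ := h.nonempty hd
    exact ⟨q, mem_filter.2 ⟨mem_union_left _ hq, hbig q hq⟩⟩
  obtain ⟨q0, hq0, hmin⟩ := exists_min_image _ (fun q : ℕ => q) hne
  obtain ⟨hq1, hq2⟩ := mem_filter.1 hq0
  have hroom : pd (up (d ∪ e) q0) * q0 ≤ D := by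
    rcases mem_union.1 hq1 with hq | hq
    · have hm : ∀ p ∈ d, q0 ≤ p := fun p hp =>
        hmin p (mem_filter.2 ⟨mem_union_left _ hp, hbig p hp⟩)
      rw [up_union_left hlt hq, up_of_min hm]
      obtain ⟨q, hq', hr⟩ := h.room d hd
      exact le_trans (Nat.mul_le_mul_left _ (hm q hq')) (hr.trans h.le)
    · have hdis : Disjoint d (up e q0) := (disjoint_of_lt hlt).mono_right (up_subset e q0)
      rw [up_union_right hlt hq, pd_union hdis]
      have h1 := room_of_Rp he hq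
      rw [Nat.le_div_iff_mul_le (pd_pos (h.prime hd))] at h1
      calc pd d * pd (up e q0) * q0 = pd (up e q0) * q0 * pd d := by ring
        _ ≤ D := h1
  have hsplit : d ∪ e = up (d ∪ e) q0 ∪ (d ∪ e).filter (fun q : ℕ => (q : ℝ) ≤ a) := by
    refine Subset.antisymm (fun p hp => ?_)
      (union_subset (up_subset _ _) (filter_subset _ _))
    by_cases hpq : q0 ≤ p
    · exact mem_union_left _ (mem_up.2 ⟨hp, hpq⟩)
    · refine mem_union_right _ (mem_filter.2 ⟨hp, ?_⟩)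
      have h1 : ¬ b < (p : ℝ) := fun h1 => hpq (hmin p (mem_filter.2 ⟨hp, h1⟩))
      rcases mem_union.1 hp with hp' | hp'
      · exact absurd (hbig p hp') h1
      · by_contra h2
        exact hno p hp' ⟨not_le.1 h2, not_lt.1 h1⟩
  have hdis : Disjoint (up (d ∪ e) q0) ((d ∪ e).filter (fun q : ℕ => (q : ℝ) ≤ a)) := by
    rw [disjoint_left]
    intro p hp hp'
    have h1 : (q0 : ℝ) ≤ p := by exact_mod_cast (mem_up.1 hp).2
    have h2 := (mem_filter.1 hp').2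
    linarith
  have hprod : pd d * pd e =
      pd (up (d ∪ e) q0) * pd ((d ∪ e).filter (fun q : ℕ => (q : ℝ) ≤ a)) := by
    rw [← pd_union hdis, ← hsplit, pd_union (disjoint_of_lt hlt)]
  have h1 : D₀ * q0 ≤ D * pd ((d ∪ e).filter (fun q : ℕ => (q : ℝ) ≤ a)) := by
    calc D₀ * q0 ≤ pd d * pd e * q0 := Nat.mul_le_mul_right _ hD.le
      _ = pd (up (d ∪ e) q0) * q0 * pd ((d ∪ e).filter (fun q : ℕ => (q : ℝ) ≤ a)) := by
        rw [hprod]; ring
      _ ≤ _ := Nat.mul_le_mul_right _ hroom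
  have h2 : (D₀ : ℝ) * q0 ≤ D * (pd ((d ∪ e).filter (fun q : ℕ => (q : ℝ) ≤ a)) : ℝ) := by
    exact_mod_cast h1
  exact le_trans (mul_le_mul_of_nonneg_left hq2.le (Nat.cast_nonneg _)) h2

end BadAux

open BadAux in
theorem badOK : RankStmt → BadStmt := by
  classical
  rintro ⟨C, hC, hR⟩ B r A
  set c : ℝ := 1 / (10 * ((r : ℝ) + 2)) with hc
  have hr2 : (0 : ℝ) < (r : ℝ) + 2 := by positivity
  have hc0 : 0 < c := by positivity
  have hc1 : c ≤ 1 / 20 := by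
    rw [hc]
    refine one_div_le_one_div_of_le (by norm_num) ?_
    have : (0 : ℝ) ≤ r := Nat.cast_nonneg r
    linarith
  filter_upwards [ev_log 1, ev_D0, ev_DD B, eventually_ge_atTop 3,
    ev_exp 2 (B + 2) (a := 1 / 2) (by norm_num) hc0,
    ev_exp (((r : ℝ) + 2) * 2 * C ^ 3) (A + 4) (a := 1 / 2) (by norm_num) hc0]
    with m hL hD0 hDD hm hE1 hE2 j z 𝒟 h
  set L := Real.log m with hLdef
  have hL0 : 0 < L := by linarith
  set lam := L ^ c with hlam
  have hlam1 : 1 ≤ lam := Real.one_le_rpow hL hc0.le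
  have hlogZ : ∀ i : ℕ, Real.log (ZZ r m i) = L ^ (((i : ℝ) + 1) * c) := fun i => by
    rw [log_ZZ, hc, mul_one_div]
  have hZ1 : ∀ i : ℕ, 1 ≤ Real.log (ZZ r m i) := fun i => by
    rw [hlogZ]; exact Real.one_le_rpow hL (by positivity)
  have hZexp : ∀ i : ℕ, ZZ r m i = Real.exp (Real.log (ZZ r m i)) := fun i =>
    (Real.exp_log (ZZ_pos r m i)).symm
  have hZ2 : ∀ i : ℕ, 2 ≤ ZZ r m i := fun i => by
    have h1 := Real.add_one_le_exp (Real.log (ZZ r m i))
    rw [← hZexp] at h1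
    linarith [hZ1 i]
  have hZs : ∀ i : ℕ, Real.log (ZZ r m (i + 1)) = lam * Real.log (ZZ r m i) := fun i => by
    rw [hlogZ, hlogZ, hlam, ← Real.rpow_add hL0]
    congr 1; push_cast; ring
  have hZL : ∀ i ∈ range (r + 2), Real.log (ZZ r m i) ≤ L := fun i hi => by
    rw [hlogZ]
    have h1 : (i : ℝ) + 1 ≤ (r : ℝ) + 2 := by
      have := mem_range.1 hi
      have : i + 1 ≤ r + 2 := by omega
      exact_mod_cast this
    have h2 : ((i : ℝ) + 1) * c ≤ 1 := by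
      rw [hc, mul_one_div, div_le_one (by positivity)]
      linarith
    simpa using Real.rpow_le_rpow_of_exponent_le hL h2
  set V : ℕ → ℝ := fun i => Real.exp (1 / 2 * lam * Real.log (ZZ r m i)) with hV
  obtain ⟨-, -, -, hD1⟩ := hD0
  obtain ⟨-, -, hle, hDD2, hlogD⟩ := hDD
  refine le_trans (comb h _ (fun d _ => filter_subset _ _) (range (r + 2)) (ZZ r m) V ?_) ?_
  · intro d hd e he
    obtain ⟨he, hlarge, hbad⟩ := mem_filter.1 he
    have hp := union_prime h hd he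
    by_cases hh : hits r m e
    · refine ⟨r + 1, mem_range.2 (by omega), ?_⟩
      have h1 : VV m < pd (e.filter (fun q : ℕ => (q : ℝ) ≤ ZZ r m (r + 1))) := by
        by_contra h1
        exact hbad ⟨hh, not_lt.1 h1⟩
      have h2 : pd (e.filter (fun q : ℕ => (q : ℝ) ≤ ZZ r m (r + 1))) ≤
          pd ((d ∪ e).filter (fun q : ℕ => (q : ℝ) ≤ ZZ r m (r + 1))) :=
        pd_mono (fun p hp' => hp p (mem_filter.1 hp').1)
          (filter_subset_filter _ subset_union_right)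
      have h3 : (VV m : ℝ) + 1 ≤
          pd ((d ∪ e).filter (fun q : ℕ => (q : ℝ) ≤ ZZ r m (r + 1))) := by
        exact_mod_cast lt_of_lt_of_le h1 h2
      have h4 : Real.exp (√L) < (VV m : ℝ) + 1 := Nat.lt_floor_add_one _
      have h5 : lam * Real.log (ZZ r m (r + 1)) ≤ √L := by
        rw [ZZ_top, Real.log_exp, hlam, ← Real.rpow_add hL0, Real.sqrt_eq_rpow]
        exact Real.rpow_le_rpow_of_exponent_le hL (by linarith)
      have h6 : V (r + 1) ≤ Real.exp (√L) := by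
        refine Real.exp_le_exp.2 ?_
        have : 0 ≤ lam * Real.log (ZZ r m (r + 1)) :=
          mul_nonneg (by linarith) (by linarith [hZ1 (r + 1)])
        linarith
      linarith
    · unfold hits at hh
      push Not at hh
      obtain ⟨i, hi, hno⟩ := hh
      refine ⟨i, mem_range.2 (by omega), ?_⟩
      have h1 := gap h hd he hlarge (a := ZZ r m i) (b := ZZ r m (i + 1))
        (ZZ_mono r hm (by omega)) (ZZ_mono r hm (by omega))
        (fun q hq hh => absurd hh.2 (not_le.2 (hno q hq hh.1)))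
      set P : ℝ := (pd ((d ∪ e).filter (fun q : ℕ => (q : ℝ) ≤ ZZ r m i)) : ℝ) with hP
      have hP0 : 0 ≤ P := Nat.cast_nonneg _
      have hD0' : (0 : ℝ) < D0 m := by exact_mod_cast hD1
      have h2 : ZZ r m (i + 1) ≤ 2 * L ^ (B + 2) * P := by
        have h3 : (D0 m : ℝ) * ZZ r m (i + 1) ≤ D0 m * (2 * L ^ (B + 2) * P) := by
          calc _ ≤ (DD B m : ℝ) * P := h1
            _ ≤ 2 * L ^ (B + 2) * D0 m * P := mul_le_mul_of_nonneg_right hDD2 hP0
            _ = _ := by ring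
        exact le_of_mul_le_mul_left h3 hD0'
      have h3 : ZZ r m (i + 1) = V i * V i := by
        rw [hZexp (i + 1), hZs, ← Real.exp_add]; congr 1; ring
      have h4 : 2 * L ^ (B + 2) ≤ V i := by
        refine hE1.trans (Real.exp_le_exp.2 ?_)
        nlinarith [hZ1 i]
      have hV0 : 0 < V i := Real.exp_pos _
      have h5 : V i * V i ≤ V i * P := by
        calc V i * V i = ZZ r m (i + 1) := h3.symm
          _ ≤ 2 * L ^ (B + 2) * P := h2
          _ ≤ V i * P := mul_le_mul_of_nonneg_right h4 hP0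
      exact le_of_mul_le_mul_left h5 hV0
  · have hone : ∀ i ∈ range (r + 2), ∑ t ∈ evs (DD B m) (ZZ r m i) (V i), 1 / (pd t : ℝ) ≤
        2 * L * Real.exp (-(1 / 2 * lam)) * (C * L) ^ 3 := by
      intro i hi
      have hV1 : 1 ≤ V i := Real.one_le_exp (by nlinarith [hZ1 i])
      refine (hR (DD B m) (ZZ r m i) (V i) (hD1.trans hle) (hZ2 i) hV1).trans ?_
      have e1 : Real.log (V i) / Real.log (ZZ r m i) = 1 / 2 * lam := by
        have : Real.log (ZZ r m i) ≠ 0 := by linarith [hZ1 i]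
        simp only [hV, Real.log_exp]
        field_simp
      rw [e1]
      have h0 : 0 ≤ Real.log (ZZ r m i) := by linarith [hZ1 i]
      gcongr
      · linarith
      · exact hZL i hi
    refine (sum_le_sum hone).trans ?_
    rw [sum_const, card_range, nsmul_eq_mul, le_div_iff₀ (by positivity), Real.exp_neg]
    have hpos := Real.exp_pos (1 / 2 * lam)
    calc ((r + 2 : ℕ) : ℝ) * (2 * L * (Real.exp (1 / 2 * lam))⁻¹ * (C * L) ^ 3) * L ^ A
        = (((r : ℝ) + 2) * 2 * C ^ 3 * L ^ (A + 4)) * (Real.exp (1 / 2 * lam))⁻¹ := by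
          push_cast; ring
      _ ≤ Real.exp (1 / 2 * lam) * (Real.exp (1 / 2 * lam))⁻¹ :=
          mul_le_mul_of_nonneg_right hE2 (by positivity)
      _ = 1 := mul_inv_cancel₀ hpos.ne'

end Crest.Agent.R1s
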