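import Crest.Agent.R1s.Ev
import Crest.Agent.R5.Window

/-! Row 1: rough squarefree numbers in a window. -/

set_option autoImplicit false

namespace Crest.Agent.R1s

open Finset Filter
open Crest.Agent.R5 (pr pd ee)

theorem baseOK : BaseStmt := by
  obtain ⟨C, hC1, hC, -⟩ := Crest.Agent.R5.mertens
  refine ⟨24 * Real.exp (C / Real.log 2), by positivity, fun z Y ζ hY hζ => ?_⟩
  have hl2 : 0 < Real.log 2 := Real.log_pos (by norm_num)
  have hlζ : Real.log 2 ≤ Real.log ζ := Real.log_le_log (by norm_num) hζ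
  have hlζ0 : 0 < Real.log ζ := lt_of_lt_of_le hl2 hlζ
  by_cases hc : 2 * Y < ζ
  · have : (pr 2 z).powerset.filter (fun d : Finset ℕ => (∀ q ∈ d, ζ < ((q : ℕ) : ℝ)) ∧
        Y < (pd d : ℝ) ∧ (pd d : ℝ) ≤ 2 * Y) = ∅ := by
      refine filter_eq_empty_iff.2 fun d hd ⟨h1, h2, h3⟩ => ?_
      have hp : ∀ p ∈ d, p.Prime := fun p hp => (mem_pr.1 (mem_powerset.1 hd hp)).1
      rcases d.eq_empty_or_nonempty with rfl | ⟨q, hq⟩
      · rw [pd_empty] at h2
        simp only [Nat.cast_one] at h2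
        linarith
      · have h4 : (q : ℝ) ≤ pd d := by exact_mod_cast le_pd hp hq
        have := h1 q hq
        linarith
    rw [this, sum_empty]
    positivity
  · push Not at hc
    have hW := Crest.Agent.R5.window (pr ζ z) (fun _ => 1) 1 Y
      (fun q hq => (mem_pr.1 hq).1) (fun q _ => ⟨zero_le_one, le_rfl⟩) zero_le_one (by linarith)
    have hsub : (pr 2 z).powerset.filter (fun d : Finset ℕ => (∀ q ∈ d, ζ < ((q : ℕ) : ℝ)) ∧
        Y < (pd d : ℝ) ∧ (pd d : ℝ) ≤ 2 * Y) ⊆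
        (pr ζ z).powerset.filter (fun s => Y ≤ (pd s : ℝ) ∧ (pd s : ℝ) ≤ 2 * Y) := by
      intro d hd
      obtain ⟨hd, h1, h2, h3⟩ := mem_filter.1 hd
      refine mem_filter.2 ⟨mem_powerset.2 fun q hq => ?_, h2.le, h3⟩
      have := mem_pr.1 (mem_powerset.1 hd hq)
      exact mem_pr.2 ⟨this.1, h1 q hq, this.2.2⟩
    have h1 : ∑ d ∈ (pr 2 z).powerset.filter (fun d : Finset ℕ => (∀ q ∈ d, ζ < ((q : ℕ) : ℝ)) ∧
        Y < (pd d : ℝ) ∧ (pd d : ℝ) ≤ 2 * Y), 1 / (pd d : ℝ) ≤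
        ∑ s ∈ (pr ζ z).powerset.filter (fun s => Y ≤ (pd s : ℝ) ∧ (pd s : ℝ) ≤ 2 * Y),
          ∏ q ∈ s, (1 : ℝ) / q := by
      simp_rw [← inv_pd]
      exact sum_le_sum_of_subset_of_nonneg hsub fun _ _ _ => by positivity
    have h2 : ∏ q ∈ (pr ζ z).filter (fun q : ℕ => (q : ℝ) ≤ 2 * Y), (1 + (1 : ℝ) / q) ≤
        Real.exp (∑ q ∈ pr ζ (2 * Y), 1 / (q : ℝ)) := by
      calc ∏ q ∈ (pr ζ z).filter (fun q : ℕ => (q : ℝ) ≤ 2 * Y), (1 + (1 : ℝ) / q)
          ≤ ∏ q ∈ (pr ζ z).filter (fun q : ℕ => (q : ℝ) ≤ 2 * Y), Real.exp (1 / (q : ℝ)) := by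
            refine prod_le_prod (fun q _ => by positivity) fun q _ => ?_
            have := Real.add_one_le_exp (1 / (q : ℝ))
            linarith
        _ = Real.exp (∑ q ∈ (pr ζ z).filter (fun q : ℕ => (q : ℝ) ≤ 2 * Y), 1 / (q : ℝ)) := by
            rw [Real.exp_sum]
        _ ≤ _ := by
            refine Real.exp_le_exp.2 (sum_le_sum_of_subset_of_nonneg ?_ fun _ _ _ => by positivity)
            intro q hq
            obtain ⟨hq, hq2⟩ := mem_filter.1 hq
            have := mem_pr.1 hq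
            exact mem_pr.2 ⟨this.1, this.2.1, hq2⟩
    have h3 := (abs_le.1 (hC ζ (2 * Y) hζ hc)).2
    have hl2Y : 0 < Real.log (2 * Y) := Real.log_pos (by linarith)
    have hl4Y : Real.log (2 * Y) ≤ Real.log (4 * Y) := Real.log_le_log (by linarith) (by linarith)
    have h4 : C / Real.log ζ ≤ C / Real.log 2 :=
      div_le_div_of_nonneg_left (by linarith) hl2 hlζ
    have h5 : Real.exp (∑ q ∈ pr ζ (2 * Y), 1 / (q : ℝ)) ≤
        Real.log (2 * Y) / Real.log ζ * Real.exp (C / Real.log 2) := by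
      calc _ ≤ Real.exp (Real.log (Real.log (2 * Y)) - Real.log (Real.log ζ) + C / Real.log 2) :=
            Real.exp_le_exp.2 (by linarith)
        _ = _ := by
            rw [Real.exp_add, Real.exp_sub, Real.exp_log hl2Y, Real.exp_log hlζ0]
    have hl4 : 0 < Real.log (4 * Y) := lt_of_lt_of_le hl2Y hl4Y
    calc _ ≤ _ := h1
      _ ≤ _ := hW
      _ ≤ 12 * (1 + 1) / Real.log (4 * Y) *
          (Real.log (2 * Y) / Real.log ζ * Real.exp (C / Real.log 2)) := by
          gcongr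
          exact h2.trans h5
      _ = 24 * Real.exp (C / Real.log 2) / Real.log ζ * (Real.log (2 * Y) / Real.log (4 * Y)) := by
          field_simp
          ring
      _ ≤ 24 * Real.exp (C / Real.log 2) / Real.log ζ * 1 := by
          gcongr
          exact (div_le_one hl4).2 hl4Y
      _ = _ := mul_one _

end Crest.Agent.R1s
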