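import Crest.Agent.R1s.Ev

/-! Row 1: the large nodes. -/

set_option autoImplicit false

namespace Crest.Agent.R1s

open Finset Filter
open Crest.Agent.R5 (pr pd ee)

namespace BigAux

theorem term_le (hR : RemStmt) (N : ℤ) {M D a b : ℕ} (hM : 1 ≤ M) (ha : 0 < a) (hb : 0 < b)
    (hD : a * b ≤ D) (e : Finset ℕ) :
    |sg e * rem N M (a * b)| ≤ (D : ℝ) ^ 2 / M * (1 / ((a : ℝ) * b)) := by
  rw [abs_mul, abs_sg, one_mul]
  refine (hR N M (a * b) hM (Nat.mul_pos ha hb)).trans ?_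
  have h1 : (0 : ℝ) < (a : ℝ) * b := by positivity
  have h2 : (a : ℝ) * b ≤ D := by exact_mod_cast hD
  have h3 : (0 : ℝ) < M := by exact_mod_cast hM
  push_cast
  rw [div_mul_div_comm, mul_one, div_le_div_iff₀ h3 (by positivity)]
  have h4 : ((a : ℝ) * b) * ((a : ℝ) * b) ≤ (D : ℝ) ^ 2 := by nlinarith
  nlinarith

theorem num_le {m D M L : ℝ} {B : ℕ} (hm : 0 < m) (hL : 3 ≤ L) (hD0 : 0 ≤ D) (hD : D ≤ m * L ^ B)
    (hM : m / 3 ≤ M) : D ^ 2 / M * (1 / L ^ (2 * B + 4)) ≤ m / L ^ 3 := by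
  have hL0 : 0 < L := by linarith
  have h1 : D ^ 2 / M ≤ (m * L ^ B) ^ 2 / (m / 3) := by gcongr
  have h2 : (m * L ^ B) ^ 2 / (m / 3) * (1 / L ^ (2 * B + 4)) = m / L ^ 3 * (3 / L) := by
    field_simp
    ring
  have h3 : 3 / L ≤ 1 := by rwa [div_le_one hL0]
  calc D ^ 2 / M * (1 / L ^ (2 * B + 4)) ≤ (m * L ^ B) ^ 2 / (m / 3) * (1 / L ^ (2 * B + 4)) := by
        gcongr
    _ = m / L ^ 3 * (3 / L) := h2
    _ ≤ m / L ^ 3 * 1 := by gcongr
    _ = m / L ^ 3 := mul_one _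

theorem ty_mem {D₀ D V g : ℕ} (h1 : D₀ < g * V) (h2 : D ≤ V * D₀) :
    tyy D₀ D g ∈ range 2 ×ˢ range (V ^ 2) ×ˢ range (V ^ 2) := by
  have hg : 0 < g := Nat.pos_of_ne_zero fun h => by simp [h] at h1
  have hV : 0 < V := Nat.pos_of_ne_zero fun h => by simp [h] at h1
  simp only [tyy, mem_product, mem_range]
  refine ⟨Nat.mod_lt _ two_pos, ?_, ?_⟩
  · rw [Nat.div_lt_iff_lt_mul hg]
    nlinarith [Nat.mul_lt_mul_of_pos_left h1 hV]
  · rw [Nat.div_lt_iff_lt_mul hg]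
    nlinarith [Nat.mul_le_mul_left (g * V) hV]

end BigAux

theorem bigOK : RemStmt → BadStmt → SplitStmt → TupStmt → ITStmt → BigStmt := by
  classical
  intro hR hB hS hT hI B κ c hκ hκ' hc
  obtain ⟨r, hI⟩ := hI B κ hκ hκ'
  filter_upwards [hI, hB B r (2 * B + 4), ev_ZZ 1 0 r hc, ev_DD B, ev_VV, ev_VV_pow 2 (B + 2) hc,
    ev_log 3, eventually_ge_atTop 3] with m hI hB hZ hD hV hVp hL hm N j 𝒟 hDes hLin
  have hDes' := hDes.mono hZ.2
  obtain ⟨𝒢, F, φ, hG, hF, hφ, hφ', hsum⟩ := hS B r m j _ 𝒟 hm hDes'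
  obtain ⟨cc, hc1, hc2, hc3⟩ := hT r m F φ hm hF hφ
  have hM : 1 ≤ m / 2 := by omega
  have hm0 : (0 : ℝ) < m := by exact_mod_cast (by omega : 0 < m)
  have hDV : DD B m ≤ VV m * D0 m := by
    have h : (DD B m : ℝ) ≤ VV m * D0 m :=
      hD.2.2.2.1.trans (mul_le_mul_of_nonneg_right hVp.1 (Nat.cast_nonneg _))
    exact_mod_cast h
  have hgood : |∑ d ∈ 𝒟, ∑ e ∈ (Rp (DD B m / pd d)).filter
      (fun e => D0 m < pd d * pd e ∧ goodE r m e), sg e * rem N (m / 2) (pd d * pd e)| ≤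
      m / Real.log m ^ 3 := by
    have h := hI N 𝒢 (tyy (D0 m) (DD B m)) (range 2 ×ˢ range (VV m ^ 2) ×ˢ range (VV m ^ 2)) cc
      ⟨fun g hg => ⟨(hG g hg).1, (hG g hg).2.1, BigAux.ty_mem (hG g hg).1 hDV⟩, ?_,
        hLin 𝒢 fun g hg => ⟨?_, (hG g hg).2⟩⟩
      ⟨hc1, fun τ s p u h => (hc2 τ s p u h).1, fun g hg s p u h => ?_⟩
    · rw [hsum (rem N (m / 2))]
      refine le_trans (le_of_eq ?_) h
      unfold RS
      congr 1
      exact sum_congr rfl fun g _ => hc3 _ fun n => rem N (m / 2) (g * n)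
    · rw [card_product, card_product, card_range, card_range]
      have h2 := hV.2.2
      calc 2 * (VV m ^ 2 * VV m ^ 2) ≤ VV m ^ 2 * (VV m ^ 2 * VV m ^ 2) :=
            Nat.mul_le_mul_right _ (by nlinarith)
        _ = VV m ^ 6 := by ring
    · exact Nat.pos_of_ne_zero fun h => by simpa [h] using (hG g hg).1
    · obtain ⟨f, -, h1, h2⟩ := (hc2 _ s p u h).2
      rw [← h2]
      exact hφ' g hg f h1
  have hbad : |∑ d ∈ 𝒟, ∑ e ∈ (Rp (DD B m / pd d)).filter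
      (fun e => D0 m < pd d * pd e ∧ ¬ goodE r m e), sg e * rem N (m / 2) (pd d * pd e)| ≤
      m / Real.log m ^ 3 := by
    have h3 : (m : ℝ) / 3 ≤ (m / 2 : ℕ) := by
      have : m ≤ 3 * (m / 2) := by omega
      have h : (m : ℝ) ≤ 3 * (m / 2 : ℕ) := by exact_mod_cast this
      linarith
    refine le_trans ?_ (BigAux.num_le hm0 hL (Nat.cast_nonneg (DD B m)) hD.2.1 h3)
    refine le_trans ?_ (mul_le_mul_of_nonneg_left (hB j _ 𝒟 hDes') (by positivity))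
    rw [mul_sum]
    refine (abs_sum_le_sum_abs _ _).trans (sum_le_sum fun d hd => ?_)
    rw [mul_sum]
    refine (abs_sum_le_sum_abs _ _).trans (sum_le_sum fun e he => ?_)
    have he' := (mem_filter.1 he).1
    exact BigAux.term_le hR N hM (pd_pos (hDes.prime hd))
      (pd_pos fun p hp => ((mem_Rp.1 he').1 p hp).1) (hDes.mul_le hd hDes.le he') e
  have hsplit : ∑ d ∈ 𝒟, ∑ e ∈ (Rp (DD B m / pd d)).filter (fun e => D0 m < pd d * pd e),
      sg e * rem N (m / 2) (pd d * pd e) =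
      ∑ d ∈ 𝒟, ∑ e ∈ (Rp (DD B m / pd d)).filter
        (fun e => D0 m < pd d * pd e ∧ goodE r m e), sg e * rem N (m / 2) (pd d * pd e) +
      ∑ d ∈ 𝒟, ∑ e ∈ (Rp (DD B m / pd d)).filter
        (fun e => D0 m < pd d * pd e ∧ ¬ goodE r m e), sg e * rem N (m / 2) (pd d * pd e) := by
    rw [← sum_add_distrib]
    refine sum_congr rfl fun d _ => ?_
    rw [← filter_filter, ← filter_filter, sum_filter_add_sum_filter_not]
  rw [hsplit]
  refine (abs_add_le _ _).trans ((add_le_add hgood hbad).trans (le_of_eq ?_))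
  ring

end Crest.Agent.R1s
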