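import Crest.Agent.R1s.Ev

/-! Row 1: blocks of consecutive elements. -/

set_option autoImplicit false

namespace Crest.Agent.R1s

open Finset Filter
open Crest.Agent.R5 (pr pd ee)

namespace BlockAux

theorem exists_cut (S : Finset ℕ) {n : ℕ} (hn : n < S.card) :
    ∃ t : ℕ, (S.filter (fun q => q < t)).card = n := by
  refine ⟨Nat.nth (· ∈ S) n, ?_⟩
  have h := Nat.count_nth (p := (· ∈ S)) (n := n) (fun hf => by
    have : hf.toFinset = S := by
      ext q
      simp
    rwa [this])
  rw [Nat.count_eq_card_filter_range] at h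
  refine Eq.trans ?_ h
  congr 1
  ext q
  simp [and_comm]

theorem main (n : ℕ) (hn : 1 ≤ n) (k : ℕ) : ∀ (S : Finset ℕ) (Z : ℝ), S.card ≤ k → 0 < Z →
    (∀ q ∈ S, Z ≤ (q : ℝ)) →
    ∃ (bl : ℕ → ℕ) (lo : ℕ → ℝ), (∀ q ∈ S, 0 < lo (bl q) ∧ lo (bl q) ≤ q) ∧
      (∀ b, (S.filter (fun q => bl q = b)).card ≤ n) ∧
      ∑ b ∈ S.image bl, n / lo b ≤ n / Z + ∑ q ∈ S, 1 / (q : ℝ) := by
  have base : ∀ (S : Finset ℕ) (Z : ℝ), S.card ≤ n → 0 < Z → (∀ q ∈ S, Z ≤ (q : ℝ)) →
      ∃ (bl : ℕ → ℕ) (lo : ℕ → ℝ), (∀ q ∈ S, 0 < lo (bl q) ∧ lo (bl q) ≤ q) ∧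
        (∀ b, (S.filter (fun q => bl q = b)).card ≤ n) ∧
        ∑ b ∈ S.image bl, n / lo b ≤ n / Z + ∑ q ∈ S, 1 / (q : ℝ) := fun S Z hS hZ h => by
    refine ⟨fun _ => 0, fun _ => Z, fun q hq => ⟨hZ, h q hq⟩,
      fun b => (Finset.card_filter_le _ _).trans hS, ?_⟩
    have h1 : ∑ _b ∈ S.image (fun _ => 0), (n : ℝ) / Z ≤ ∑ _b ∈ ({0} : Finset ℕ), (n : ℝ) / Z :=
      Finset.sum_le_sum_of_subset_of_nonneg (fun b hb => by
        obtain ⟨q, -, rfl⟩ := Finset.mem_image.1 hb
        exact Finset.mem_singleton_self _) fun _ _ _ => by positivity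
    rw [Finset.sum_singleton] at h1
    exact h1.trans (le_add_of_nonneg_right (Finset.sum_nonneg fun _ _ => by positivity))
  induction k with
  | zero => exact fun S Z hS => base S Z (by omega)
  | succ k ih =>
    intro S Z hS hZ h
    rcases le_or_gt S.card n with hc | hc
    · exact base S Z hc hZ h
    obtain ⟨t, ht⟩ := exists_cut S hc
    have hcard := Finset.card_filter_add_card_filter_not (s := S) (fun q => q < t)
    have ht0 : 0 < t := by
      obtain ⟨q, hq⟩ := Finset.card_pos.1 (by omega : 0 < (S.filter (fun q => q < t)).card)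
      have := (Finset.mem_filter.1 hq).2
      omega
    obtain ⟨bl, lo, h1, h2, h3⟩ := ih (S.filter (fun q => ¬ q < t)) t (by omega)
      (by exact_mod_cast ht0) (fun q hq => by exact_mod_cast not_lt.1 (Finset.mem_filter.1 hq).2)
    refine ⟨fun q => if q < t then 0 else bl q + 1, fun b => if b = 0 then Z else lo (b - 1),
      fun q hq => ?_, fun b => ?_, ?_⟩
    · by_cases hqt : q < t
      · simpa [hqt] using ⟨hZ, h q hq⟩
      · simpa [hqt] using h1 q (Finset.mem_filter.2 ⟨hq, hqt⟩)
    · rcases b with _ | b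
      · refine le_trans (Finset.card_le_card fun q hq => ?_) ht.le
        obtain ⟨a1, a2⟩ := Finset.mem_filter.1 hq
        refine Finset.mem_filter.2 ⟨a1, ?_⟩
        by_contra hqt
        simp [hqt] at a2
      · refine le_trans (Finset.card_le_card fun q hq => ?_) (h2 b)
        obtain ⟨a1, a2⟩ := Finset.mem_filter.1 hq
        by_cases hqt : q < t
        · simp [hqt] at a2
        · exact Finset.mem_filter.2 ⟨Finset.mem_filter.2 ⟨a1, hqt⟩, by simpa [hqt] using a2⟩
    · have h4 : S.image (fun q => if q < t then 0 else bl q + 1) ⊆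
          insert 0 (((S.filter (fun q => ¬ q < t)).image bl).image (· + 1)) := fun b hb => by
        obtain ⟨q, hq, rfl⟩ := Finset.mem_image.1 hb
        by_cases hqt : q < t
        · rw [if_pos hqt]
          exact Finset.mem_insert_self _ _
        · rw [if_neg hqt]
          exact Finset.mem_insert_of_mem (Finset.mem_image_of_mem _
            (Finset.mem_image_of_mem _ (Finset.mem_filter.2 ⟨hq, hqt⟩)))
      have h5 : (n : ℝ) / t ≤ ∑ q ∈ S.filter (fun q => q < t), 1 / (q : ℝ) := by
        rw [← ht, div_eq_mul_one_div, ← nsmul_eq_mul]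
        refine Finset.card_nsmul_le_sum _ _ _ fun q hq => ?_
        obtain ⟨a1, a2⟩ := Finset.mem_filter.1 hq
        exact one_div_le_one_div_of_le (hZ.trans_le (h q a1)) (by exact_mod_cast a2.le)
      refine (Finset.sum_le_sum_of_subset_of_nonneg h4 fun b hb _ => ?_).trans ?_
      · rcases Finset.mem_insert.1 hb with rfl | hb
        · simp only [if_true]
          positivity
        · obtain ⟨b', hb', rfl⟩ := Finset.mem_image.1 hb
          obtain ⟨q, hq, rfl⟩ := Finset.mem_image.1 hb'
          simp only [Nat.add_one_ne_zero, if_false, Nat.add_sub_cancel]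
          exact div_nonneg (Nat.cast_nonneg _) (h1 q hq).1.le
      · rw [Finset.sum_insert (by simp), Finset.sum_image (fun a _ b _ h => by simpa using h),
          ← Finset.sum_filter_add_sum_filter_not S (fun q => q < t)]
        simp only [Nat.add_one_ne_zero, if_false, if_true, Nat.add_sub_cancel]
        linarith

end BlockAux

theorem blockOK : BlockStmt := fun S n Z hn hZ h => BlockAux.main n hn S.card S Z le_rfl hZ h

end Crest.Agent.R1s
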