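import Crest.Agent.R1s.Ev

/-! Row 1: the unstructured case. -/

set_option autoImplicit false

namespace Crest.Agent.R1s

open Finset Filter
open Crest.Agent.R5 (pr pd ee)

namespace CaseBAux

theorem split (N : ℤ) (M a : ℕ) (U : Finset (Finset ℕ)) :
    ∑ e ∈ U, sg e * cnt N M (a * pd e) =
      M / a * ∑ e ∈ U, sg e / pd e + ∑ e ∈ U, sg e * rem N M (a * pd e) := by
  rw [mul_sum, ← sum_add_distrib]
  refine sum_congr rfl fun e _ => ?_
  unfold rem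
  push_cast
  rw [div_mul_div_comm, mul_sub, mul_div_assoc']
  ring

theorem abs_le_sum (U : Finset (Finset ℕ)) (f : Finset ℕ → ℝ) :
    |∑ e ∈ U, sg e * f e| ≤ ∑ e ∈ U, |f e| := by
  refine (abs_sum_le_sum_abs _ _).trans (le_of_eq (sum_congr rfl fun e _ => ?_))
  rw [abs_mul, abs_sg, one_mul]

end CaseBAux

open CaseBAux in
theorem caseB : HybStmt → SmallStmt → E1Stmt → GainStmt → DesStmt → BigStmt → ColStmt → NoLineStmt → CaseBStmt := by
  intro hHyb hSm hE1 hGain hDes hBig hCol hNo η c₀ hη hη' hc₀ hc₀'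
  obtain ⟨j, c, hc, hDes⟩ := hDes η hη hη'
  obtain ⟨C₁, hC₁, hE1⟩ := hE1
  obtain ⟨C₂, hC₂, hGain⟩ := hGain c hc
  obtain ⟨B, hB⟩ := exists_nat_ge ((C₁ + 1) / (c * c₀ / 4) + C₂)
  have hB1 : C₁ + 1 ≤ (2 * B - C₂) * (c * (c₀ / 4)) := by
    have h1 : 0 < c * c₀ / 4 := by positivity
    have h2 : (C₁ + 1) / (c * c₀ / 4) ≤ 2 * B - C₂ := by
      have : (0 : ℝ) ≤ B := by positivity
      linarith
    rw [div_le_iff₀ h1] at h2
    linarith
  have hB2 : 0 ≤ 2 * (B : ℝ) - C₂ := by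
    have : 0 ≤ (C₁ + 1) / (c * c₀ / 4) := by positivity
    linarith
  filter_upwards [hDes B, hE1, hGain B, hBig B (η / 4) c (by linarith) (by linarith) hc,
    hCol η c₀ B hη hη' hc₀ hc₀', hNo η B hη hη', ev_D0, ev_zz (show (0 : ℝ) < 1 / 4 by norm_num),
    ev_log_pow 2 2 (show (0 : ℝ) < 1 / 4 by norm_num), ev_log 40, ev_loglog 1,
    eventually_ge_atTop 3] with m hDes hE1 hGain hBig hCol hNo hD hz hl hL hll hm N hdef
  obtain ⟨Q, hQ, hQm, hsep⟩ := hCol N hdef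
  obtain ⟨𝒟, hOK, hprop, hmass⟩ := hDes Q hQ
  set L := Real.log m with hLdef
  set l := Real.log L with hldef
  set M := m / 2 with hMdef
  have hm' : (3 : ℝ) ≤ m := by exact_mod_cast hm
  have hM1 : 1 ≤ M := by omega
  have hM3 : (m : ℝ) / 3 ≤ M := by
    have : m ≤ 3 * M := by omega
    have : (m : ℝ) ≤ 3 * M := by exact_mod_cast this
    linarith
  have hzD : zz m ≤ D0 m := by
    refine hz.2.trans (le_trans ?_ hD.1)
    rw [le_div_iff₀ (by positivity)]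
    calc (m : ℝ) ^ (1 / 2 + 1 / 4 : ℝ) * (2 * L ^ 2) ≤ (m : ℝ) ^ (1 / 2 + 1 / 4 : ℝ) *
          (m : ℝ) ^ (1 / 4 : ℝ) := by gcongr
      _ = m := by rw [← Real.rpow_add (by linarith)]; norm_num
  have hH := hHyb j _ _ _ _ 𝒟 hOK N M m hM1 (by omega)
  obtain ⟨s1, s2, s3⟩ := hSm j _ _ _ _ 𝒟 hOK hD.2.2.2 hzD N M hM1
  have hbig := hBig N j 𝒟 hOK fun 𝒢 h𝒢 => hNo N Q hQ hsep 𝒢 fun g hg => by
    obtain ⟨a1, a2, d, hd, a3⟩ := h𝒢 g hg
    obtain ⟨-, π, hπ, b1, b2⟩ := hprop d hd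
    exact ⟨a1, a2, π, hπ, (dvd_pd b1).trans a3, (dvd_pd b2).trans a3⟩
  have e0 : ∑ t ∈ RR 0 (D0 m) (zz m), sg t * cnt N M (pd t) =
      M * MM (D0 m) (zz m) + ∑ t ∈ RR 0 (D0 m) (zz m), sg t * rem N M (pd t) := by
    have := split N M 1 (RR 0 (D0 m) (zz m))
    simpa only [one_mul, Nat.cast_one, div_one, MM] using this
  have e1 : ∑ d ∈ 𝒟, (∑ e ∈ Rp (D0 m / pd d), sg e * cnt N M (pd d * pd e) -
        ∑ e ∈ Rp (DD B m / pd d), sg e * cnt N M (pd d * pd e)) =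
      M * ∑ d ∈ 𝒟, 1 / (pd d : ℝ) * (GG (D0 m / pd d) - GG (DD B m / pd d)) +
      ∑ d ∈ 𝒟, ∑ e ∈ Rp (D0 m / pd d), sg e * rem N M (pd d * pd e) -
      ∑ d ∈ 𝒟, ∑ e ∈ (Rp (DD B m / pd d)).filter (fun e => D0 m < pd d * pd e),
        sg e * rem N M (pd d * pd e) -
      ∑ d ∈ 𝒟, ∑ e ∈ (Rp (DD B m / pd d)).filter (fun e => ¬ D0 m < pd d * pd e),
        sg e * rem N M (pd d * pd e) := by
    rw [mul_sum, ← sum_add_distrib, ← sum_sub_distrib, ← sum_sub_distrib]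
    refine sum_congr rfl fun d _ => ?_
    rw [split, split, ← sum_filter_add_sum_filter_not (Rp (DD B m / pd d))
      (fun e => D0 m < pd d * pd e) (fun e => sg e * rem N M (pd d * pd e))]
    unfold GG
    ring
  rw [e0, e1] at hH
  have r1 := (abs_le.1 ((abs_le_sum _ fun t => rem N M (pd t)).trans s1)).1
  have r2 := (abs_le.1 (((abs_sum_le_sum_abs _ _).trans (sum_le_sum fun d _ =>
    abs_le_sum (Rp (D0 m / pd d)) fun e => rem N M (pd d * pd e))).trans s2)).1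
  have r3 := (abs_le.1 (((abs_sum_le_sum_abs _ _).trans (sum_le_sum fun d _ =>
    abs_le_sum ((Rp (DD B m / pd d)).filter (fun e => ¬ D0 m < pd d * pd e))
      fun e => rem N M (pd d * pd e))).trans s3)).2
  have r4 := (abs_le.1 hbig).2
  have hL0 : 0 < L := by linarith
  have hw : 0 ≤ l / L ^ 2 := by positivity
  have g1 : (C₁ + 1) * (l / L ^ 2) ≤
      ∑ d ∈ 𝒟, 1 / (pd d : ℝ) * (GG (D0 m / pd d) - GG (DD B m / pd d)) := by
    calc (C₁ + 1) * (l / L ^ 2) ≤ (2 * B - C₂) * (c * (c₀ / 4)) * (l / L ^ 2) := by gcongr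
      _ ≤ (2 * B - C₂) * (∑ d ∈ 𝒟, 1 / (pd d : ℝ)) * (l / L ^ 2) := by
          gcongr
          exact le_trans (by gcongr) hmass
      _ = ∑ d ∈ 𝒟, 1 / (pd d : ℝ) * ((2 * B - C₂) * l / L ^ 2) := by
          rw [← sum_mul]; ring
      _ ≤ _ := sum_le_sum fun d hd => mul_le_mul_of_nonneg_left
          (hGain (pd d) (pd_pos (hOK.prime hd)) (hprop d hd).1) (by positivity)
  have g2 : (m : ℝ) / 3 * (1 / L ^ 2) ≤ M * MM (D0 m) (zz m) +
      M * ∑ d ∈ 𝒟, 1 / (pd d : ℝ) * (GG (D0 m / pd d) - GG (DD B m / pd d)) := by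
    rw [← mul_add]
    have h1 : 1 / L ^ 2 ≤ l / L ^ 2 := by gcongr
    have h2 : C₁ * l / L ^ 2 = C₁ * (l / L ^ 2) := by ring
    rw [h2] at hE1
    exact mul_le_mul hM3 (by linarith) (by positivity) (by positivity)
  have g3 : (D0 m : ℝ) ^ 2 / M ≤ 3 * m / L ^ 4 := by
    calc (D0 m : ℝ) ^ 2 / M ≤ (m / L ^ 2) ^ 2 / (m / 3) := by gcongr; exact hD.2.1
      _ = _ := by field_simp
  have g4 : (m : ℝ) / L ^ 5 + 3 * (3 * m / L ^ 4) + 2 * m / L ^ 3 ≤ m / 3 * (1 / L ^ 2) := by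
    have h1 : (m : ℝ) / L ^ 5 + 3 * (3 * m / L ^ 4) + 2 * m / L ^ 3 =
        m / L ^ 5 * (1 + 9 * L + 2 * L ^ 2) := by field_simp; ring
    have h2 : (m : ℝ) / 3 * (1 / L ^ 2) = m / L ^ 5 * (L ^ 3 / 3) := by field_simp
    rw [h1, h2]
    refine mul_le_mul_of_nonneg_left ?_ (by positivity)
    nlinarith [mul_le_mul_of_nonneg_left hL (sq_nonneg L)]
  linarith

end Crest.Agent.R1s
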