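import Crest.Agent.R1s.Ev

/-! Row 1: pairs without a common colour. -/

set_option autoImplicit false

namespace Crest.Agent.R1s

open Finset Filter
open Crest.Agent.R5 (pr pd ee)

namespace ColAux

open Classical in
/-- the union bound -/
theorem comb {ι : Type} (A Bs : Finset ℕ) (𝒞 : Finset ι) (dv : ι → ℕ → Prop)
    [∀ ρ, DecidablePred (dv ρ)] (c ε : ℝ) (hc0 : 0 ≤ c) (hε : 0 ≤ ε)
    (hc : c ≤ ∑ p ∈ A, 1 / (p : ℝ))
    (hhi : ∀ ρ ∈ 𝒞, c < ∑ p ∈ A.filter (fun p => ¬ dv ρ p), 1 / (p : ℝ))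
    (hlo : ∑ ρ ∈ 𝒞, ∑ p ∈ Bs.filter (dv ρ), 1 / (p : ℝ) ≤ ∑ p ∈ Bs, 1 / (p : ℝ) + ε) :
    c * ∑ p ∈ Bs, 1 / (p : ℝ) - (∑ p ∈ A, 1 / (p : ℝ)) * ε ≤
      ∑ π ∈ (A ×ˢ Bs).filter (fun π => ∀ ρ ∈ 𝒞, ¬ (dv ρ π.1 ∧ dv ρ π.2)),
        1 / ((π.1 : ℝ) * π.2) := by
  set sA := ∑ p ∈ A, 1 / (p : ℝ) with hsA
  set sB := ∑ p ∈ Bs, 1 / (p : ℝ) with hsB
  have h1 : sA * sB = ∑ π ∈ A ×ˢ Bs, 1 / ((π.1 : ℝ) * π.2) := by
    rw [hsA, hsB, sum_mul_sum, sum_product]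
    refine sum_congr rfl fun p _ => sum_congr rfl fun q _ => ?_
    rw [one_div_mul_one_div]
  have h2 : ∀ ρ, (∑ p ∈ A.filter (dv ρ), 1 / (p : ℝ)) * ∑ p ∈ Bs.filter (dv ρ), 1 / (p : ℝ) =
      ∑ π ∈ A ×ˢ Bs, if dv ρ π.1 ∧ dv ρ π.2 then 1 / ((π.1 : ℝ) * π.2) else 0 := by
    intro ρ
    rw [sum_filter, sum_filter, sum_mul_sum, sum_product]
    refine sum_congr rfl fun p _ => sum_congr rfl fun q _ => ?_
    by_cases hp : dv ρ p <;> by_cases hq : dv ρ q <;> simp [hp, hq, mul_comm]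
  have h3 : sA * sB ≤ ∑ π ∈ (A ×ˢ Bs).filter (fun π => ∀ ρ ∈ 𝒞, ¬ (dv ρ π.1 ∧ dv ρ π.2)),
        1 / ((π.1 : ℝ) * π.2) +
      ∑ ρ ∈ 𝒞, (∑ p ∈ A.filter (dv ρ), 1 / (p : ℝ)) * ∑ p ∈ Bs.filter (dv ρ), 1 / (p : ℝ) := by
    simp only [h2]
    rw [h1, sum_comm, sum_filter, ← sum_add_distrib]
    refine sum_le_sum fun π _ => ?_
    have h0 : ∀ ρ ∈ 𝒞, 0 ≤ if dv ρ π.1 ∧ dv ρ π.2 then 1 / ((π.1 : ℝ) * π.2) else 0 := by
      intro ρ _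
      split_ifs <;> positivity
    by_cases h : ∀ ρ ∈ 𝒞, ¬ (dv ρ π.1 ∧ dv ρ π.2)
    · rw [if_pos h]
      linarith [sum_nonneg h0]
    · rw [if_neg h, zero_add]
      push Not at h
      obtain ⟨ρ, hρ, h4⟩ := h
      have := single_le_sum h0 hρ
      rwa [if_pos h4] at this
  have h4 : ∑ ρ ∈ 𝒞, (∑ p ∈ A.filter (dv ρ), 1 / (p : ℝ)) * ∑ p ∈ Bs.filter (dv ρ), 1 / (p : ℝ) ≤
      (sA - c) * (sB + ε) := by
    refine le_trans ?_ (mul_le_mul_of_nonneg_left hlo (sub_nonneg.2 hc))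
    rw [mul_sum]
    refine sum_le_sum fun ρ hρ => mul_le_mul_of_nonneg_right ?_ (sum_nonneg fun p _ => by positivity)
    have h5 := sum_filter_add_sum_filter_not A (dv ρ) fun p => 1 / (p : ℝ)
    linarith [hhi ρ hρ]
  nlinarith [mul_nonneg hc0 hε]

theorem ev_Lo {η : ℝ} (hη : 0 < η) : ∀ᶠ m : ℕ in atTop,
    3 / 5 ≤ ∑ p ∈ Lo η m, 1 / (p : ℝ) ∧ ∑ p ∈ Lo η m, 1 / (p : ℝ) ≤ 1 := by
  obtain ⟨C, hC, h, -⟩ := R5.mertens
  filter_upwards [ev_rpow 2 hη, ev_log (20 * C / η), ev_log 1, eventually_ge_atTop 1]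
    with m h1 h2 h3 hm
  have hm' : (1 : ℝ) ≤ m := by exact_mod_cast hm
  have h4 := abs_le.1 (h ((m : ℝ) ^ η) ((m : ℝ) ^ (2 * η)) h1
    (Real.rpow_le_rpow_of_exponent_le hm' (by linarith)))
  rw [Real.log_rpow (by linarith), Real.log_rpow (by linarith), mul_assoc,
    Real.log_mul (by norm_num) (by positivity)] at h4
  have h5 : C / (η * Real.log m) ≤ 1 / 20 := by
    rw [div_le_iff₀ hη] at h2
    rw [div_le_iff₀ (by positivity)]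
    linarith
  have h6 := Real.log_two_gt_d9
  have h7 := Real.log_two_lt_d9
  unfold Lo
  constructor <;> linarith [h4.1, h4.2]

end ColAux

theorem colOK : FamStmt → ColStmt := by
  classical
  intro hF η c₀ B hη hη' hc0 hc1
  have hη4 : 0 < η / 4 := by positivity
  filter_upwards [ColAux.ev_Lo hη, ev_recip, ev_zz (show (0 : ℝ) < 1 by norm_num), ev_DD B,
    ev_rpow 4 hη4, ev_log_pow 4 B hη4, ev_log_pow (256 / (η * c₀)) 1 hη4, ev_log 1,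
    eventually_ge_atTop 1] with m hLo hrec hzz hDD hx4 hxB hxK hL hm N hD
  have hm' : (1 : ℝ) ≤ m := by exact_mod_cast hm
  have hm0 : (0 : ℝ) < m := by linarith
  set x := (m : ℝ) ^ (η / 4) with hx
  have hx0 : 0 < x := by linarith
  have hy : (m : ℝ) ^ η = x ^ 4 := by
    rw [hx, ← Real.rpow_natCast, ← Real.rpow_mul hm0.le]
    congr 1
    push_cast
    ring
  have hym : x ^ 4 ≤ m := by
    rw [← hy]
    calc (m : ℝ) ^ η ≤ (m : ℝ) ^ (1 : ℝ) := Real.rpow_le_rpow_of_exponent_le hm' (by linarith)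
      _ = m := Real.rpow_one _
  have hinv : (m : ℝ) ^ (-(η / 4)) = x⁻¹ := Real.rpow_neg hm0.le _
  set D : ℝ := (DD B m : ℝ) with hDdef
  have hD0 : 0 ≤ D := Nat.cast_nonneg _
  have hDx : 4 * D ≤ m * x := by nlinarith [hDD.2.1]
  have hx2 : 16 ≤ x ^ 2 := by nlinarith
  -- the colours
  set 𝒞 : Finset (ℕ × ℤ) := (Icc 1 ⌈2 * x⌉₊ ×ˢ Icc (-⌈4 * D * x⌉) ⌈4 * D * x⌉).filter fun ρ =>
    (ρ.1 : ℝ) ≤ 2 * x ∧ |(ρ.2 : ℝ)| ≤ 4 * D * x ∧ Int.gcd ρ.2 ρ.1 = 1 ∧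
      x⁻¹ ≤ ∑ p ∈ (Lo η m).filter (fun p : ℕ => (p : ℤ) ∣ ρ.1 * N + ρ.2), 1 / (p : ℝ) with h𝒞
  have hmem : ∀ ρ ∈ 𝒞, 1 ≤ ρ.1 ∧ (ρ.1 : ℝ) ≤ 2 * x ∧ |(ρ.2 : ℝ)| ≤ 4 * D * x ∧ Int.gcd ρ.2 ρ.1 = 1 ∧
      x⁻¹ ≤ ∑ p ∈ (Lo η m).filter (fun p : ℕ => (p : ℤ) ∣ ρ.1 * N + ρ.2), 1 / (p : ℝ) := by
    intro ρ hρ
    obtain ⟨h1, h2⟩ := mem_filter.1 hρ
    exact ⟨(mem_Icc.1 (mem_product.1 h1).1).1, h2⟩
  have hfam : ∀ 𝒞' ⊆ 𝒞, ∑ ρ ∈ 𝒞', ∑ p ∈ (Lo η m).filter (fun p : ℕ => (p : ℤ) ∣ ρ.1 * N + ρ.2),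
      1 / (p : ℝ) ≤ ∑ p ∈ Lo η m, 1 / (p : ℝ) + (𝒞'.card : ℝ) ^ 2 * (2 / η) / x ^ 4 := by
    intro 𝒞' hs
    have := hF N (Lo η m) 𝒞' ((m : ℝ) ^ η) (8 * D * x ^ 2) (2 / η) (by rw [hy]; nlinarith)
      (by positivity) (fun p hp => ⟨(mem_pr.1 hp).1, (mem_pr.1 hp).2.1⟩)
      (fun ρ hρ => ⟨(hmem ρ (hs hρ)).1, (hmem ρ (hs hρ)).2.2.2.1⟩)
      (fun ρ hρ ρ' hρ' => by
        calc (ρ.1 : ℝ) * |(ρ'.2 : ℝ)| ≤ 2 * x * (4 * D * x) :=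
              mul_le_mul (hmem ρ (hs hρ)).2.1 (hmem ρ' (hs hρ')).2.2.1 (abs_nonneg _) (by positivity)
          _ = _ := by ring)
      (by
        rw [← Real.rpow_mul hm0.le, mul_div_cancel₀ _ hη.ne', Real.rpow_two]
        have h1 : 4 * x ^ 3 ≤ m := by nlinarith [pow_pos hx0 3]
        have h2 : 4 * D * (4 * x ^ 2) ≤ m * x * (4 * x ^ 2) :=
          mul_le_mul_of_nonneg_right hDx (by positivity)
        nlinarith)
    rwa [hy] at this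
  -- the error
  have hK : 256 / (η * c₀) * Real.log m ≤ x := by simpa using hxK
  have hK1 : 256 * Real.log m ≤ x * (η * c₀) := by
    rwa [div_mul_eq_mul_div, div_le_iff₀ (by positivity)] at hK
  have herr : ∀ t : ℕ, t ≤ ⌈3 * x⌉₊ → (t : ℝ) ^ 2 * (2 / η) / x ^ 4 ≤ c₀ / (8 * Real.log m) := by
    intro t ht
    have h1 : (t : ℝ) ≤ 4 * x := by
      have h2 : (t : ℝ) ≤ ⌈3 * x⌉₊ := by exact_mod_cast ht
      have h3 := Nat.ceil_lt_add_one (show 0 ≤ 3 * x by positivity)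
      linarith
    have h2 : (t : ℝ) ^ 2 ≤ (4 * x) ^ 2 := pow_le_pow_left₀ (by positivity) h1 2
    calc (t : ℝ) ^ 2 * (2 / η) / x ^ 4 ≤ (4 * x) ^ 2 * (2 / η) / x ^ 4 := by gcongr
      _ = 32 / (η * x ^ 2) := by field_simp; ring
      _ ≤ _ := by
        rw [div_le_div_iff₀ (by positivity) (by positivity)]
        have h3 : x * (η * c₀) ≤ x * (x * (η * c₀)) :=
          le_mul_of_one_le_left (by positivity) (by linarith)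
        nlinarith
  have hsm : c₀ / (8 * Real.log m) ≤ 1 := by
    rw [div_le_one (by positivity)]
    linarith
  have hcard : 𝒞.card ≤ ⌈3 * x⌉₊ := by
    by_contra hlt
    obtain ⟨𝒞', hs, hc⟩ := exists_subset_card_eq (not_le.1 hlt).le
    have h1 := hfam 𝒞' hs
    have h2 := herr 𝒞'.card hc.le
    have h3 := card_nsmul_le_sum 𝒞' _ x⁻¹ fun ρ hρ => (hmem ρ (hs hρ)).2.2.2.2
    rw [nsmul_eq_mul, hc] at h3
    have h4 : 3 ≤ (⌈3 * x⌉₊ : ℝ) * x⁻¹ := by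
      rw [← div_eq_mul_inv, le_div_iff₀ hx0]
      exact Nat.le_ceil _
    linarith [hLo.2]
  have hHi : ∑ p ∈ Hi η m, 1 / (p : ℝ) ≤ 2 * Real.log m := by
    refine (hrec _ fun p hp => ⟨(mem_pr.1 hp).1, (mem_pr.1 hp).2.2.trans (hzz.2.trans ?_)⟩).trans ?_
    · rw [← Real.rpow_two]
      exact Real.rpow_le_rpow_of_exponent_le hm' (by norm_num)
    · linarith [Real.log_le_sub_one_of_pos (show 0 < Real.log m by linarith)]
  have hc : c₀ ≤ ∑ p ∈ Hi η m, 1 / (p : ℝ) := by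
    have := hD 1 0 le_rfl (by rw [hy]; push_cast; nlinarith) (by
      rw [Int.cast_zero, abs_zero]; positivity) (by simp)
    exact this.le.trans
      (sum_le_sum_of_subset_of_nonneg (filter_subset _ _) fun p _ _ => by positivity)
  have key := ColAux.comb (Hi η m) (Lo η m) 𝒞 (fun ρ p => (p : ℤ) ∣ ρ.1 * N + ρ.2) c₀
    (c₀ / (8 * Real.log m)) hc0.le (by positivity) hc
    (fun ρ hρ => hD ρ.1 ρ.2 (hmem ρ hρ).1
      ((hmem ρ hρ).2.1.trans (by rw [hy]; nlinarith [pow_pos hx0 2]))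
      ((hmem ρ hρ).2.2.1.trans (by
        rw [Real.rpow_add hm0, Real.rpow_one, hy]
        have h1 : 4 * D * x ≤ m * x * x := mul_le_mul_of_nonneg_right hDx hx0.le
        have h2 : x ^ 2 ≤ x ^ 4 := by nlinarith
        nlinarith)) (hmem ρ hρ).2.2.2.1)
    ((hfam 𝒞 subset_rfl).trans (by linarith [herr _ hcard]))
  refine ⟨_, filter_subset _ _, le_trans ?_ key, ?_⟩
  · have h1 : (∑ p ∈ Hi η m, 1 / (p : ℝ)) * (c₀ / (8 * Real.log m)) ≤ c₀ / 4 := by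
      calc _ ≤ 2 * Real.log m * (c₀ / (8 * Real.log m)) :=
            mul_le_mul_of_nonneg_right hHi (by positivity)
        _ = c₀ / 4 := by field_simp; ring
    nlinarith [hLo.1]
  · intro q a hq1 hq2 ha hg hlo π hπ
    refine (mem_filter.1 hπ).2 (q, a) (mem_filter.2 ⟨mem_product.2 ⟨mem_Icc.2 ⟨hq1, ?_⟩, ?_⟩,
      hq2, ha, hg, by rwa [hinv] at hlo⟩)
    · exact_mod_cast hq2.trans (Nat.le_ceil _)
    · have h0 : |(a : ℝ)| ≤ (⌈4 * D * x⌉ : ℤ) := ha.trans (Int.le_ceil _)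
      have h1 : |a| ≤ ⌈4 * D * x⌉ := by
        rw [← Int.cast_abs] at h0
        exact Int.cast_le.1 h0
      exact mem_Icc.2 (abs_le.1 h1)

end Crest.Agent.R1s
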