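import Crest.Agent.R1s.Ev

/-! Row 1: one frequency, one block, one scale. -/

set_option autoImplicit false

namespace Crest.Agent.R1s

open Finset Filter
open Crest.Agent.R5 (pr pd ee)

namespace CorePAux

theorem ev_sq : ∀ᶠ m : ℕ in atTop, VV m ^ 2 ≤ D0 m := by
  filter_upwards [ev_VV_pow 2 2 one_pos, ev_VV_pow 1 3 one_pos, ev_D0, ev_log 1] with m h1 h2 h3 h4
  have h5 : (VV m : ℝ) ^ 2 ≤ m / (2 * Real.log m ^ 2) := by
    rw [le_div_iff₀ (by positivity)]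
    have h6 := h2.2
    rw [Real.rpow_one, one_mul] at h6
    calc (VV m : ℝ) ^ 2 * (2 * Real.log m ^ 2) ≤ (VV m : ℝ) ^ 2 * VV m :=
          mul_le_mul_of_nonneg_left h1.1 (by positivity)
      _ = (VV m : ℝ) ^ 3 := by ring
      _ ≤ m := h6
  exact_mod_cast h5.trans h3.1

end CorePAux

theorem coreP : TypeStmt → AtypStmt → SumStmt → ParAStmt → ParGStmt → ParBStmt → CorePStmt := by
  classical
  intro hT hAt hS hPA hPG hPB B A r κ hκ hκ' hr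
  have hr1 : 1 ≤ r := by
    rcases Nat.eq_zero_or_pos r with rfl | h
    · exfalso
      have : (0 : ℝ) ≤ A := Nat.cast_nonneg A
      simp only [Nat.cast_zero, mul_zero] at hr
      linarith
    · exact h
  filter_upwards [hPA B A r κ hκ hκ' hr1, hPG A r κ hκ hκ' hr, hPB B A r κ hκ hκ',
    CorePAux.ev_sq, ev_D0, ev_DD B, ev_VV, ev_ZZ 4 0 r one_pos, ev_ZZ 1 A r one_pos, ev_log 1,
    eventually_ge_atTop 3] with m hPA hPG hPB hsq hD0 hDD hV hZ4 hZA hL hm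
    N h u P 𝒢 PP ty E 𝔅 b hG hh hhA hu huV hBlk hPP hb hb'
  have hL0 : 0 < Real.log m := by linarith
  rcases PP.eq_empty_or_nonempty with rfl | ⟨p₀, hp₀⟩
  · simp only [sum_empty, mul_zero, sum_const_zero]
    positivity
  have hZ : 4 ≤ ZZ r m r := by
    have := hZ4.1.trans (ZZ_mono r hm (Nat.zero_le r))
    simpa using this
  have hZA' : Real.log m ^ A ≤ ZZ r m r := by
    have := hZA.1.trans (ZZ_mono r hm (Nat.zero_le r))
    simpa using this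
  have hpp : ∀ p ∈ PP, p.Prime ∧ ZZ r m r < (p : ℝ) ∧ (p : ℝ) ≤ ZZ r m (r + 1) := fun p hp =>
    mem_pr.1 (hPP p hp).1
  have hp2 : ∀ p ∈ PP, (p : ℝ) ≤ 2 * P := fun p hp => by exact_mod_cast (hPP p hp).2.2.1.le
  have hSc : Sc r m P := ⟨(hpp p₀ hp₀).2.1.le.trans (hp2 p₀ hp₀),
    le_trans (by exact_mod_cast (hPP p₀ hp₀).2.1) (hpp p₀ hp₀).2.2⟩
  have hP2 : (2 : ℝ) ≤ P := by linarith [hSc.1]
  have hP1 : 1 < P := by exact_mod_cast (by linarith : (1 : ℝ) < P)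
  have hP0 : (0 : ℝ) < P := by linarith
  have hV0 : 0 < VV m := by have := hV.2.2; omega
  have hG0 : 1 ≤ D0 m / VV m := by
    rw [Nat.le_div_iff_mul_le hV0]
    nlinarith
  have hΔ : 1 ≤ dl m := by
    rw [dl, Nat.le_div_iff_mul_le (by positivity), one_mul]
    exact hsq
  have hn : 1 ≤ nn m := Nat.le_floor (by
    rw [Nat.cast_one]; exact Real.one_le_rpow hL (by norm_num))
  have hn2 : 1 ≤ n2 A m := Nat.ceil_pos.2 (by positivity)
  have hH : ((⌊Real.log m ^ A⌋₊ : ℕ) : ℝ) ≤ Real.log m ^ A := Nat.floor_le (by positivity)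
  have hhH : |h| ≤ (⌊Real.log m ^ A⌋₊ : ℕ) := by
    have h1 : h.natAbs ≤ ⌊Real.log m ^ A⌋₊ := Nat.le_floor (by
      rw [Nat.cast_natAbs, Int.cast_abs]; exact hhA)
    rw [← Int.natCast_natAbs]
    exact_mod_cast h1
  have hθ : 0 < th A m := by unfold th; positivity
  have hgb : ∀ g ∈ 𝒢, D0 m / VV m ≤ g ∧ g ≤ DD B m := fun g hg =>
    ⟨Nat.div_le_of_le_mul (by rw [mul_comm]; exact (hG.gb g hg).1.le), (hG.gb g hg).2.1⟩
  have hD1 : 1 ≤ DD B m := hD0.2.2.2.trans hDD.2.2.1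
  obtain ⟨rp, G, h1, h2, h3⟩ := hT N h (m / 2) (DD B m) (D0 m) (D0 m / VV m) (dl m) r (nn m) u
    ⌊Real.log m ^ A⌋₊ (ZZ r m r) (th A m) 𝒢 PP ty E 𝔅 b (by omega)
    ((Nat.div_le_self _ _).trans hDD.1) hD0.2.2.2 hG0 hΔ hn hu hh hhH (by linarith) hθ hBlk
    (fun g hg => ⟨(hgb g hg).1, (hgb g hg).2, (hG.gb g hg).2.2⟩)
    (fun p hp => ⟨(hpp p hp).1, (hpp p hp).2.1,
      by exact_mod_cast (hH.trans hZA').trans_lt (hpp p hp).2.1, (hPP p hp).2.2.2⟩) hb hb'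
  have hTpos : 0 < (P : ℝ) ^ (κ / 20 - 1) := Real.rpow_pos_of_pos hP0 _
  have h4 := hAt r (kk r m P) (nn m) 𝔅 (ZZ r m r) ((P : ℝ) ^ (κ / 20 - 1)) PP hBlk (by linarith)
    hTpos (fun p hp => ⟨(hpp p hp).1, (hpp p hp).2.1⟩)
  set At := PP.filter (fun p => ((kk r m P : ℝ) ^ 2 * nn m) ^ (kk r m P * r) +
    (nn m : ℝ) ^ (2 * kk r m P * r) * (P : ℝ) ^ (κ / 20 - 1) < nsol p (kk r m P) 𝔅) with hAt'
  have hm0 : (1 : ℝ) ≤ m := by exact_mod_cast (by omega : 1 ≤ m)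
  have hμ : 1 ≤ (DD B m : ℝ) / (m : ℝ) ^ κ := by
    rw [le_div_iff₀ (by positivity), one_mul]
    calc (m : ℝ) ^ κ ≤ (m : ℝ) ^ (1 : ℝ) := Real.rpow_le_rpow_of_exponent_le hm0 (by linarith)
      _ = m := Real.rpow_one _
      _ ≤ DD B m := by exact_mod_cast hDD.1
  have hn0 : (0 : ℝ) < nn m := by exact_mod_cast hn
  have hΓ : ∀ τ, ∀ p ∈ PP, p ∉ At → ((G τ p).card : ℝ) ≤ (P : ℝ) ^ (3 * κ / 20) := by
    intro τ p hp hn
    have h5 : (nsol p (kk r m P) 𝔅 : ℝ) ≤ _ := not_lt.1 fun h => hn (mem_filter.2 ⟨hp, h⟩)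
    have h6 := (h2 τ p hp (kk r m P)).trans
      ((mul_le_mul (hp2 p hp) h5 (Nat.cast_nonneg _) (by positivity)).trans (hPG P hSc))
    exact le_of_mul_le_mul_right h6 (by positivity)
  have h7 := hS N (DD B m) (D0 m / VV m) P (n1 (DD B m) P) (n2 A m) 𝒢 PP At
    (DD B m / (m : ℝ) ^ κ) ((P : ℝ) ^ (3 * κ / 20)) ((nn m : ℝ) ^ r)
    (th A m + 26 * (⌊Real.log m ^ A⌋₊ : ℕ) * DD B m * dl m / ((D0 m / VV m : ℕ) * D0 m)) rp G
    (fun g p => ‖FF N (m / 2) g h u p 𝔅 (b (ty g) p)‖) hμ (by positivity) (by positivity)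
    (by positivity) hG0 hn2 hD1 hG.lines hgb
    (fun p hp => ⟨(hpp p hp).1, (hPP p hp).2.1, (hPP p hp).2.2.1⟩)
    (Nat.lt_pow_succ_log_self hP1 _) hΓ
    (fun g hg p hp => ⟨(h3 g hg p hp).1, fun _ => (h3 g hg p hp).2⟩)
  refine h7.trans ?_
  have hlog : 0 ≤ 1 + Real.log (DD B m) := by
    have := Real.log_natCast_nonneg (DD B m)
    linarith
  have hE : (E.card : ℝ) ≤ (VV m : ℝ) ^ 6 := by exact_mod_cast hG.Ec
  have huV' : (u : ℝ) ≤ VV m := by exact_mod_cast huV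
  have hZ0 : 0 ≤ ZZ r m r := by linarith
  have h8 : ((𝒢.image rp).card : ℝ) ≤
      (VV m : ℝ) ^ 6 * ((DD B m : ℝ) / dl m + 1) ^ 2 * VV m * ZZ r m r ^ (r * nn m) := by
    refine h1.trans ?_
    gcongr
  calc _ ≤ (nn m : ℝ) ^ r * (P / (2 * Real.log m ^ A) + P / (2 * Real.log m ^ A)) := by
        refine mul_le_mul_of_nonneg_left (add_le_add (le_trans ?_ (hPA P hSc))
          (le_trans ?_ (hPB P hSc))) (by positivity)
        · gcongr
        · gcongr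
    _ = _ := by
        field_simp
        ring

end Crest.Agent.R1s
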