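import Crest.Agent.R1s.Ev

/-! Row 1: the designated nodes. -/

set_option autoImplicit false

namespace Crest.Agent.R1s

open Finset Filter
open Crest.Agent.R5 (pr pd ee)

namespace DesAux

/-- the local data attached to a pair of large primes -/
structure Loc (n D₀ D : ℕ) (z y : ℝ) (p1 p2 : ℕ) (v w : ℝ) : Prop where
  pr1 : p1.Prime
  pr2 : p2.Prime
  v2 : 2 ≤ v
  vw : v ≤ w
  wp : w < p2
  pp : p2 < p1
  pz : (p1 : ℝ) ≤ z
  eq : (p1 : ℝ) * p2 * w ^ (n + 2) = D₀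
  sq : (p2 : ℝ) ^ 2 ≤ w ^ (n + 2)
  cube : (D : ℝ) ≤ p1 * p2 * v ^ (n + 3)
  yv : y ≤ v

theorem pd_le_pow {b : Finset ℕ} {w : ℝ} (h : ∀ q ∈ b, (q : ℝ) ≤ w) : (pd b : ℝ) ≤ w ^ b.card := by
  rw [pd, Nat.cast_prod, ← Finset.prod_const]
  exact Finset.prod_le_prod (fun q _ => Nat.cast_nonneg q) h

theorem pow_le_pd {b : Finset ℕ} {v : ℝ} (hv : 0 ≤ v) (h : ∀ q ∈ b, v ≤ (q : ℝ)) :
    v ^ b.card ≤ (pd b : ℝ) := by
  rw [pd, Nat.cast_prod, ← Finset.prod_const]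
  exact Finset.prod_le_prod (fun _ _ => hv) h

namespace Loc

variable {n D₀ D : ℕ} {z y : ℝ} {p1 p2 : ℕ} {v w : ℝ} {b : Finset ℕ}

theorem lt2 (h : Loc n D₀ D z y p1 p2 v w) (hb : b ⊆ pr v w) : ∀ q ∈ b, q < p2 := fun q hq => by
  have := (mem_pr.1 (hb hq)).2.2.trans_lt h.wp
  exact_mod_cast this

theorem lt1 (h : Loc n D₀ D z y p1 p2 v w) (hb : b ⊆ pr v w) : ∀ q ∈ insert p2 b, q < p1 :=
  fun q hq => by
    rcases Finset.mem_insert.1 hq with rfl | hq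
    · exact h.pp
    · exact (h.lt2 hb q hq).trans h.pp

theorem nm2 (h : Loc n D₀ D z y p1 p2 v w) (hb : b ⊆ pr v w) : p2 ∉ b := fun hq =>
  lt_irrefl _ (h.lt2 hb _ hq)

theorem nm1 (h : Loc n D₀ D z y p1 p2 v w) (hb : b ⊆ pr v w) : p1 ∉ insert p2 b := fun hq =>
  lt_irrefl _ (h.lt1 hb _ hq)

theorem pd_eq (h : Loc n D₀ D z y p1 p2 v w) (hb : b ⊆ pr v w) :
    (pd (insert p1 (insert p2 b)) : ℝ) = p1 * p2 * pd b := by
  rw [pd_insert (h.nm1 hb), pd_insert (h.nm2 hb)]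
  push_cast
  ring

theorem mem (h : Loc n D₀ D z y p1 p2 v w) (hb : b ⊆ pr v w) :
    ∀ q ∈ insert p1 (insert p2 b), q.Prime ∧ v < q ∧ (q : ℝ) ≤ z := fun q hq => by
  have h12 : (p2 : ℝ) < p1 := by exact_mod_cast h.pp
  have := h.vw
  have := h.wp
  have := h.pz
  rcases Finset.mem_insert.1 hq with rfl | hq
  · exact ⟨h.pr1, by linarith, h.pz⟩
  rcases Finset.mem_insert.1 hq with rfl | hq
  · exact ⟨h.pr2, by linarith, by linarith⟩
  · obtain ⟨h1, h2, h3⟩ := mem_pr.1 (hb hq)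
    exact ⟨h1, h2, by linarith⟩

theorem pd_le (h : Loc n D₀ D z y p1 p2 v w) (hb : b ⊆ pr v w) (hc : b.card = n) :
    (pd (insert p1 (insert p2 b)) : ℝ) * w ^ 2 ≤ D₀ := by
  rw [h.pd_eq hb, ← h.eq, pow_add, ← mul_assoc, ← hc]
  have := pd_le_pow fun q hq => (mem_pr.1 (hb hq)).2.2
  gcongr

theorem card_eq (h : Loc n D₀ D z y p1 p2 v w) (hb : b ⊆ pr v w) (hc : b.card = n) :
    (insert p1 (insert p2 b)).card = n + 2 := by
  rw [Finset.card_insert_of_notMem (h.nm1 hb), Finset.card_insert_of_notMem (h.nm2 hb), hc]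

theorem mem_RR' (h : Loc n D₀ D z y p1 p2 v w) (hb : b ⊆ pr v w) (hc : b.card = n) :
    insert p1 (insert p2 b) ∈ RR 0 D₀ z := by
  have hm := h.mem hb
  refine mem_RR.2 ⟨fun q hq => ⟨(hm q hq).1, ?_, (hm q hq).2.2⟩, fun q hq he => ?_⟩
  · have := h.v2.trans_lt (hm q hq).2.1
    exact_mod_cast this
  rcases Finset.mem_insert.1 hq with rfl | hq
  · have : up (insert q (insert p2 b)) q = {q} := by
      ext r
      rw [mem_up, Finset.mem_singleton]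
      refine ⟨fun hr => ?_, fun hr => ⟨hr ▸ Finset.mem_insert_self _ _, hr.ge⟩⟩
      rcases Finset.mem_insert.1 hr.1 with hr1 | hr1
      · exact hr1
      · exact absurd (h.lt1 hb r hr1) (not_lt.2 hr.2)
    rw [this, Finset.card_singleton] at he
    omega
  rcases Finset.mem_insert.1 hq with rfl | hq
  · have h1 : up (insert p1 (insert q b)) q ⊆ {p1, q} := fun r hr => by
      rw [mem_up] at hr
      rcases Finset.mem_insert.1 hr.1 with hr1 | hr1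
      · exact hr1 ▸ Finset.mem_insert_self _ _
      rcases Finset.mem_insert.1 hr1 with hr1 | hr1
      · exact hr1 ▸ Finset.mem_insert_of_mem (Finset.mem_singleton_self _)
      · exact absurd (h.lt2 hb r hr1) (not_lt.2 hr.2)
    have h2 : pd (up (insert p1 (insert q b)) q) ≤ p1 * q := by
      refine (pd_mono (fun r hr => ?_) h1).trans (le_of_eq ?_)
      · rcases Finset.mem_insert.1 hr with rfl | hr
        · exact h.pr1
        · exact Finset.mem_singleton.1 hr ▸ h.pr2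
      · rw [pd_insert (by simpa using h.pp.ne'), pd_singleton]
    have h3 : ((p1 * q * q ^ 2 : ℕ) : ℝ) ≤ D₀ := by
      push_cast
      rw [← h.eq]
      exact mul_le_mul_of_nonneg_left h.sq (by positivity)
    exact (Nat.mul_le_mul_right _ h2).trans (by exact_mod_cast h3)
  · have h2 := pd_mono (fun r hr => (hm r hr).1) (up_subset (insert p1 (insert p2 b)) q)
    have h3 : ((pd (insert p1 (insert p2 b)) * q ^ 2 : ℕ) : ℝ) ≤ D₀ := by
      push_cast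
      refine le_trans ?_ (h.pd_le hb hc)
      have := (mem_pr.1 (hb hq)).2.2
      gcongr
    exact (Nat.mul_le_mul_right _ h2).trans (by exact_mod_cast h3)

theorem cube' (h : Loc n D₀ D z y p1 p2 v w) (hb : b ⊆ pr v w) (hc : b.card = n) :
    ∀ q ∈ insert p1 (insert p2 b), D < pd (insert p1 (insert p2 b)) * q ^ 3 := fun q hq => by
  have hv : 0 < v := by linarith [h.v2]
  have h1 := pow_le_pd hv.le fun r hr => (mem_pr.1 (hb hr)).2.1.le
  have h2 := (h.mem hb q hq).2.1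
  have h3 : (0 : ℝ) < p1 := by exact_mod_cast h.pr1.pos
  have h4 : (0 : ℝ) < p2 := by exact_mod_cast h.pr2.pos
  have : (D : ℝ) < pd (insert p1 (insert p2 b)) * (q : ℝ) ^ 3 := by
    rw [h.pd_eq hb]
    calc (D : ℝ) ≤ p1 * p2 * v ^ n * v ^ 3 := by rw [mul_assoc, ← pow_add]; exact h.cube
      _ < p1 * p2 * v ^ n * (q : ℝ) ^ 3 := by gcongr
      _ ≤ _ := by rw [← hc]; gcongr
  exact_mod_cast this

theorem room' (h : Loc n D₀ D z y p1 p2 v w) (hb : b ⊆ pr v w) (hc : b.card = n) (hn : 1 ≤ n) :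
    ∃ q ∈ insert p1 (insert p2 b), pd (insert p1 (insert p2 b)) * q ≤ D₀ := by
  obtain ⟨q, hq⟩ := Finset.card_pos.1 (by omega : 0 < b.card)
  refine ⟨q, Finset.mem_insert_of_mem (Finset.mem_insert_of_mem hq), ?_⟩
  have h1 := (mem_pr.1 (hb hq)).2.2
  have h2 : w ≤ w ^ 2 := le_self_pow₀ (by linarith [h.v2, h.vw]) (by norm_num)
  have : (pd (insert p1 (insert p2 b)) : ℝ) * q ≤ D₀ :=
    le_trans (mul_le_mul_of_nonneg_left (h1.trans h2) (Nat.cast_nonneg _)) (h.pd_le hb hc)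
  exact_mod_cast this

theorem quot (h : Loc n D₀ D z y p1 p2 v w) (hb : b ⊆ pr v w) (hc : b.card = n) :
    y ≤ (D₀ / pd (insert p1 (insert p2 b)) : ℕ) := by
  have hp := pd_pos fun r hr => (h.mem hb r hr).1
  have hp' : (0 : ℝ) < pd (insert p1 (insert p2 b)) := by exact_mod_cast hp
  have h1 := h.pd_le hb hc
  have h2 : (D₀ : ℝ) < ((D₀ / pd (insert p1 (insert p2 b)) : ℕ) + 1) *
      pd (insert p1 (insert p2 b)) := by
    have := Nat.lt_div_mul_add (a := D₀) hp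
    have h3 : D₀ < (D₀ / pd (insert p1 (insert p2 b)) + 1) * pd (insert p1 (insert p2 b)) := by
      rw [add_mul, one_mul]
      exact this
    exact_mod_cast h3
  have h3 : w ^ 2 < (D₀ / pd (insert p1 (insert p2 b)) : ℕ) + 1 := by
    rw [mul_comm] at h1
    exact lt_of_mul_lt_mul_right (h1.trans_lt h2) hp'.le
  nlinarith [h.v2, h.vw, h.yv]

end Loc

/-- the family of designated nodes -/
theorem family (hE : ESymStmt) {n D₀ D : ℕ} {z y ε : ℝ} (hn : n % 2 = 1) (hD : D₀ ≤ D)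
    (hε : 0 ≤ ε) (Q : Finset (ℕ × ℕ)) (v w : ℕ × ℕ → ℝ)
    (hQ : ∀ π ∈ Q, Loc n D₀ D z y π.1 π.2 (v π) (w π) ∧
      ε + n * (1 / v π) ≤ ∑ q ∈ pr (v π) (w π), 1 / (q : ℝ)) :
    ∃ 𝒟 : Finset (Finset ℕ), DesOK (n + 2) D₀ D z y 𝒟 ∧
      (∀ d ∈ 𝒟, y ≤ (D₀ / pd d : ℕ) ∧ ∃ π ∈ Q, π.1 ∈ d ∧ π.2 ∈ d) ∧
      ε ^ n / n.factorial * ∑ π ∈ Q, 1 / ((π.1 : ℝ) * π.2) ≤ ∑ d ∈ 𝒟, 1 / (pd d : ℝ) := by
  have key : ∀ d ∈ (Q.sigma fun π => powersetCard n (pr (v π) (w π))).image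
      (fun x => insert x.1.1 (insert x.1.2 x.2)), ∃ π ∈ Q, ∃ b ⊆ pr (v π) (w π), b.card = n ∧
        d = insert π.1 (insert π.2 b) := fun d hd => by
    obtain ⟨x, hx, rfl⟩ := Finset.mem_image.1 hd
    obtain ⟨h1, h2⟩ := Finset.mem_sigma.1 hx
    exact ⟨x.1, h1, x.2, (Finset.mem_powersetCard.1 h2).1, (Finset.mem_powersetCard.1 h2).2, rfl⟩
  refine ⟨(Q.sigma fun π => powersetCard n (pr (v π) (w π))).image
    (fun x => insert x.1.1 (insert x.1.2 x.2)), ⟨by omega, hD, fun d hd => ?_, fun d hd => ?_,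
    fun d hd => ?_, fun d hd => ?_, fun d hd => ?_⟩, fun d hd => ?_, ?_⟩
  · obtain ⟨π, hπ, b, hb, hc, rfl⟩ := key d hd
    exact (hQ π hπ).1.card_eq hb hc
  · obtain ⟨π, hπ, b, hb, hc, rfl⟩ := key d hd
    exact (hQ π hπ).1.mem_RR' hb hc
  · obtain ⟨π, hπ, b, hb, hc, rfl⟩ := key d hd
    exact (hQ π hπ).1.cube' hb hc
  · obtain ⟨π, hπ, b, hb, hc, rfl⟩ := key d hd
    exact fun q hq => (hQ π hπ).1.yv.trans_lt ((hQ π hπ).1.mem hb q hq).2.1
  · obtain ⟨π, hπ, b, hb, hc, rfl⟩ := key d hd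
    exact (hQ π hπ).1.room' hb hc (by omega)
  · obtain ⟨π, hπ, b, hb, hc, rfl⟩ := key d hd
    exact ⟨(hQ π hπ).1.quot hb hc, π, hπ, Finset.mem_insert_self _ _,
      Finset.mem_insert_of_mem (Finset.mem_insert_self _ _)⟩
  rw [Finset.sum_image, Finset.sum_sigma, Finset.mul_sum]
  · refine Finset.sum_le_sum fun π hπ => ?_
    obtain ⟨hL, hs⟩ := hQ π hπ
    have hv : 0 < v π := by linarith [hL.v2]
    have h1 := hE (pr (v π) (w π)) (fun q => 1 / (q : ℝ)) (1 / v π) n (by positivity)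
      (fun q hq => ⟨by positivity, one_div_le_one_div_of_le hv (mem_pr.1 hq).2.1.le⟩)
      (by linarith)
    have h2 : ε ^ n / n.factorial ≤
        ∑ b ∈ powersetCard n (pr (v π) (w π)), ∏ q ∈ b, 1 / (q : ℝ) := by
      refine le_trans ?_ h1
      gcongr
      linarith
    refine (mul_le_mul_of_nonneg_right h2 (by positivity)).trans (le_of_eq ?_)
    rw [Finset.sum_mul]
    refine Finset.sum_congr rfl fun b hb => ?_
    rw [hL.pd_eq (Finset.mem_powersetCard.1 hb).1, ← inv_pd, div_mul_div_comm, one_mul,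
      mul_comm (pd b : ℝ)]
  · rintro ⟨π, b⟩ hx ⟨π', b'⟩ hx' hxx
    obtain ⟨h1, h2⟩ := Finset.mem_sigma.1 (Finset.mem_coe.1 hx)
    obtain ⟨h1', h2'⟩ := Finset.mem_sigma.1 (Finset.mem_coe.1 hx')
    have hb := (Finset.mem_powersetCard.1 h2).1
    have hb' := (Finset.mem_powersetCard.1 h2').1
    have e1 := union_inj (d := {π.1}) (e := insert π.2 b) (d' := {π'.1}) (e' := insert π'.2 b')
      (fun p hp q hq => Finset.mem_singleton.1 hq ▸ (hQ π h1).1.lt1 hb p hp)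
      (fun p hp q hq => Finset.mem_singleton.1 hq ▸ (hQ π' h1').1.lt1 hb' p hp)
      (by simp) (by simpa only [← Finset.insert_eq] using hxx)
    have e2 := union_inj (d := {π.2}) (e := b) (d' := {π'.2}) (e' := b')
      (fun p hp q hq => Finset.mem_singleton.1 hq ▸ (hQ π h1).1.lt2 hb p hp)
      (fun p hp q hq => Finset.mem_singleton.1 hq ▸ (hQ π' h1').1.lt2 hb' p hp)
      (by simp) (by simpa only [← Finset.insert_eq] using e1.2)
    have e3 : π = π' := Prod.ext (Finset.singleton_injective e1.1) (Finset.singleton_injective e2.1)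
    obtain rfl := e3
    obtain rfl := e2.2
    rfl

/-- the real-variable computation for one pair -/
theorem loc {n D₀ D : ℕ} {M z y η C : ℝ} {p1 p2 : ℕ} (hC : ∀ A B : ℝ, 2 ≤ A → A ≤ B →
      |∑ p ∈ pr A B, 1 / (p : ℝ) - (Real.log (Real.log B) - Real.log (Real.log A))|
        ≤ C / Real.log A)
    (hM : 1 ≤ M) (hη : η ≤ 1 / 20) (hn : 1 / ((n : ℝ) + 2) ≤ η)
    (h1 : p1 ∈ pr (M ^ (2 * η)) z) (h2 : p2 ∈ pr (M ^ η) (M ^ (2 * η)))
    (hz : z ≤ M ^ (1 / 2 + 1 / 30 : ℝ)) (hD1 : M ^ (29 / 30 : ℝ) ≤ D₀) (hD2 : (D₀ : ℝ) ≤ M)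
    (hD3 : (D : ℝ) ≤ M ^ (1 / (6 * ((n : ℝ) + 2))) * D₀)
    (hy : y ≤ M ^ (1 / (6 * ((n : ℝ) + 2)))) (hv1 : 2 ≤ M ^ (1 / (6 * ((n : ℝ) + 2))))
    (hv2 : 8 * n * (n + 3) ≤ M ^ (1 / (6 * ((n : ℝ) + 2))))
    (hv3 : Real.exp (8 * C * (n + 3)) ≤ M ^ (1 / (6 * ((n : ℝ) + 2)))) :
    ∃ v w : ℝ, Loc n D₀ D z y p1 p2 v w ∧
      1 / (4 * ((n : ℝ) + 3)) + n * (1 / v) ≤ ∑ q ∈ pr v w, 1 / (q : ℝ) := by
  obtain ⟨a1, a2, a3⟩ := mem_pr.1 h1
  obtain ⟨b1, b2, b3⟩ := mem_pr.1 h2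
  have hM0 : 0 < M := by linarith
  have hn0 : (0 : ℝ) ≤ n := Nat.cast_nonneg n
  have hp1 : (1 : ℝ) ≤ p1 := by exact_mod_cast a1.pos
  have hp2 : (1 : ℝ) ≤ p2 := by exact_mod_cast b1.pos
  have hpp : (1 : ℝ) ≤ p1 * p2 := one_le_mul_of_one_le_of_one_le hp1 hp2
  set ξ : ℝ := D₀ / (p1 * p2) with hξ
  have x1 : M ^ (1 / 3 : ℝ) ≤ ξ := by
    rw [hξ, le_div_iff₀ (by positivity)]
    refine le_trans ?_ hD1
    have h3 : (p2 : ℝ) ≤ M ^ (1 / 10 : ℝ) :=
      b3.trans (Real.rpow_le_rpow_of_exponent_le hM (by linarith))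
    calc M ^ (1 / 3 : ℝ) * (p1 * p2) ≤
          M ^ (1 / 3 : ℝ) * (M ^ (1 / 2 + 1 / 30 : ℝ) * M ^ (1 / 10 : ℝ)) := by
          have := a3.trans hz
          gcongr
      _ = _ := by
          rw [← Real.rpow_add hM0, ← Real.rpow_add hM0]
          norm_num
  have x0 : 0 < ξ := (Real.rpow_pos_of_pos hM0 _).trans_le x1
  have x2 : ξ ≤ M := (div_le_self (Nat.cast_nonneg _) hpp).trans hD2
  set w : ℝ := ξ ^ (1 / ((n : ℝ) + 2)) with hw
  have w0 : 0 < w := Real.rpow_pos_of_pos x0 _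
  have w1 : w ^ (n + 2) = ξ := by
    rw [hw, ← Real.rpow_natCast, ← Real.rpow_mul x0.le]
    push_cast
    rw [one_div_mul_cancel (by positivity), Real.rpow_one]
  have w2 : w ≤ M ^ η :=
    (Real.rpow_le_rpow x0.le x2 (by positivity)).trans (Real.rpow_le_rpow_of_exponent_le hM hn)
  have w3 : M ^ (1 / (6 * ((n : ℝ) + 2))) ≤ w ^ (1 / 2 : ℝ) := by
    have h3 : (M ^ (1 / 3 : ℝ)) ^ (1 / ((n : ℝ) + 2)) ≤ w :=
      Real.rpow_le_rpow (by positivity) x1 (by positivity)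
    refine le_trans (le_of_eq ?_) (Real.rpow_le_rpow (by positivity) h3 (by norm_num))
    rw [← Real.rpow_mul hM0.le, ← Real.rpow_mul hM0.le]
    congr 1
    field_simp
    norm_num
  have w4 : 1 < w := by
    by_contra h
    have := Real.rpow_le_one w0.le (not_lt.1 h) (by norm_num : (0 : ℝ) ≤ 1 / 2)
    linarith
  set ε : ℝ := 1 / (2 * ((n : ℝ) + 3)) with hε
  have ε0 : 0 < ε := by positivity
  have ε1 : ε ≤ 1 / 2 := one_div_le_one_div_of_le (by norm_num) (by linarith)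
  set v : ℝ := w ^ (1 - ε) with hv
  have v1 : M ^ (1 / (6 * ((n : ℝ) + 2))) ≤ v :=
    w3.trans (Real.rpow_le_rpow_of_exponent_le w4.le (by linarith))
  have v2 : v ≤ w := by
    calc v ≤ w ^ (1 : ℝ) := Real.rpow_le_rpow_of_exponent_le w4.le (by linarith)
      _ = w := Real.rpow_one w
  have v3 : v ^ (n + 3) = w ^ (1 / 2 : ℝ) * ξ := by
    rw [← w1, hv, ← Real.rpow_natCast, ← Real.rpow_natCast, ← Real.rpow_mul w0.le,
      ← Real.rpow_add w0]
    congr 1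
    push_cast
    rw [hε]
    field_simp
    ring
  have e1 : (p1 : ℝ) * p2 * ξ = D₀ := by
    rw [hξ]
    field_simp
  refine ⟨v, w, ⟨a1, b1, hv1.trans v1, v2, w2.trans_lt b2, by exact_mod_cast b3.trans_lt a2, a3,
    by rw [w1, e1], ?_, ?_, hy.trans v1⟩, ?_⟩
  · rw [w1]
    refine le_trans ?_ x1
    calc (p2 : ℝ) ^ 2 ≤ (M ^ (2 * η)) ^ 2 := by gcongr
      _ = M ^ (2 * η * 2) := by rw [Real.rpow_mul hM0.le (2 * η), Real.rpow_two]
      _ ≤ _ := Real.rpow_le_rpow_of_exponent_le hM (by linarith)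
  · rw [v3, mul_left_comm, e1]
    exact hD3.trans (mul_le_mul_of_nonneg_right w3 (Nat.cast_nonneg _))
  · have h3 := (abs_le.1 (hC v w (hv1.trans v1) v2)).1
    have hv0 : 0 < v := by linarith [hv1.trans v1]
    have lw : 0 < Real.log w := Real.log_pos w4
    have h4 : Real.log (Real.log v) ≤ Real.log (Real.log w) - ε := by
      rw [hv, Real.log_rpow w0, Real.log_mul (by linarith) lw.ne']
      have := Real.log_le_sub_one_of_pos (by linarith : 0 < 1 - ε)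
      linarith
    have lv : 0 < Real.log v := Real.log_pos (by linarith [hv1.trans v1])
    have h5 : C / Real.log v ≤ ε / 4 := by
      have h6 : 8 * C * (n + 3) ≤ Real.log v := (Real.le_log_iff_exp_le hv0).2 (hv3.trans v1)
      rw [div_le_iff₀ lv, hε, div_div, one_div_mul_eq_div, le_div_iff₀ (by positivity)]
      linarith
    have h6 : n * (1 / v) ≤ ε / 4 := by
      rw [mul_one_div, div_le_iff₀ hv0, hε, div_div, one_div_mul_eq_div, le_div_iff₀ (by positivity)]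
      linarith [hv2.trans v1]
    have h7 : 1 / (4 * ((n : ℝ) + 3)) = ε / 2 := by
      rw [hε]
      field_simp
      norm_num
    linarith

end DesAux

theorem desOK : ESymStmt → DesStmt := by
  intro hE η hη0 hη
  obtain ⟨C, hC1, hC, -⟩ := Crest.Agent.R5.mertens
  obtain ⟨n, hn1, hn2⟩ : ∃ n : ℕ, n % 2 = 1 ∧ 1 / ((n : ℝ) + 2) ≤ η := by
    refine ⟨2 * ⌈1 / η⌉₊ + 1, by omega, ?_⟩
    rw [one_div_le (by positivity) hη0]
    have := Nat.le_ceil (1 / η)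
    have h0 : (0 : ℝ) ≤ ⌈1 / η⌉₊ := Nat.cast_nonneg _
    push_cast
    linarith
  have hc : 0 < 1 / (6 * ((n : ℝ) + 2)) := by positivity
  refine ⟨n + 2, min (1 / (6 * ((n : ℝ) + 2))) ((1 / (4 * ((n : ℝ) + 3))) ^ n / n.factorial),
    lt_min hc (by positivity), fun B => ?_⟩
  filter_upwards [ev_D0, ev_DD B, ev_zz (c := 1 / 30) (by norm_num),
    ev_log_pow 2 2 (c := 1 / 30) (by norm_num), ev_log_pow 2 (B + 2) hc, ev_rpow 2 hc,
    ev_rpow (8 * n * (n + 3)) hc, ev_rpow (Real.exp (8 * C * (n + 3))) hc, ev_log 1,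
    eventually_ge_atTop 1] with m h1 h2 h3 h4 h5 h6 h7 h8 h9 h10 Q hQ
  have hM : (1 : ℝ) ≤ m := by exact_mod_cast h10
  have hD1 : (m : ℝ) ^ (29 / 30 : ℝ) ≤ D0 m := by
    refine le_trans ?_ h1.1
    rw [le_div_iff₀ (by positivity)]
    calc (m : ℝ) ^ (29 / 30 : ℝ) * (2 * Real.log m ^ 2) ≤
          (m : ℝ) ^ (29 / 30 : ℝ) * (m : ℝ) ^ (1 / 30 : ℝ) := by gcongr
      _ = m := by
          rw [← Real.rpow_add (by linarith)]
          norm_num
  have hL : ∀ π : ℕ × ℕ, ∃ v w : ℝ, π ∈ Q → DesAux.Loc n (D0 m) (DD B m) (zz m)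
      ((m : ℝ) ^ min (1 / (6 * ((n : ℝ) + 2))) ((1 / (4 * ((n : ℝ) + 3))) ^ n / n.factorial))
      π.1 π.2 v w ∧ 1 / (4 * ((n : ℝ) + 3)) + n * (1 / v) ≤ ∑ q ∈ pr v w, 1 / (q : ℝ) := fun π => by
    by_cases hπ : π ∈ Q
    · obtain ⟨a1, a2⟩ := Finset.mem_product.1 (hQ hπ)
      obtain ⟨v, w, h⟩ := DesAux.loc hC hM hη hn2 a1 a2 h3.2 hD1
        (by exact_mod_cast h1.2.2.1)
        (h2.2.2.2.1.trans (mul_le_mul_of_nonneg_right h5 (Nat.cast_nonneg _)))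
        (Real.rpow_le_rpow_of_exponent_le hM (min_le_left _ _)) h6 h7 h8
      exact ⟨v, w, fun _ => h⟩
    · exact ⟨0, 0, fun h => absurd h hπ⟩
  choose v w hvw using hL
  obtain ⟨𝒟, a1, a2, a3⟩ := DesAux.family hE hn1 h2.2.2.1 (by positivity) Q v w hvw
  refine ⟨𝒟, a1, a2, le_trans ?_ a3⟩
  exact mul_le_mul_of_nonneg_right (min_le_right _ _)
    (Finset.sum_nonneg fun π _ => by positivity)

end Crest.Agent.R1s
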