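import Crest.Agent.R1s.Ev

/-! Row 1: counting the dropped sets. -/

set_option autoImplicit false

namespace Crest.Agent.R1s

open Finset Filter
open Crest.Agent.R5 (pr pd ee)

namespace DiscAux

/-- the least element -/
noncomputable def mn (d : Finset ℕ) : ℕ := sInf (d : Set ℕ)

theorem mn_mem {d : Finset ℕ} (h : d.Nonempty) : mn d ∈ d := by
  have : (d : Set ℕ).Nonempty := by simpa using h
  exact Nat.sInf_mem this

theorem mn_le {d : Finset ℕ} {q : ℕ} (h : q ∈ d) : mn d ≤ q :=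
  Nat.sInf_le (by simpa using h)

/-- the parents -/
noncomputable def par (ε ξ : ℕ) : Finset (Finset ℕ) :=
  (RR ε ξ (√(ξ : ℝ))).filter (fun d => d.Nonempty ∧ pd d * mn d ^ 2 ≤ ξ)

theorem card_pr_le (x : ℕ) : (pr 0 (x : ℝ)).card ≤ x := by
  have : pr 0 (x : ℝ) ⊆ Icc 1 x := by
    intro p hp
    rw [mem_pr] at hp
    rw [mem_Icc]
    exact ⟨hp.1.one_le, by exact_mod_cast hp.2.2⟩
  simpa using card_le_card this

theorem disc_subset (ε ξ : ℕ) :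
    disc ε ξ ⊆ ((pr 0 (√(ξ : ℝ)) ×ˢ pr 0 (√(ξ : ℝ))).image
        (fun x : ℕ × ℕ => insert x.1 (insert x.2 (∅ : Finset ℕ)))) ∪
      (par ε ξ).biUnion (fun d => (pr 0 (mn d : ℝ) ×ˢ pr 0 (mn d : ℝ)).image
        (fun x : ℕ × ℕ => insert x.1 (insert x.2 d))) := by
  intro b hb
  unfold disc at hb
  rw [mem_filter, mem_powerset] at hb
  obtain ⟨hsub, hc, hpar, hros⟩ := hb
  have hne : b.Nonempty := card_pos.mp (by omega)
  have h1 : mn b ∈ b := mn_mem hne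
  have hr1 : ros ε ξ (b.erase (mn b)) := hros _ h1 (fun p hp => mn_le hp)
  set b1 := b.erase (mn b) with hb1
  have hc1 : b1.card = b.card - 1 := card_erase_of_mem h1
  have hne1 : b1.Nonempty := card_pos.mp (by omega)
  have h2 : mn b1 ∈ b1 := mn_mem hne1
  set d := b1.erase (mn b1) with hd
  have hcd : d.card = b1.card - 1 := card_erase_of_mem h2
  have e1 : insert (mn b1) d = b1 := insert_erase h2
  have e2 : insert (mn b) b1 = b := insert_erase h1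
  have hlt : ∀ q ∈ d, mn b1 < q := by
    intro q hq
    rw [hd, mem_erase] at hq
    exact lt_of_le_of_ne (mn_le hq.2) (Ne.symm hq.1)
  have hrd : ros ε ξ d := by
    rw [← e1, ros_insert hlt] at hr1
    exact hr1.1
  have hb1b : b1 ⊆ b := erase_subset _ _
  have hdb : d ⊆ b := (erase_subset _ _).trans hb1b
  have hp1 := mem_pr.mp (hsub h1)
  have hp2 := mem_pr.mp (hsub (hb1b h2))
  have hle12 : mn b ≤ mn b1 := mn_le (hb1b h2)
  rw [mem_union]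
  rcases d.eq_empty_or_nonempty with h0 | h0
  · left
    rw [mem_image]
    refine ⟨(mn b, mn b1), ?_, ?_⟩
    · rw [mem_product, mem_pr, mem_pr]
      exact ⟨⟨hp1.1, by linarith [hp1.2.1], hp1.2.2⟩, ⟨hp2.1, by linarith [hp2.2.1], hp2.2.2⟩⟩
    · simp only
      rw [← h0, e1, e2]
  · right
    rw [mem_biUnion]
    have h3 : mn d ∈ d := mn_mem h0
    refine ⟨d, ?_, ?_⟩
    · unfold par
      rw [mem_filter, mem_RR]
      refine ⟨⟨fun p hp => ?_, hrd⟩, h0, ?_⟩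
      · have := mem_pr.mp (hsub (hdb hp))
        exact ⟨this.1, by exact_mod_cast this.2.1, this.2.2⟩
      · have hu : up d (mn d) = d := up_of_min (fun p hp => mn_le hp)
        have := hrd _ h3 (by rw [hu]; omega)
        rwa [hu] at this
    · rw [mem_image]
      refine ⟨(mn b, mn b1), ?_, ?_⟩
      · have h23 : mn b1 < mn d := hlt _ h3
        rw [mem_product, mem_pr, mem_pr]
        refine ⟨⟨hp1.1, by linarith [hp1.2.1], ?_⟩, ⟨hp2.1, by linarith [hp2.2.1], ?_⟩⟩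
        · exact_mod_cast (hle12.trans h23.le)
        · exact_mod_cast h23.le
      · simp only
        rw [e1, e2]

theorem card_disc_le (ε ξ : ℕ) :
    ((disc ε ξ).card : ℝ) ≤ ((pr 0 (√(ξ : ℝ))).card : ℝ) ^ 2 +
      ∑ d ∈ par ε ξ, ((pr 0 (mn d : ℝ)).card : ℝ) ^ 2 := by
  have h := card_le_card (disc_subset ε ξ)
  have h1 := card_union_le ((pr 0 (√(ξ : ℝ)) ×ˢ pr 0 (√(ξ : ℝ))).image
        (fun x : ℕ × ℕ => insert x.1 (insert x.2 (∅ : Finset ℕ))))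
      ((par ε ξ).biUnion (fun d => (pr 0 (mn d : ℝ) ×ˢ pr 0 (mn d : ℝ)).image
        (fun x : ℕ × ℕ => insert x.1 (insert x.2 d))))
  have h2 : ((pr 0 (√(ξ : ℝ)) ×ˢ pr 0 (√(ξ : ℝ))).image
        (fun x : ℕ × ℕ => insert x.1 (insert x.2 (∅ : Finset ℕ)))).card ≤
      (pr 0 (√(ξ : ℝ))).card ^ 2 := by
    refine card_image_le.trans ?_
    rw [card_product, sq]
  have h3 : ((par ε ξ).biUnion (fun d => (pr 0 (mn d : ℝ) ×ˢ pr 0 (mn d : ℝ)).image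
        (fun x : ℕ × ℕ => insert x.1 (insert x.2 d)))).card ≤
      ∑ d ∈ par ε ξ, (pr 0 (mn d : ℝ)).card ^ 2 := by
    refine card_biUnion_le.trans (sum_le_sum fun d _ => ?_)
    refine card_image_le.trans ?_
    rw [card_product, sq]
  have : (disc ε ξ).card ≤ (pr 0 (√(ξ : ℝ))).card ^ 2 +
      ∑ d ∈ par ε ξ, (pr 0 (mn d : ℝ)).card ^ 2 := by omega
  exact_mod_cast this

theorem mem_par {ε ξ : ℕ} {d : Finset ℕ} (h : d ∈ par ε ξ) :
    d ∈ RR ε ξ (√(ξ : ℝ)) ∧ (∀ p ∈ d, p.Prime ∧ 2 < p) ∧ 3 ≤ mn d ∧ 3 ≤ pd d ∧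
      pd d * mn d ^ 2 ≤ ξ := by
  unfold par at h
  rw [mem_filter] at h
  obtain ⟨h1, h2, h3⟩ := h
  have h4 := (mem_RR.mp h1).1
  have h5 : 3 ≤ mn d := (h4 _ (mn_mem h2)).2.1
  exact ⟨h1, fun p hp => ⟨(h4 p hp).1, (h4 p hp).2.1⟩, h5,
    h5.trans (le_pd (fun p hp => (h4 p hp).1) (mn_mem h2)), h3⟩

theorem cube_exp {y : ℝ} (hy : 0 < y) : y ^ 2 * Real.exp (-(y / 3)) ≤ 162 / y := by
  have h := Real.pow_div_factorial_le_exp (y / 3) (by positivity) 3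
  have h6 : ((Nat.factorial 3 : ℕ) : ℝ) = 6 := by norm_num [Nat.factorial]
  rw [h6] at h
  rw [Real.exp_neg, le_div_iff₀ hy]
  have he := Real.exp_pos (y / 3)
  rw [show y ^ 2 * (Real.exp (y / 3))⁻¹ * y = y ^ 3 / Real.exp (y / 3) by field_simp,
    div_le_iff₀ he]
  nlinarith

/-- one node of a window -/
theorem node_le {C : ℝ} (hC : 0 < C)
    (hPi : ∀ x : ℝ, 2 ≤ x → ((pr 0 x).card : ℝ) ≤ C * x / Real.log x)
    {ε ξ : ℕ} {Y : ℝ} (hY : 1 ≤ Y) (hYξ : Y < ξ) {d : Finset ℕ} (hd : d ∈ par ε ξ)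
    (h2 : (pd d : ℝ) ≤ 2 * Y) :
    ((pr 0 (mn d : ℝ)).card : ℝ) ^ 2 ≤
      2 * ξ * Real.exp (-(Real.log (ξ / Y) / 3)) * (1 / (pd d : ℝ)) +
      9 * C ^ 2 * ξ / Real.log (ξ / Y) ^ 2 *
        (if ∀ q ∈ d, max 2 (Real.exp (Real.log (ξ / Y) / 3)) < ((q : ℕ) : ℝ)
          then 1 / (pd d : ℝ) else 0) := by
  obtain ⟨-, hpr, h3, h4, h5⟩ := mem_par hd
  have hY0 : 0 < Y := by linarith
  have hξ : (0 : ℝ) < ξ := by linarith
  have hq : (1 : ℝ) < ξ / Y := by rw [lt_div_iff₀ hY0]; linarith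
  set y := Real.log (ξ / Y) with hy
  have hy0 : 0 < y := Real.log_pos hq
  have hey : Real.exp y = ξ / Y := Real.exp_log (by linarith)
  have hpd : (0 : ℝ) < pd d := by exact_mod_cast (by omega : 0 < pd d)
  have hm3 : (3 : ℝ) ≤ mn d := by exact_mod_cast h3
  have h5' : (pd d : ℝ) * (mn d : ℝ) ^ 2 ≤ ξ := by exact_mod_cast h5
  have hA : 0 ≤ 2 * ξ * Real.exp (-(y / 3)) * (1 / (pd d : ℝ)) := by positivity
  have hB : 0 ≤ 9 * C ^ 2 * ξ / y ^ 2 *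
      (if ∀ q ∈ d, max 2 (Real.exp (y / 3)) < ((q : ℕ) : ℝ) then 1 / (pd d : ℝ) else 0) := by
    split_ifs <;> positivity
  by_cases hcase : (mn d : ℝ) ≤ Real.exp (y / 3)
  · have hc : ((pr 0 (mn d : ℝ)).card : ℝ) ≤ mn d := by exact_mod_cast card_pr_le (mn d)
    have h6 : ((pr 0 (mn d : ℝ)).card : ℝ) ^ 2 ≤ Real.exp (y / 3) ^ 2 :=
      pow_le_pow_left₀ (by positivity) (hc.trans hcase) 2
    have h7 : Real.exp (y / 3) ^ 2 = Real.exp y * Real.exp (-(y / 3)) := by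
      rw [← Real.exp_add, sq, ← Real.exp_add]; congr 1; ring
    have h8 : Real.exp y ≤ 2 * ξ * (1 / (pd d : ℝ)) := by
      rw [hey, mul_one_div, div_le_div_iff₀ hY0 hpd]
      nlinarith
    have h9 : Real.exp y * Real.exp (-(y / 3)) ≤
        2 * ξ * Real.exp (-(y / 3)) * (1 / (pd d : ℝ)) := by
      have := mul_le_mul_of_nonneg_right h8 (Real.exp_pos (-(y / 3))).le
      linarith [this, show 2 * ξ * (1 / (pd d : ℝ)) * Real.exp (-(y / 3)) =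
        2 * ξ * Real.exp (-(y / 3)) * (1 / (pd d : ℝ)) by ring]
    linarith
  · push Not at hcase
    have hall : ∀ q ∈ d, max 2 (Real.exp (y / 3)) < ((q : ℕ) : ℝ) := by
      intro q hq
      have : (mn d : ℝ) ≤ q := by exact_mod_cast mn_le hq
      rw [max_lt_iff]
      constructor <;> linarith
    rw [if_pos hall]
    have hlog : y / 3 ≤ Real.log (mn d) := by
      rw [Real.le_log_iff_exp_le (by linarith)]
      exact hcase.le
    have hc := hPi (mn d) (by linarith)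
    have hc2 : ((pr 0 (mn d : ℝ)).card : ℝ) ≤ C * mn d / (y / 3) :=
      hc.trans (div_le_div_of_nonneg_left (by positivity) (by positivity) hlog)
    have h6 : ((pr 0 (mn d : ℝ)).card : ℝ) ^ 2 ≤ (C * mn d / (y / 3)) ^ 2 :=
      pow_le_pow_left₀ (by positivity) hc2 2
    have h7 : (mn d : ℝ) ^ 2 ≤ ξ * (1 / (pd d : ℝ)) := by
      rw [mul_one_div, le_div_iff₀ hpd]; linarith
    have h8 : (C * mn d / (y / 3)) ^ 2 = 9 * C ^ 2 / y ^ 2 * (mn d : ℝ) ^ 2 := by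
      field_simp; ring
    have h9 : 9 * C ^ 2 / y ^ 2 * (mn d : ℝ) ^ 2 ≤ 9 * C ^ 2 / y ^ 2 * (ξ * (1 / (pd d : ℝ))) :=
      mul_le_mul_of_nonneg_left h7 (by positivity)
    have h10 : 9 * C ^ 2 / y ^ 2 * (ξ * (1 / (pd d : ℝ))) =
        9 * C ^ 2 * ξ / y ^ 2 * (1 / (pd d : ℝ)) := by ring
    linarith

/-- one window -/
theorem window_le {K C : ℝ} (hK : 0 < K) (hC : 0 < C)
    (hSB : ∀ (ε ξ : ℕ) (Y ζ : ℝ), ε ≤ 1 → 1 ≤ Y → Y < ξ → 2 ≤ ζ →
      ∑ d ∈ (RR ε ξ (√(ξ : ℝ))).filter (fun d : Finset ℕ => (∀ q ∈ d, ζ < ((q : ℕ) : ℝ)) ∧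
        Y < (pd d : ℝ) ∧ (pd d : ℝ) ≤ 2 * Y), 1 / (pd d : ℝ) ≤
        K * Real.log (ξ / Y) ^ 2 / (Real.log ζ * Real.log ξ ^ 2))
    (hPi : ∀ x : ℝ, 2 ≤ x → ((pr 0 x).card : ℝ) ≤ C * x / Real.log x)
    {ε ξ : ℕ} (hε : ε ≤ 1) {Y : ℝ} (hY : 1 ≤ Y) (hYξ : Y < ξ) :
    ∑ d ∈ (par ε ξ).filter (fun d => Y < (pd d : ℝ) ∧ (pd d : ℝ) ≤ 2 * Y),
      ((pr 0 (mn d : ℝ)).card : ℝ) ^ 2 ≤
      (648 * K + 27 * C ^ 2 * K) * ξ / (Real.log (ξ / Y) * Real.log ξ ^ 2) := by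
  have hY0 : 0 < Y := by linarith
  have hξ : (1 : ℝ) < ξ := by linarith
  have hq : (1 : ℝ) < ξ / Y := by rw [lt_div_iff₀ hY0]; linarith
  have hL : 0 < Real.log ξ := Real.log_pos hξ
  have hstep := fun (d : Finset ℕ)
    (hd : d ∈ (par ε ξ).filter (fun d => Y < (pd d : ℝ) ∧ (pd d : ℝ) ≤ 2 * Y)) =>
    node_le hC hPi hY hYξ (mem_filter.mp hd).1 (mem_filter.mp hd).2.2
  refine (sum_le_sum hstep).trans ?_
  have hS1 := hSB ε ξ Y 2 hε hY hYξ le_rfl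
  have hS2 := hSB ε ξ Y (max 2 (Real.exp (Real.log (ξ / Y) / 3))) hε hY hYξ (le_max_left _ _)
  set y := Real.log (ξ / Y) with hy
  have hy0 : 0 < y := Real.log_pos hq
  rw [sum_add_distrib, ← mul_sum, ← mul_sum]
  have hA : ∑ d ∈ (par ε ξ).filter (fun d => Y < (pd d : ℝ) ∧ (pd d : ℝ) ≤ 2 * Y),
      1 / (pd d : ℝ) ≤ K * y ^ 2 / (Real.log 2 * Real.log ξ ^ 2) := by
    refine le_trans (sum_le_sum_of_subset_of_nonneg ?_ (fun _ _ _ => by positivity)) hS1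
    intro d hd
    rw [mem_filter] at hd ⊢
    obtain ⟨h1, h2, -⟩ := mem_par hd.1
    exact ⟨h1, fun q hq => by exact_mod_cast (h2 q hq).2, hd.2⟩
  have hB : ∑ d ∈ (par ε ξ).filter (fun d => Y < (pd d : ℝ) ∧ (pd d : ℝ) ≤ 2 * Y),
      (if ∀ q ∈ d, max 2 (Real.exp (y / 3)) < ((q : ℕ) : ℝ) then 1 / (pd d : ℝ) else 0) ≤
      K * y ^ 2 / (Real.log (max 2 (Real.exp (y / 3))) * Real.log ξ ^ 2) := by
    rw [← sum_filter]
    refine le_trans (sum_le_sum_of_subset_of_nonneg ?_ (fun _ _ _ => by positivity)) hS2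
    intro d hd
    rw [mem_filter, mem_filter] at hd
    rw [mem_filter]
    exact ⟨(mem_par hd.1.1).1, hd.2, hd.1.2⟩
  have hlog : y / 3 ≤ Real.log (max 2 (Real.exp (y / 3))) := by
    rw [Real.le_log_iff_exp_le (by positivity)]
    exact le_max_right _ _
  have hB' : K * y ^ 2 / (Real.log (max 2 (Real.exp (y / 3))) * Real.log ξ ^ 2) ≤
      K * y ^ 2 / (y / 3 * Real.log ξ ^ 2) :=
    div_le_div_of_nonneg_left (by positivity) (by positivity)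
      (mul_le_mul_of_nonneg_right hlog (by positivity))
  have hl2 : (1 / 2 : ℝ) ≤ Real.log 2 := by linarith [Real.log_two_gt_d9]
  have hA' : K * y ^ 2 / (Real.log 2 * Real.log ξ ^ 2) ≤ K * y ^ 2 / (1 / 2 * Real.log ξ ^ 2) :=
    div_le_div_of_nonneg_left (by positivity) (by positivity)
      (mul_le_mul_of_nonneg_right hl2 (by positivity))
  have h1 := mul_le_mul_of_nonneg_left (hA.trans hA')
    (show 0 ≤ 2 * (ξ : ℝ) * Real.exp (-(y / 3)) by positivity)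
  have h2 := mul_le_mul_of_nonneg_left (hB.trans hB')
    (show 0 ≤ 9 * C ^ 2 * (ξ : ℝ) / y ^ 2 by positivity)
  have h3 : 2 * (ξ : ℝ) * Real.exp (-(y / 3)) * (K * y ^ 2 / (1 / 2 * Real.log ξ ^ 2)) =
      4 * K * ξ / Real.log ξ ^ 2 * (y ^ 2 * Real.exp (-(y / 3))) := by
    field_simp; ring
  have h4 := mul_le_mul_of_nonneg_left (cube_exp hy0)
    (show 0 ≤ 4 * K * (ξ : ℝ) / Real.log ξ ^ 2 by positivity)
  have h5 : 4 * K * (ξ : ℝ) / Real.log ξ ^ 2 * (162 / y) +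
      9 * C ^ 2 * (ξ : ℝ) / y ^ 2 * (K * y ^ 2 / (y / 3 * Real.log ξ ^ 2)) =
      (648 * K + 27 * C ^ 2 * K) * ξ / (y * Real.log ξ ^ 2) := by
    field_simp; ring
  linarith

theorem exists_window {ε ξ : ℕ} {d : Finset ℕ} (hd : d ∈ par ε ξ) :
    ∃ i ∈ Icc 1 (Nat.log 2 ξ), (ξ : ℝ) / 2 ^ i < pd d ∧ (pd d : ℝ) ≤ 2 * (ξ / 2 ^ i) := by
  obtain ⟨-, -, h3, h4, h5⟩ := mem_par hd
  have hpd : 0 < pd d := by omega
  have hle : pd d ≤ ξ := le_trans (Nat.le_mul_of_pos_right _ (by positivity)) h5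
  have hq : ξ / pd d ≠ 0 := (Nat.div_pos hle hpd).ne'
  have h1 : 2 ^ Nat.log 2 (ξ / pd d) ≤ ξ / pd d := Nat.pow_log_le_self 2 hq
  have h2 : ξ / pd d < 2 ^ (Nat.log 2 (ξ / pd d) + 1) := Nat.lt_pow_succ_log_self (by norm_num) _
  set j := Nat.log 2 (ξ / pd d)
  rw [Nat.le_div_iff_mul_le hpd] at h1
  rw [Nat.div_lt_iff_lt_mul hpd] at h2
  refine ⟨j + 1, ?_, ?_, ?_⟩
  · rw [mem_Icc]
    refine ⟨by omega, Nat.le_log_of_pow_le (by norm_num) ?_⟩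
    rw [pow_succ]
    exact le_trans (Nat.mul_le_mul_left _ (by omega)) h1
  · rw [div_lt_iff₀ (by positivity)]
    have : (ξ : ℝ) < 2 ^ (j + 1) * pd d := by exact_mod_cast h2
    linarith
  · have : (2 : ℝ) ^ j * pd d ≤ ξ := by exact_mod_cast h1
    rw [show 2 * ((ξ : ℝ) / 2 ^ (j + 1)) = ξ / 2 ^ j by rw [pow_succ]; field_simp,
      le_div_iff₀ (by positivity)]
    linarith

theorem sum_par_le {ε ξ : ℕ} (f : Finset ℕ → ℝ) (hf : ∀ d, 0 ≤ f d) :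
    ∑ d ∈ par ε ξ, f d ≤ ∑ i ∈ Icc 1 (Nat.log 2 ξ),
      ∑ d ∈ (par ε ξ).filter (fun d => (ξ : ℝ) / 2 ^ i < (pd d : ℝ) ∧
        (pd d : ℝ) ≤ 2 * (ξ / 2 ^ i)), f d := by
  simp_rw [sum_filter]
  rw [sum_comm]
  refine sum_le_sum fun d hd => ?_
  obtain ⟨i, hi, hw⟩ := exists_window hd
  have := single_le_sum (f := fun i : ℕ => if (ξ : ℝ) / 2 ^ i < (pd d : ℝ) ∧
      (pd d : ℝ) ≤ 2 * (ξ / 2 ^ i) then f d else 0)
    (fun j _ => by split_ifs; exacts [hf d, le_rfl]) hi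
  simpa [hw] using this

end DiscAux

open DiscAux in
theorem discOK : SBStmt → PiStmt → DiscStmt := by
  rintro ⟨K, hK, hSB⟩ ⟨C, hC, hPi⟩
  have hPi' : ∀ x : ℝ, 2 ≤ x → ((pr 0 x).card : ℝ) ≤ C * x / Real.log x :=
    fun x hx => (hPi x hx).2
  refine ⟨4 * C ^ 2 + 6 * (648 * K + 27 * C ^ 2 * K), by positivity, ?_⟩
  filter_upwards [ev_loglog 1, ev_log 1, eventually_ge_atTop 4] with ξ hl hL h4 ε hε
  have hξ4 : (4 : ℝ) ≤ ξ := by exact_mod_cast h4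
  have hξ : (0 : ℝ) < ξ := by linarith
  set L := Real.log ξ with hLdef
  set l := Real.log L with hldef
  set E := 648 * K + 27 * C ^ 2 * K with hE
  have hE0 : 0 < E := by positivity
  have hl2 : (1 / 2 : ℝ) ≤ Real.log 2 := by linarith [Real.log_two_gt_d9]
  have hl2' : Real.log 2 ≤ 1 := by linarith [Real.log_two_lt_d9]
  -- the empty parent
  have hs : (2 : ℝ) ≤ √(ξ : ℝ) := Real.le_sqrt_of_sq_le (by linarith)
  have h1 : ((pr 0 (√(ξ : ℝ))).card : ℝ) ^ 2 ≤ 4 * C ^ 2 * ξ * l / L ^ 2 := by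
    have h := hPi' _ hs
    rw [Real.log_sqrt hξ.le] at h
    have h' := pow_le_pow_left₀ (by positivity) h 2
    have e : (C * √(ξ : ℝ) / (Real.log ξ / 2)) ^ 2 = 4 * C ^ 2 * ξ * 1 / L ^ 2 := by
      rw [div_pow, mul_pow, Real.sq_sqrt hξ.le, ← hLdef]
      field_simp; ring
    rw [e] at h'
    refine h'.trans ?_
    gcongr
  -- the windows
  have hJ : 1 ≤ Nat.log 2 ξ := Nat.le_log_of_pow_le (by norm_num) (by omega)
  have h2 : ∑ d ∈ par ε ξ, ((pr 0 (mn d : ℝ)).card : ℝ) ^ 2 ≤ 6 * E * ξ * l / L ^ 2 := by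
    refine (sum_par_le _ (fun d => by positivity)).trans ?_
    have hw : ∀ i ∈ Icc 1 (Nat.log 2 ξ),
        ∑ d ∈ (par ε ξ).filter (fun d => (ξ : ℝ) / 2 ^ i < (pd d : ℝ) ∧
          (pd d : ℝ) ≤ 2 * (ξ / 2 ^ i)), ((pr 0 (mn d : ℝ)).card : ℝ) ^ 2 ≤
          2 * E * ξ / L ^ 2 * (1 / (i : ℝ)) := by
      intro i hi
      rw [mem_Icc] at hi
      have hi1 : (1 : ℝ) ≤ i := by exact_mod_cast hi.1
      have hp : 2 ^ i ≤ ξ := Nat.pow_le_of_le_log (by omega) hi.2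
      have hp' : (2 : ℝ) ^ i ≤ ξ := by exact_mod_cast hp
      have hp1 : (1 : ℝ) < 2 ^ i := one_lt_pow₀ (by norm_num) (by omega)
      have hw := window_le hK hC hSB hPi' hε (ξ := ξ) (Y := ξ / 2 ^ i)
        (by rw [le_div_iff₀ (by positivity)]; linarith) (div_lt_self hξ hp1)
      refine hw.trans ?_
      have e : (ξ : ℝ) / (ξ / 2 ^ i) = 2 ^ i := by field_simp
      rw [e, Real.log_pow, ← hE, ← hLdef]
      have e2 : 2 * E * ξ / L ^ 2 * (1 / (i : ℝ)) = E * ξ / (i * (1 / 2) * L ^ 2) := by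
        field_simp
      rw [e2]
      gcongr
    refine (sum_le_sum hw).trans ?_
    rw [← mul_sum]
    have hs := sum_inv_le (S := Icc 1 (Nat.log 2 ξ)) hJ (fun g hg => mem_Icc.mp hg)
    have hJL : ((Nat.log 2 ξ : ℕ) : ℝ) ≤ 2 * L := by
      have hp : 2 ^ Nat.log 2 ξ ≤ ξ := Nat.pow_log_le_self 2 (by omega)
      have hp' : (2 : ℝ) ^ Nat.log 2 ξ ≤ ξ := by exact_mod_cast hp
      have := Real.log_le_log (by positivity) hp'
      rw [Real.log_pow] at this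
      have h0 : (0 : ℝ) ≤ (Nat.log 2 ξ : ℕ) := by positivity
      nlinarith
    have hJ' : (1 : ℝ) ≤ (Nat.log 2 ξ : ℕ) := by exact_mod_cast hJ
    have hlJ : Real.log ((Nat.log 2 ξ : ℕ) : ℝ) ≤ 1 + l := by
      have := Real.log_le_log (by linarith) hJL
      rw [Real.log_mul (by norm_num) (by linarith)] at this
      linarith
    have h3 : ∑ i ∈ Icc 1 (Nat.log 2 ξ), 1 / (i : ℝ) ≤ 3 * l := by linarith
    have := mul_le_mul_of_nonneg_left h3 (show 0 ≤ 2 * E * ξ / L ^ 2 by positivity)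
    refine this.trans (le_of_eq ?_)
    ring
  have h3 := card_disc_le ε ξ
  have e : (4 * C ^ 2 + 6 * E) * ξ * l / L ^ 2 =
      4 * C ^ 2 * ξ * l / L ^ 2 + 6 * E * ξ * l / L ^ 2 := by ring
  rw [e]
  linarith

end Crest.Agent.R1s
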