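import Crest.Agent.R1s.Ev

/-! Row 1: the main term at the root. -/

set_option autoImplicit false

namespace Crest.Agent.R1s

open Finset Filter
open Crest.Agent.R5 (pr pd ee)

namespace E1Aux

theorem lt_of_mem {D p : ℕ} (hp : √(D : ℝ) < p) {e : Finset ℕ} (he : e ∈ Rp (D / p)) :
    ∀ q ∈ e, q < p := by
  intro q hq
  have h1 := cube_le_of_ros (mem_Rp.1 he).2 hq
  have h0 : (0 : ℝ) < p := lt_of_le_of_lt (Real.sqrt_nonneg _) hp
  have h2 : (D : ℝ) < (p : ℝ) ^ 2 := (Real.sqrt_lt' h0).1 hp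
  have h3 : D < p * p := by
    have : D < p ^ 2 := by exact_mod_cast h2
    rwa [sq] at this
  have h4 : D / p < p := Nat.div_lt_of_lt_mul h3
  have h5 : q ≤ q ^ 3 := Nat.le_self_pow (by norm_num) q
  omega

theorem ros_single (D p : ℕ) : ros 0 D {p} := by
  intro q hq h
  rw [mem_singleton] at hq
  subst hq
  rw [up_of_min (by simp)] at h
  simp at h

theorem ros_iff {D p : ℕ} (hp : 0 < p) {e : Finset ℕ} (h : ∀ q ∈ e, q < p) :
    ros 0 D (insert p e) ↔ ros 1 (D / p) e := by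
  have := ros_union (ε := 0) (ξ := D) (by norm_num) (d := {p}) (e := e)
    (by rw [pd_singleton]; exact hp) (by simpa using h)
  rw [pd_singleton, ← insert_eq] at this
  rw [this]
  simp [ros_single]

theorem split (D : ℕ) (z : ℝ) (h2 : 2 ≤ √(D : ℝ)) (hz : √(D : ℝ) ≤ z) :
    MM D z = MM D (√(D : ℝ)) - ∑ p ∈ pr (√(D : ℝ)) z, GG (D / p) / p := by
  classical
  unfold MM
  rw [← sum_filter_add_sum_filter_not (RR 0 D z) (fun t => ∀ p ∈ t, ((p : ℕ) : ℝ) ≤ √(D : ℝ))]
  have e1 : (RR 0 D z).filter (fun t => ∀ p ∈ t, ((p : ℕ) : ℝ) ≤ √(D : ℝ)) =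
      RR 0 D (√(D : ℝ)) := by
    ext t
    rw [mem_filter, mem_RR, mem_RR]
    constructor
    · rintro ⟨⟨h1, h3⟩, h4⟩
      exact ⟨fun p hp => ⟨(h1 p hp).1, (h1 p hp).2.1, h4 p hp⟩, h3⟩
    · rintro ⟨h1, h3⟩
      exact ⟨⟨fun p hp => ⟨(h1 p hp).1, (h1 p hp).2.1, (h1 p hp).2.2.trans hz⟩, h3⟩,
        fun p hp => (h1 p hp).2.2⟩
  rw [e1, sub_eq_add_neg, ← sum_neg_distrib]
  congr 1
  have e2 : ∑ p ∈ pr (√(D : ℝ)) z, -(GG (D / p) / p) =
      ∑ x ∈ (pr (√(D : ℝ)) z).sigma (fun p => Rp (D / p)),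
        sg (insert x.1 x.2) / pd (insert x.1 x.2) := by
    rw [sum_sigma]
    refine sum_congr rfl fun p hp => ?_
    unfold GG
    rw [sum_div, ← sum_neg_distrib]
    refine sum_congr rfl fun e he => ?_
    have hn : p ∉ e := fun h => lt_irrefl _ (lt_of_mem (mem_pr.1 hp).2.1 he p h)
    rw [sg_insert hn, pd_insert hn]
    push_cast
    ring
  rw [e2]
  symm
  refine sum_bij (fun x _ => insert x.1 x.2) ?_ ?_ ?_ (fun _ _ => rfl)
  · rintro ⟨p, e⟩ hx
    rw [mem_sigma] at hx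
    obtain ⟨hp, he⟩ := hx
    dsimp only at hp he ⊢
    obtain ⟨hp1, hp2, hp3⟩ := mem_pr.1 hp
    have hlt := lt_of_mem hp2 he
    rw [mem_filter, mem_RR]
    refine ⟨⟨fun q hq => ?_, (ros_iff hp1.pos hlt).2 (mem_Rp.1 he).2⟩, fun h => ?_⟩
    · rcases mem_insert.1 hq with rfl | hq
      · refine ⟨hp1, ?_, hp3⟩
        have : (2 : ℝ) < q := lt_of_le_of_lt h2 hp2
        exact_mod_cast this
      · refine ⟨((mem_Rp.1 he).1 q hq).1, ((mem_Rp.1 he).1 q hq).2, ?_⟩
        have : (q : ℝ) < p := by exact_mod_cast hlt q hq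
        linarith
    · have := h p (mem_insert_self _ _)
      linarith
  · rintro ⟨p, e⟩ hx ⟨p', e'⟩ hx' h
    rw [mem_sigma] at hx hx'
    obtain ⟨hp, he⟩ := hx
    obtain ⟨hp', he'⟩ := hx'
    dsimp only at hp he hp' he' h
    have hlt := lt_of_mem (mem_pr.1 hp).2.1 he
    have hlt' := lt_of_mem (mem_pr.1 hp').2.1 he'
    have hpp : p = p' := by
      have a : p ∈ insert p' e' := h ▸ mem_insert_self _ _
      have b : p' ∈ insert p e := h ▸ mem_insert_self _ _
      rcases mem_insert.1 a with a | a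
      · exact a
      · rcases mem_insert.1 b with b | b
        · exact b.symm
        · have := hlt _ b
          have := hlt' _ a
          omega
    subst hpp
    have hn : p ∉ e := fun h => lt_irrefl _ (hlt p h)
    have hn' : p ∉ e' := fun h => lt_irrefl _ (hlt' p h)
    have : e = e' := by rw [← erase_insert hn, h, erase_insert hn']
    subst this
    rfl
  · intro t ht
    rw [mem_filter, mem_RR] at ht
    obtain ⟨⟨h1, h3⟩, h4⟩ := ht
    push Not at h4
    obtain ⟨q, hq, hq'⟩ := h4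
    have hne : t.Nonempty := ⟨q, hq⟩
    have hm := t.max'_mem hne
    have hlt : ∀ r ∈ t.erase (t.max' hne), r < t.max' hne := fun r hr =>
      lt_of_le_of_ne (t.le_max' r (mem_of_mem_erase hr)) (ne_of_mem_erase hr)
    have hins : insert (t.max' hne) (t.erase (t.max' hne)) = t := insert_erase hm
    refine ⟨⟨t.max' hne, t.erase (t.max' hne)⟩, ?_, hins⟩
    rw [mem_sigma]
    dsimp only
    refine ⟨mem_pr.2 ⟨(h1 _ hm).1, ?_, (h1 _ hm).2.2⟩, mem_Rp.2 ⟨fun r hr => ?_, ?_⟩⟩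
    · have : (q : ℝ) ≤ (t.max' hne : ℕ) := by exact_mod_cast t.le_max' q hq
      linarith
    · exact ⟨(h1 r (mem_of_mem_erase hr)).1, (h1 r (mem_of_mem_erase hr)).2.1⟩
    · rw [← ros_iff (h1 _ hm).1.pos hlt, hins]
      exact h3

/-- lower bound for `log D` -/
theorem log_D {x D : ℝ} (hx : 0 < x) (hL : 0 < Real.log x)
    (hD : x / (2 * Real.log x ^ 2) ≤ D) :
    Real.log x - 1 - 2 * Real.log (Real.log x) ≤ Real.log D := by
  have h0 : 0 < x / (2 * Real.log x ^ 2) := by positivity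
  have h1 := Real.log_le_log h0 hD
  rw [Real.log_div hx.ne' (by positivity), Real.log_mul (by norm_num) (by positivity),
    Real.log_pow] at h1
  have h2 : Real.log 2 ≤ 1 := by
    have := Real.log_le_sub_one_of_pos (x := 2) (by norm_num)
    linarith
  push_cast at h1
  linarith

/-- lower bound for `D / p` -/
theorem div_ge {x w : ℝ} {D p : ℕ} (hw : 1 ≤ w) (hx : x = w ^ 4) (hL : 1 ≤ Real.log x)
    (hD : x / (2 * Real.log x ^ 2) ≤ D) (hp : 0 < p) (hpz : (p : ℝ) ≤ √x * Real.log x ^ 7)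
    (h9 : 4 * Real.log x ^ 9 ≤ w) : w ≤ ((D / p : ℕ) : ℝ) := by
  set L := Real.log x with hLdef
  have hs : √x = w ^ 2 := by
    rw [hx, show w ^ 4 = (w ^ 2) ^ 2 by ring, Real.sqrt_sq (by positivity)]
  have hp0 : (0 : ℝ) < p := by exact_mod_cast hp
  have h1 : (D : ℝ) < p * ((D / p : ℕ) + 1) := by
    have := Nat.lt_mul_div_succ D hp
    exact_mod_cast this
  have hL0 : 0 < L := by linarith
  have hw0 : 0 < w := by linarith
  by_contra hc
  push Not at hc
  have h2 : (D : ℝ) < w ^ 2 * L ^ 7 * (2 * w) := by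
    rw [hs] at hpz
    calc (D : ℝ) < p * ((D / p : ℕ) + 1) := h1
      _ ≤ w ^ 2 * L ^ 7 * (2 * w) := by
        apply mul_le_mul hpz (by linarith) (by positivity) (by positivity)
  have h3 : w ^ 4 ≤ D * (2 * L ^ 2) := by
    rw [div_le_iff₀ (by positivity)] at hD
    linarith
  have h4 : (D : ℝ) * (2 * L ^ 2) < w ^ 2 * L ^ 7 * (2 * w) * (2 * L ^ 2) :=
    mul_lt_mul_of_pos_right h2 (by positivity)
  have h5 : w ^ 2 * L ^ 7 * (2 * w) * (2 * L ^ 2) = w ^ 3 * (4 * L ^ 9) := by ring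
  have h6 : w ^ 3 * (4 * L ^ 9) ≤ w ^ 3 * w := mul_le_mul_of_nonneg_left h9 (by positivity)
  have h7 : w ^ 3 * w = w ^ 4 := by ring
  linarith

end E1Aux

theorem e1OK : GMStmt → E1Stmt := by
  rintro ⟨C, hC, hG⟩
  obtain ⟨ξ₀, hξ₀⟩ := eventually_atTop.1 hG
  obtain ⟨K, hK1, hK, -⟩ := Crest.Agent.R5.mertens
  refine ⟨4 * C + 4 * (4 + C) * (36 + 4 * K), by positivity, ?_⟩
  have hc : (0 : ℝ) < 1 / 4 := by norm_num
  filter_upwards [ev_D0, ev_log 100, ev_loglog 1, ev_rpow (ξ₀ : ℝ) hc, ev_rpow 1 hc,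
    ev_log_pow 4 9 hc, ev_loglog_pow 8 1 (c := 1) one_pos, eventually_ge_atTop 1]
    with m hD hL hl hw0 hw1 hw9 hlL hm1
  obtain ⟨hD1, hD2, hD3, hD4⟩ := hD
  rw [Real.rpow_one, pow_one] at hlL
  have hm0 : (0 : ℝ) < m := by exact_mod_cast hm1
  set L := Real.log m with hLdef
  set l := Real.log L with hldef
  set D := D0 m with hDdef
  set w := (m : ℝ) ^ (1 / 4 : ℝ) with hwdef
  have hw4 : (m : ℝ) = w ^ 4 := by
    rw [hwdef, ← Real.rpow_natCast, ← Real.rpow_mul hm0.le]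
    norm_num
  have hlw : Real.log w = L / 4 := by
    rw [hwdef, Real.log_rpow hm0]
    ring
  have hL0 : 0 < L := by linarith
  have hD0 : (0 : ℝ) < D := by exact_mod_cast hD4
  have hDm : (D : ℝ) ≤ m := by exact_mod_cast hD3
  have hlD : L - 1 - 2 * l ≤ Real.log D := E1Aux.log_D hm0 hL0 hD1
  have hlD' : Real.log D ≤ L := Real.log_le_log hD0 hDm
  have hlD2 : L / 2 ≤ Real.log D := by linarith
  have hsD : Real.log (√(D : ℝ)) = Real.log D / 2 := Real.log_sqrt hD0.le
  have hsD0 : 0 < √(D : ℝ) := Real.sqrt_pos.2 hD0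
  have h2 : 2 ≤ √(D : ℝ) := by
    have := Real.log_le_sub_one_of_pos hsD0
    linarith
  have hL7 : 1 ≤ L ^ 7 := one_le_pow₀ (by linarith)
  have hsm : 0 < √(m : ℝ) := Real.sqrt_pos.2 hm0
  have hz : √(D : ℝ) ≤ zz m := by
    have a := Real.sqrt_le_sqrt hDm
    have b : √(m : ℝ) * 1 ≤ √(m : ℝ) * L ^ 7 := mul_le_mul_of_nonneg_left hL7 hsm.le
    unfold zz
    linarith
  have hlz : Real.log (zz m) = L / 2 + 7 * l := by
    unfold zz
    rw [Real.log_mul hsm.ne' (by positivity), Real.log_sqrt hm0.le, Real.log_pow]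
    push_cast
    rfl
  -- the quotients
  have hq : ∀ p ∈ pr (√(D : ℝ)) (zz m), w ≤ ((D / p : ℕ) : ℝ) := fun p hp =>
    E1Aux.div_ge hw1 hw4 (by linarith) hD1 (mem_pr.1 hp).1.pos (mem_pr.1 hp).2.2 hw9
  have hGG : ∀ p ∈ pr (√(D : ℝ)) (zz m), GG (D / p) ≤ 4 * (4 + C) / L := by
    intro p hp
    have a := hq p hp
    have b : ξ₀ ≤ D / p := by
      have : (ξ₀ : ℝ) ≤ ((D / p : ℕ) : ℝ) := hw0.trans a
      exact_mod_cast this
    have c := (abs_le.1 (hξ₀ _ b).1).2
    have d : L / 4 ≤ Real.log ((D / p : ℕ) : ℝ) := by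
      rw [← hlw]
      exact Real.log_le_log (by linarith) a
    set y := Real.log ((D / p : ℕ) : ℝ)
    have hy : 0 < y := by linarith
    have e : Real.log y ≤ y := by
      have := Real.log_le_sub_one_of_pos hy
      linarith
    have f : C * Real.log y / y ^ 2 ≤ C / y := by
      rw [div_le_div_iff₀ (by positivity) hy]
      have := mul_le_mul_of_nonneg_left e (mul_pos hC hy).le
      nlinarith
    have g : (4 + C) / y ≤ 4 * (4 + C) / L := by
      rw [div_le_div_iff₀ hy hL0]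
      have : 0 < 4 + C := by linarith
      nlinarith
    have h : (4 + C) / y = 4 / y + C / y := by ring
    linarith
  -- Mertens
  have hM : ∑ p ∈ pr (√(D : ℝ)) (zz m), 1 / (p : ℝ) ≤ (36 + 4 * K) * l / L := by
    have a := (abs_le.1 (hK _ _ h2 hz)).2
    rw [hsD, hlz] at a
    set y := Real.log D / 2 with hy
    have hy4 : L / 4 ≤ y := by linarith
    have hy0 : 0 < y := by linarith
    have hA : 0 < L / 2 + 7 * l := by linarith
    have b : Real.log (L / 2 + 7 * l) - Real.log y ≤ (L / 2 + 7 * l) / y - 1 := by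
      rw [← Real.log_div hA.ne' hy0.ne']
      exact Real.log_le_sub_one_of_pos (by positivity)
    have c : (L / 2 + 7 * l) / y - 1 ≤ 9 * l / y := by
      rw [div_sub_one hy0.ne']
      apply div_le_div_of_nonneg_right _ hy0.le
      linarith
    have d : K / y ≤ K * l / y := by
      apply div_le_div_of_nonneg_right _ hy0.le
      nlinarith
    have e : (9 + K) * l / y ≤ (36 + 4 * K) * l / L := by
      rw [div_le_div_iff₀ hy0 hL0]
      have : 0 ≤ (9 + K) * l := by positivity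
      nlinarith
    have f : (9 + K) * l / y = 9 * l / y + K * l / y := by ring
    linarith
  have hS : ∑ p ∈ pr (√(D : ℝ)) (zz m), GG (D / p) / p ≤
      4 * (4 + C) / L * ((36 + 4 * K) * l / L) := by
    calc ∑ p ∈ pr (√(D : ℝ)) (zz m), GG (D / p) / p
        ≤ ∑ p ∈ pr (√(D : ℝ)) (zz m), 4 * (4 + C) / L * (1 / (p : ℝ)) := by
          refine sum_le_sum fun p hp => ?_
          rw [mul_one_div]
          exact div_le_div_of_nonneg_right (hGG p hp) (Nat.cast_nonneg _)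
      _ ≤ _ := by
          rw [← mul_sum]
          exact mul_le_mul_of_nonneg_left hM (by positivity)
  -- the root
  have hwD : w ≤ D := by
    have a : Real.log w ≤ Real.log D := by linarith
    exact (Real.log_le_log_iff (by linarith) hD0).1 a
  have hD5 : ξ₀ ≤ D := by
    have : (ξ₀ : ℝ) ≤ D := hw0.trans hwD
    exact_mod_cast this
  have hR := (hξ₀ D hD5).2
  have hR2 : C * Real.log (Real.log D) / Real.log D ^ 2 ≤ 4 * C * l / L ^ 2 := by
    have a : Real.log (Real.log D) ≤ l := Real.log_le_log (by linarith) hlD'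
    have b : (L / 2) ^ 2 ≤ Real.log D ^ 2 := pow_le_pow_left₀ (by positivity) hlD2 2
    calc C * Real.log (Real.log D) / Real.log D ^ 2 ≤ C * l / Real.log D ^ 2 :=
          div_le_div_of_nonneg_right (mul_le_mul_of_nonneg_left a hC.le) (by positivity)
      _ ≤ C * l / (L / 2) ^ 2 :=
          div_le_div_of_nonneg_left (by positivity) (by positivity) b
      _ = 4 * C * l / L ^ 2 := by
          field_simp
          ring
  rw [E1Aux.split D (zz m) h2 hz]
  have hE : (4 * C + 4 * (4 + C) * (36 + 4 * K)) * l / L ^ 2 =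
      4 * C * l / L ^ 2 + 4 * (4 + C) / L * ((36 + 4 * K) * l / L) := by
    field_simp
  rw [hE]
  linarith

end Crest.Agent.R1s
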