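import Crest.Agent.R1s.Ev

/-! Row 1: the sieve sum over the parity sequence. -/

set_option autoImplicit false

namespace Crest.Agent.R1s

open Finset Filter
open Crest.Agent.R5 (pr pd ee)

namespace EO1Aux

theorem mem_AA {σ x n : ℕ} :
    n ∈ AA σ x ↔ (1 ≤ n ∧ n ≤ x) ∧ n % 2 = 1 ∧ ArithmeticFunction.cardFactors n % 2 = σ := by
  unfold AA
  rw [mem_filter, mem_Icc]

theorem card_filter_dvd {ε ξ d c : ℕ} (hε : ε ≤ 1) (hd : d % 2 = 1)
    (hc : ArithmeticFunction.cardFactors d = c) :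
    ((AA ε ξ).filter (fun n => d ∣ n)).card = (AA ((ε + c) % 2) (ξ / d)).card := by
  have hd0 : 0 < d := by omega
  symm
  refine card_bij (fun k _ => d * k) (fun k hk => ?_) (fun k _ k' _ h => ?_) (fun n hn => ?_)
  · obtain ⟨⟨h1, h2⟩, h3, h4⟩ := mem_AA.1 hk
    refine mem_filter.2 ⟨mem_AA.2 ⟨⟨Nat.mul_pos hd0 h1, ?_⟩, ?_, ?_⟩, dvd_mul_right _ _⟩
    · rw [Nat.le_div_iff_mul_le hd0] at h2
      rw [mul_comm]
      exact h2
    · rw [Nat.mul_mod, hd, h3]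
    · rw [ArithmeticFunction.cardFactors_mul hd0.ne' (by omega), hc]
      omega
  · exact Nat.eq_of_mul_eq_mul_left hd0 h
  · obtain ⟨hn1, k, rfl⟩ := mem_filter.1 hn
    obtain ⟨⟨h1, h2⟩, h3, h4⟩ := mem_AA.1 hn1
    have hk : k ≠ 0 := by
      rintro rfl
      simp at h1
    refine ⟨k, mem_AA.2 ⟨⟨Nat.pos_of_ne_zero hk, ?_⟩, ?_, ?_⟩, rfl⟩
    · rw [Nat.le_div_iff_mul_le hd0, mul_comm]
      exact h2
    · rw [Nat.mul_mod, hd, one_mul, Nat.mod_mod] at h3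
      exact h3
    · rw [ArithmeticFunction.cardFactors_mul hd0.ne' hk, hc] at h4
      omega

theorem pd_odd {t : Finset ℕ} (ht : ∀ p ∈ t, p.Prime ∧ 2 < p) : pd t % 2 = 1 := by
  by_contra h
  have h2 : 2 ∣ pd t := by omega
  have := (prime_dvd_pd (fun p hp => (ht p hp).1) Nat.prime_two).1 h2
  exact absurd (ht 2 this).2 (lt_irrefl _)

theorem swap (ε ξ : ℕ) :
    ∑ n ∈ AA ε ξ, lamR ε ξ n = ∑ t ∈ RR ε ξ (√(ξ : ℝ)),
      sg t * (((AA ε ξ).filter (fun n => pd t ∣ n)).card : ℝ) := by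
  unfold lamR
  simp only [sum_filter]
  rw [sum_comm]
  refine sum_congr rfl fun t _ => ?_
  rw [← sum_filter, sum_const, nsmul_eq_mul, mul_comm]

end EO1Aux

theorem eo1 : OddStmt → ErrStmt → EO1Stmt := by
  rintro ⟨δ, C, hδ, hδ1, hC, hodd⟩ herr
  obtain ⟨C', hC', herr⟩ := herr δ hδ hδ1
  refine ⟨C * C', mul_pos hC hC', fun ε ξ hε hξ => ?_⟩
  rw [EO1Aux.swap, mul_sum, ← sum_sub_distrib]
  refine (abs_sum_le_sum_abs _ _).trans ?_
  have key : ∀ t ∈ RR ε ξ (√(ξ : ℝ)),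
      |sg t * (((AA ε ξ).filter (fun n => pd t ∣ n)).card : ℝ) - ξ / 4 * (sg t / pd t)| ≤
        C * ((ξ : ℝ) / pd t) ^ (1 - δ) := by
    intro t ht
    have h1 := (mem_RR.1 ht).1
    have hp : ∀ p ∈ t, p.Prime := fun p hp => (h1 p hp).1
    have hpos : (0 : ℝ) < pd t := by exact_mod_cast pd_pos hp
    have hle : (pd t : ℝ) ≤ ξ := by exact_mod_cast pd_le_of_RR_sqrt hε (by omega) ht
    have hx : (1 : ℝ) ≤ (ξ : ℝ) / pd t := by
      rw [le_div_iff₀ hpos, one_mul]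
      exact hle
    have h2 := hodd ((ε + t.card) % 2) (by omega) ((ξ : ℝ) / pd t) hx
    rw [Nat.floor_div_eq_div] at h2
    rw [EO1Aux.card_filter_dvd hε (EO1Aux.pd_odd fun p hp => ⟨(h1 p hp).1, (h1 p hp).2.1⟩)
      (cardFactors_pd hp)]
    have e : sg t * ((AA ((ε + t.card) % 2) (ξ / pd t)).card : ℝ) - ξ / 4 * (sg t / pd t) =
        sg t * (((AA ((ε + t.card) % 2) (ξ / pd t)).card : ℝ) - (ξ : ℝ) / pd t / 4) := by
      ring
    rw [e, abs_mul, abs_sg, one_mul]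
    exact h2
  refine (sum_le_sum key).trans ?_
  rw [← mul_sum]
  have := mul_le_mul_of_nonneg_left (herr ε ξ hε hξ) hC.le
  calc _ ≤ _ := this
    _ = _ := by ring

end Crest.Agent.R1s
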