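import Crest.Agent.R1s.Ev

/-! Row 1: the sieve is exact on the parity sequence. -/

set_option autoImplicit false

namespace Crest.Agent.R1s

open Finset Filter
open Crest.Agent.R5 (pr pd ee)

namespace EO2Aux

/-- the primes that can occur in a Rosser set dividing `n` -/
noncomputable def TT (ε ξ n : ℕ) : Finset ℕ :=
  (pr 2 (√(ξ : ℝ))).filter (fun q => q ∣ n ∧ (ε = 1 → q ^ 3 ≤ ξ))

theorem mem_TT {ε ξ n q : ℕ} : q ∈ TT ε ξ n ↔
    (q.Prime ∧ 2 < q ∧ (q : ℝ) ≤ √(ξ : ℝ)) ∧ q ∣ n ∧ (ε = 1 → q ^ 3 ≤ ξ) := by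
  rw [TT, mem_filter, mem_pr]
  have : (2 : ℝ) < q ↔ 2 < q := by exact_mod_cast Iff.rfl
  rw [this]

theorem mem_AA {σ x n : ℕ} : n ∈ AA σ x ↔
    (1 ≤ n ∧ n ≤ x) ∧ n % 2 = 1 ∧ ArithmeticFunction.cardFactors n % 2 = σ := by
  rw [AA, mem_filter, mem_Icc]

theorem lamR_eq (ε ξ n : ℕ) :
    lamR ε ξ n = ∑ t ∈ (TT ε ξ n).powerset.filter (ros ε ξ), sg t := by
  unfold lamR
  refine sum_congr ?_ fun _ _ => rfl
  ext t
  rw [mem_filter, mem_filter, mem_RR, mem_powerset]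
  constructor
  · rintro ⟨⟨h1, h2⟩, h3⟩
    refine ⟨fun q hq => mem_TT.2 ⟨h1 q hq, (dvd_pd hq).trans h3, fun he => ?_⟩, h2⟩
    subst he
    exact cube_le_of_ros h2 hq
  · rintro ⟨h1, h2⟩
    exact ⟨⟨fun q hq => (mem_TT.1 (h1 hq)).1, h2⟩,
      (pd_dvd_iff fun q hq => (mem_TT.1 (h1 hq)).1.1).2 fun q hq => (mem_TT.1 (h1 hq)).2.1⟩

theorem pow_le {q k : ℕ} (hk : k ≠ 0) (h : ∀ p, p.Prime → p ∣ k → q ≤ p) :
    q ^ ArithmeticFunction.cardFactors k ≤ k := by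
  rw [ArithmeticFunction.cardFactors_apply]
  conv_rhs => rw [← Nat.prod_primeFactorsList hk]
  exact List.pow_card_le_prod _ _ fun p hp =>
    h p (Nat.prime_of_mem_primeFactorsList hp) (Nat.dvd_of_mem_primeFactorsList hp)

theorem two_lt {n p : ℕ} (hn : n % 2 = 1) (hp : p.Prime) (h : p ∣ n) : 2 < p := by
  refine lt_of_le_of_ne hp.two_le fun h2 => ?_
  subst h2
  omega

theorem drop {ε ξ n q : ℕ} (hε : ε ≤ 1) (hn : n ∈ AA ε ξ) (hq : q ∈ TT ε ξ n)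
    (hmin : ∀ p ∈ TT ε ξ n, q ≤ p) {t : Finset ℕ} (ht : t ⊆ (TT ε ξ n).erase q)
    (h1 : ros ε ξ t) (h2 : ¬ ros ε ξ (insert q t)) :
    pd (insert q t) = n ∧ insert q t ∈ disc ε ξ := by
  obtain ⟨⟨hn1, hn2⟩, hn3, hn4⟩ := mem_AA.1 hn
  obtain ⟨⟨hq1, hq2, hq3⟩, hq4, hq5⟩ := mem_TT.1 hq
  have hlt : ∀ p ∈ t, q < p := fun p hp =>
    lt_of_le_of_ne (hmin p (mem_of_mem_erase (ht hp))) (ne_of_mem_erase (ht hp)).symm
  have hqt : q ∉ t := fun h => lt_irrefl _ (hlt q h)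
  have hb : insert q t ⊆ TT ε ξ n := insert_subset hq (ht.trans (erase_subset _ _))
  have hpr : ∀ p ∈ insert q t, p.Prime := fun p hp => (mem_TT.1 (hb hp)).1.1
  rw [ros_insert hlt, not_and, Classical.not_imp, not_le] at h2
  obtain ⟨hc, hξ⟩ := h2 h1
  have hcard : (insert q t).card = t.card + 1 := card_insert_of_notMem hqt
  have hall : ∀ p, p.Prime → p ∣ n → q ≤ p := fun p hp hpn => by
    by_contra hlt'
    have h3 : p ≤ q := (not_le.1 hlt').le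
    exact hlt' (hmin p (mem_TT.2 ⟨⟨hp, two_lt hn3 hp hpn, (Nat.cast_le.2 h3).trans hq3⟩, hpn,
      fun he => (Nat.pow_le_pow_left h3 3).trans (hq5 he)⟩))
  obtain ⟨k, hk⟩ := (pd_dvd_iff hpr).2 fun p hp => (mem_TT.1 (hb hp)).2.1
  have hk0 : k ≠ 0 := by
    rintro rfl
    omega
  have hb0 : 0 < pd (insert q t) := pd_pos hpr
  have hk2 : k < q ^ 2 := lt_of_mul_lt_mul_left (a := pd (insert q t)) (by omega) (Nat.zero_le _)
  have hΩ : ArithmeticFunction.cardFactors n = t.card + 1 + ArithmeticFunction.cardFactors k := by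
    rw [hk, ArithmeticFunction.cardFactors_mul hb0.ne' hk0, cardFactors_pd hpr, hcard]
  have hΩ2 : ArithmeticFunction.cardFactors k < 2 :=
    (Nat.pow_lt_pow_iff_right hq1.one_lt).1 ((pow_le hk0 fun p hp hpk =>
      hall p hp (hk ▸ hpk.mul_left _)).trans_lt hk2)
  have hΩ0 : ArithmeticFunction.cardFactors k = 0 := by omega
  have hk1 : k = 1 :=
    (ArithmeticFunction.cardFactors_eq_zero_iff_eq_zero_or_one.1 hΩ0).resolve_left hk0
  refine ⟨by rw [hk, hk1, mul_one], ?_⟩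
  rw [disc, mem_filter, mem_powerset]
  refine ⟨hb.trans (filter_subset _ _), ?_, by omega, fun q' hq' hm => ?_⟩
  · rw [hcard]
    by_contra hlt'
    have h0 : t = ∅ := card_eq_zero.1 (by omega)
    subst h0
    have he : ε = 1 := by simpa using hc.symm
    have := hq5 he
    rw [insert_empty_eq, pd_singleton, ← pow_succ'] at hξ
    exact absurd this hξ.not_ge
  · have : q' = q := le_antisymm (hm q (mem_insert_self _ _)) (hmin q' (hb hq'))
    rw [this, erase_insert hqt]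
    exact h1

theorem point {ε ξ n : ℕ} (hε : ε ≤ 1) (hn : n ∈ AA ε ξ) :
    |lamR ε ξ n - (if TT ε ξ n = ∅ then 1 else 0)| ≤
      if n ∈ (disc ε ξ).image pd then 1 else 0 := by
  rw [lamR_eq]
  by_cases hT : TT ε ξ n = ∅
  · rw [if_pos hT, hT, powerset_empty, filter_singleton, if_pos (ros_empty ε ξ), sum_singleton,
      sg_of_even (by simp), sub_self, abs_zero]
    split_ifs <;> norm_num
  · rw [if_neg hT, sub_zero]
    have hne : (TT ε ξ n).Nonempty := nonempty_iff_ne_empty.2 hT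
    set q := (TT ε ξ n).min' hne with hqd
    have hq : q ∈ TT ε ξ n := min'_mem _ _
    have hmin : ∀ p ∈ TT ε ξ n, q ≤ p := fun p hp => min'_le _ p hp
    rw [tree (ros ε ξ) hq hmin fun t ht h => ((ros_insert fun p hp =>
      lt_of_le_of_ne (hmin p (mem_of_mem_erase (ht hp))) (ne_of_mem_erase (ht hp)).symm).1 h).1]
    set U := ((TT ε ξ n).erase q).powerset.filter
      (fun t => ros ε ξ t ∧ ¬ ros ε ξ (insert q t)) with hU
    have hd : ∀ t ∈ U, pd (insert q t) = n ∧ insert q t ∈ disc ε ξ := fun t ht =>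
      drop hε hn hq hmin (mem_powerset.1 (mem_filter.1 ht).1) (mem_filter.1 ht).2.1
        (mem_filter.1 ht).2.2
    have hsub : ∀ t ∈ U, t ⊆ (TT ε ξ n).erase q := fun t ht => mem_powerset.1 (mem_filter.1 ht).1
    have hpr : ∀ t ∈ U, ∀ p ∈ insert q t, p.Prime := fun t ht p hp =>
      (mem_TT.1 (insert_subset hq ((hsub t ht).trans (erase_subset _ _)) hp)).1.1
    rcases U.eq_empty_or_nonempty with h0 | ⟨t, ht⟩
    · rw [h0, sum_empty, abs_zero]
      split_ifs <;> norm_num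
    · have h1 : U = {t} := eq_singleton_iff_unique_mem.2 ⟨ht, fun t' ht' => by
        have h2 := pd_inj (hpr t' ht') (hpr t ht) ((hd t' ht').1.trans (hd t ht).1.symm)
        have h3 := congrArg (fun s => erase s q) h2
        rwa [erase_insert fun h => notMem_erase q _ (hsub t' ht' h),
          erase_insert fun h => notMem_erase q _ (hsub t ht h)] at h3⟩
      rw [h1, sum_singleton, abs_sg, if_pos (mem_image.2 ⟨_, (hd t ht).2, (hd t ht).1⟩)]

theorem total {ε : ℕ} (hε : ε ≤ 1) (ξ : ℕ) :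
    |∑ n ∈ AA ε ξ, lamR ε ξ n - ((AA ε ξ).filter fun n => TT ε ξ n = ∅).card| ≤
      (disc ε ξ).card := by
  rw [card_filter, Nat.cast_sum, ← sum_sub_distrib]
  refine (abs_sum_le_sum_abs _ _).trans ?_
  calc ∑ n ∈ AA ε ξ, |lamR ε ξ n - ((if TT ε ξ n = ∅ then 1 else 0 : ℕ) : ℝ)|
      ≤ ∑ n ∈ AA ε ξ, (if n ∈ (disc ε ξ).image pd then (1 : ℝ) else 0) :=
        sum_le_sum fun n hn => by
          have := point hε hn
          rwa [Nat.cast_ite, Nat.cast_one, Nat.cast_zero]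
    _ = (((AA ε ξ).filter fun n => n ∈ (disc ε ξ).image pd).card : ℝ) := by
        rw [card_filter, Nat.cast_sum]
        exact sum_congr rfl fun n _ => by rw [Nat.cast_ite, Nat.cast_one, Nat.cast_zero]
    _ ≤ (disc ε ξ).card := by
        exact_mod_cast (card_le_card fun n hn => (mem_filter.1 hn).2).trans card_image_le

theorem sub_pr (ξ : ℕ) : ((AA 1 ξ).filter fun n => TT 1 ξ n = ∅) ⊆ pr 0 ξ := by
  intro n hn
  obtain ⟨hn, hT⟩ := mem_filter.1 hn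
  obtain ⟨⟨hn1, hn2⟩, hn3, hn4⟩ := mem_AA.1 hn
  have h1 : n ≠ 1 := by
    rintro rfl
    simp at hn4
  have hr := Nat.minFac_prime h1
  have h2 : ξ < n.minFac ^ 3 := by
    by_contra h
    have h3 : n.minFac ^ 3 ≤ ξ := not_lt.1 h
    have h4 : n.minFac ^ 2 ≤ ξ := (Nat.pow_le_pow_right hr.pos (by norm_num)).trans h3
    have h5 : n.minFac ∈ TT 1 ξ n := mem_TT.2 ⟨⟨hr, two_lt hn3 hr (Nat.minFac_dvd n),
      Real.le_sqrt_of_sq_le (by exact_mod_cast h4)⟩, Nat.minFac_dvd n, fun _ => h3⟩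
    rw [hT] at h5
    exact notMem_empty _ h5
  have h3 : ArithmeticFunction.cardFactors n < 3 :=
    (Nat.pow_lt_pow_iff_right hr.one_lt).1 ((pow_le (by omega) fun p hp hpn =>
      Nat.minFac_le_of_dvd hp.two_le hpn).trans_lt (hn2.trans_lt h2))
  have h4 : n.Prime := ArithmeticFunction.cardFactors_eq_one_iff_prime.1 (by omega)
  exact mem_pr.2 ⟨h4, by exact_mod_cast h4.pos, by exact_mod_cast hn2⟩

theorem pr_sub (ξ : ℕ) : pr 0 ξ ⊆
    ((AA 1 ξ).filter fun n => TT 1 ξ n = ∅) ∪ insert 2 (Icc 1 ⌊√(ξ : ℝ)⌋₊) := by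
  intro p hp
  obtain ⟨h1, -, h3⟩ := mem_pr.1 hp
  by_cases h2 : p = 2
  · exact mem_union_right _ (mem_insert.2 (Or.inl h2))
  by_cases h4 : (p : ℝ) ≤ √(ξ : ℝ)
  · exact mem_union_right _ (mem_insert_of_mem (mem_Icc.2 ⟨h1.pos, Nat.le_floor h4⟩))
  refine mem_union_left _ (mem_filter.2 ⟨mem_AA.2 ⟨⟨h1.pos, by exact_mod_cast h3⟩,
    h1.eq_two_or_odd.resolve_left h2, by rw [ArithmeticFunction.cardFactors_apply_prime h1]⟩,
    eq_empty_of_forall_notMem fun q hq => ?_⟩)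
  obtain ⟨⟨hq1, -, hq3⟩, hq4, -⟩ := mem_TT.1 hq
  rw [(Nat.prime_dvd_prime_iff_eq hq1 h1).1 hq4] at hq3
  exact h4 hq3

end EO2Aux

theorem eo2 : EO2Stmt := by
  intro ξ hξ
  constructor
  · have h := (abs_le.1 (EO2Aux.total (Nat.zero_le 1) ξ)).1
    have h0 : (0 : ℝ) ≤ (((AA 0 ξ).filter fun n => EO2Aux.TT 0 ξ n = ∅).card : ℝ) := Nat.cast_nonneg _
    linarith
  · have h := abs_le.1 (EO2Aux.total le_rfl ξ)
    have h1 : (((AA 1 ξ).filter fun n => EO2Aux.TT 1 ξ n = ∅).card : ℝ) ≤ (pr 0 ξ).card :=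
      Nat.cast_le.2 (card_le_card (EO2Aux.sub_pr ξ))
    have h2 : (pr 0 ξ).card ≤ ((AA 1 ξ).filter fun n => EO2Aux.TT 1 ξ n = ∅).card +
        (⌊√(ξ : ℝ)⌋₊ + 1) := by
      refine (card_le_card (EO2Aux.pr_sub ξ)).trans ((card_union_le _ _).trans ?_)
      refine Nat.add_le_add_left ((card_insert_le _ _).trans ?_) _
      rw [Nat.card_Icc]
      omega
    have h3 : ((pr 0 ξ).card : ℝ) ≤ ((AA 1 ξ).filter fun n => EO2Aux.TT 1 ξ n = ∅).card +
        (⌊√(ξ : ℝ)⌋₊ + 1) := by exact_mod_cast h2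
    have h4 : (⌊√(ξ : ℝ)⌋₊ : ℝ) ≤ √(ξ : ℝ) := Nat.floor_le (Real.sqrt_nonneg _)
    have h5 : 0 ≤ √(ξ : ℝ) := Real.sqrt_nonneg _
    rw [abs_le]
    constructor <;> linarith [h.1, h.2]

end Crest.Agent.R1s
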