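import Crest.Agent.R1s.Ev

/-! Row 1: elementary symmetric functions. -/

set_option autoImplicit false

namespace Crest.Agent.R1s

open Finset Filter
open Crest.Agent.R5 (pr pd ee)

namespace ESymAux

theorem dbl (W : Finset ℕ) (x : ℕ → ℝ) (n : ℕ) :
    ∑ b ∈ powersetCard n W, ∑ q ∈ W \ b, x q * ∏ r ∈ b, x r =
      ((n : ℝ) + 1) * ∑ c ∈ powersetCard (n + 1) W, ∏ r ∈ c, x r := by
  have e : ((n : ℝ) + 1) * ∑ c ∈ powersetCard (n + 1) W, ∏ r ∈ c, x r =
      ∑ c ∈ powersetCard (n + 1) W, ∑ _q ∈ c, ∏ r ∈ c, x r := by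
    rw [mul_sum]
    refine sum_congr rfl fun c hc => ?_
    rw [sum_const, (mem_powersetCard.1 hc).2, nsmul_eq_mul]
    push_cast
    ring
  rw [e, sum_sigma', sum_sigma']
  refine sum_bij' (fun p _ => ⟨insert p.2 p.1, p.2⟩) (fun p _ => ⟨p.1.erase p.2, p.2⟩) ?_ ?_ ?_ ?_ ?_
  · rintro ⟨b, q⟩ h
    simp only [mem_sigma, mem_powersetCard, Finset.mem_sdiff] at h ⊢
    obtain ⟨⟨h1, h2⟩, h3, h4⟩ := h
    exact ⟨⟨insert_subset h3 h1, by rw [card_insert_of_notMem h4, h2]⟩, mem_insert_self _ _⟩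
  · rintro ⟨c, q⟩ h
    simp only [mem_sigma, mem_powersetCard, Finset.mem_sdiff] at h ⊢
    obtain ⟨⟨h1, h2⟩, h3⟩ := h
    exact ⟨⟨(erase_subset _ _).trans h1, by rw [card_erase_of_mem h3, h2]; rfl⟩, h1 h3,
      notMem_erase _ _⟩
  · rintro ⟨b, q⟩ h
    simp only [mem_sigma, mem_powersetCard, Finset.mem_sdiff] at h
    simp [erase_insert h.2.2]
  · rintro ⟨c, q⟩ h
    simp only [mem_sigma, mem_powersetCard] at h
    simp [insert_erase h.2]
  · rintro ⟨b, q⟩ h
    simp only [mem_sigma, mem_powersetCard, Finset.mem_sdiff] at h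
    simp [prod_insert h.2.2]

end ESymAux

theorem esym : ESymStmt := by
  intro W x β n hβ hx
  induction n with
  | zero => intro _; simp
  | succ n ih =>
    intro h
    set σ : ℝ := ∑ q ∈ W, x q with hσ
    push_cast at h ⊢
    have h0 : (n : ℝ) * β ≤ σ := by nlinarith
    have ih' := ih h0
    set e : ℝ := ∑ b ∈ powersetCard n W, ∏ q ∈ b, x q with he
    have h1 : (σ - n * β) * e ≤ ((n : ℝ) + 1) * ∑ c ∈ powersetCard (n + 1) W, ∏ r ∈ c, x r := by
      rw [← ESymAux.dbl, he, mul_sum]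
      refine sum_le_sum fun b hb => ?_
      obtain ⟨b1, b2⟩ := mem_powersetCard.1 hb
      rw [← sum_mul]
      refine mul_le_mul_of_nonneg_right ?_ (prod_nonneg fun r hr => (hx r (b1 hr)).1)
      have a1 : ∑ q ∈ W \ b, x q + ∑ q ∈ b, x q = σ := sum_sdiff b1
      have a2 : ∑ q ∈ b, x q ≤ n * β := by
        have := sum_le_card_nsmul b x β fun r hr => (hx r (b1 hr)).2
        rwa [b2, nsmul_eq_mul] at this
      linarith
    have hf : (0 : ℝ) < n.factorial := by exact_mod_cast n.factorial_pos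
    have hn : (0 : ℝ) < (n : ℝ) + 1 := by positivity
    have h2 : (σ - ((n : ℝ) + 1) * β) ^ (n + 1) ≤ (σ - n * β) ^ (n + 1) :=
      pow_le_pow_left₀ (by linarith) (by nlinarith) _
    have h3 : (σ - n * β) * ((σ - n * β) ^ n / n.factorial) ≤ (σ - n * β) * e :=
      mul_le_mul_of_nonneg_left ih' (by linarith)
    rw [Nat.factorial_succ]
    push_cast
    rw [div_le_iff₀ (by positivity)]
    have h4 : (σ - n * β) ^ (n + 1) = (σ - n * β) * ((σ - n * β) ^ n / n.factorial) * n.factorial := by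
      field_simp
      ring
    calc (σ - ((n : ℝ) + 1) * β) ^ (n + 1) ≤ (σ - n * β) ^ (n + 1) := h2
      _ = _ := h4
      _ ≤ (((n : ℝ) + 1) * ∑ c ∈ powersetCard (n + 1) W, ∏ r ∈ c, x r) * n.factorial :=
        mul_le_mul_of_nonneg_right (h3.trans h1) hf.le
      _ = _ := by ring

end Crest.Agent.R1s
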