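import Crest.Agent.R1s.Ev

/-! Row 1: the error sum over the support. -/

set_option autoImplicit false

namespace Crest.Agent.R1s

open Finset Filter
open Crest.Agent.R5 (pr pd ee)

namespace ErrAux

theorem summ {r : ℝ} (h0 : 0 ≤ r) (h1 : r < 1) :
    Summable (fun j : ℕ => ((j : ℝ) + 1) ^ 2 * r ^ j) := by
  have h : ‖r‖ < 1 := by rwa [Real.norm_of_nonneg h0]
  have a := summable_pow_mul_geometric_of_norm_lt_one 2 h
  have b := summable_pow_mul_geometric_of_norm_lt_one 1 h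
  have c := summable_pow_mul_geometric_of_norm_lt_one 0 h
  exact ((a.add (b.mul_left 2)).add c).congr (fun j => by ring)

theorem empty_term {δ : ℝ} (hδ : 0 < δ) {x : ℝ} (hx : 2 ≤ x) :
    x ^ (1 - δ) ≤ (2 / δ) ^ 2 * x / Real.log x ^ 2 := by
  have hx0 : 0 < x := by linarith
  have hL : 0 < Real.log x := Real.log_pos (by linarith)
  have h1 : Real.log x ≤ x ^ (δ / 2) / (δ / 2) := Real.log_le_rpow_div hx0.le (by linarith)
  have h2 : Real.log x ^ 2 ≤ (2 / δ) ^ 2 * x ^ δ := by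
    calc Real.log x ^ 2 ≤ (x ^ (δ / 2) / (δ / 2)) ^ 2 := by gcongr
      _ = (2 / δ) ^ 2 * (x ^ (δ / 2) * x ^ (δ / 2)) := by field_simp
      _ = (2 / δ) ^ 2 * x ^ δ := by rw [← Real.rpow_add hx0]; ring_nf
  rw [le_div_iff₀ (by positivity)]
  calc x ^ (1 - δ) * Real.log x ^ 2 ≤ x ^ (1 - δ) * ((2 / δ) ^ 2 * x ^ δ) := by gcongr
    _ = (2 / δ) ^ 2 * (x ^ (1 - δ) * x ^ δ) := by ring
    _ = (2 / δ) ^ 2 * x := by rw [← Real.rpow_add hx0]; simp

theorem term_le {δ : ℝ} (hδ : 0 < δ) {x : ℝ} {j : ℕ} (hx : (2 : ℝ) ^ j ≤ x) :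
    x ^ (1 - δ) ≤ x * ((2 : ℝ) ^ (-δ)) ^ j := by
  have h2 : (0 : ℝ) < 2 ^ j := by positivity
  have hx0 : 0 < x := lt_of_lt_of_le h2 hx
  have e1 : x ^ (1 - δ) = x * x ^ (-δ) := by
    rw [sub_eq_add_neg, Real.rpow_add hx0, Real.rpow_one]
  have e2 : ((2 : ℝ) ^ (-δ)) ^ j = ((2 : ℝ) ^ j) ^ (-δ) := by
    rw [← Real.rpow_natCast, ← Real.rpow_mul (by norm_num), ← Real.rpow_natCast,
      ← Real.rpow_mul (by norm_num), mul_comm]
  rw [e1, e2]
  gcongr x * ?_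
  exact Real.rpow_le_rpow_of_nonpos h2 hx (by linarith)

end ErrAux

open ErrAux in
theorem errOK : SBStmt → ErrStmt := by
  rintro ⟨K, hK, hSB⟩ δ hδ _
  set r : ℝ := (2 : ℝ) ^ (-δ) with hr
  have hr0 : 0 ≤ r := by positivity
  have hr1 : r < 1 := Real.rpow_lt_one_of_one_lt_of_neg (by norm_num) (by linarith)
  have hsum := summ hr0 hr1
  set S : ℝ := ∑' j : ℕ, ((j : ℝ) + 1) ^ 2 * r ^ j with hS
  have hS0 : 0 ≤ S := tsum_nonneg (fun j => by positivity)
  have hl2 : 0 < Real.log 2 := Real.log_pos (by norm_num)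
  refine ⟨(2 / δ) ^ 2 + K * Real.log 2 * S, by positivity, fun ε ξ hε hξ => ?_⟩
  have hξR : (2 : ℝ) ≤ ξ := by exact_mod_cast hξ
  have hξ0 : (0 : ℝ) < ξ := by linarith
  have hL : 0 < Real.log ξ := Real.log_pos (by linarith)
  set T := RR ε ξ (√(ξ : ℝ)) with hT
  have hpr : ∀ d ∈ T, ∀ p ∈ d, p.Prime ∧ 2 < p := fun d hd p hp =>
    ⟨((mem_RR.1 hd).1 p hp).1, ((mem_RR.1 hd).1 p hp).2.1⟩
  have hpos : ∀ d ∈ T, 0 < pd d := fun d hd => pd_pos (fun p hp => (hpr d hd p hp).1)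
  have hle : ∀ d ∈ T, pd d ≤ ξ := fun d hd => pd_le_of_RR_sqrt hε (by omega) hd
  rw [← sum_filter_add_sum_filter_not T (fun d => d = ∅)]
  have h1 : ∑ d ∈ T.filter (fun d => d = ∅), ((ξ : ℝ) / pd d) ^ (1 - δ) ≤
      (2 / δ) ^ 2 * ξ / Real.log ξ ^ 2 := by
    calc ∑ d ∈ T.filter (fun d => d = ∅), ((ξ : ℝ) / pd d) ^ (1 - δ)
        ≤ ∑ d ∈ ({∅} : Finset (Finset ℕ)), ((ξ : ℝ) / pd d) ^ (1 - δ) := by
          refine sum_le_sum_of_subset_of_nonneg (fun d hd => ?_) (fun d _ _ => by positivity)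
          simpa using (mem_filter.1 hd).2
      _ = (ξ : ℝ) ^ (1 - δ) := by simp [pd_empty]
      _ ≤ _ := empty_term hδ hξR
  have h2 : ∑ d ∈ T.filter (fun d => ¬ d = ∅), ((ξ : ℝ) / pd d) ^ (1 - δ) ≤
      K * Real.log 2 * S * ξ / Real.log ξ ^ 2 := by
    have hmap : ∀ d ∈ T.filter (fun d => ¬ d = ∅), Nat.log 2 (ξ / pd d) ∈ range (ξ + 1) := by
      intro d _
      have := Nat.log_le_self 2 (ξ / pd d)
      have := Nat.div_le_self ξ (pd d)
      exact mem_range.2 (by omega)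
    rw [← sum_fiberwise_of_maps_to hmap]
    have hfib : ∀ j ∈ range (ξ + 1),
        ∑ d ∈ (T.filter (fun d => ¬ d = ∅)).filter (fun d => Nat.log 2 (ξ / pd d) = j),
          ((ξ : ℝ) / pd d) ^ (1 - δ) ≤
        K * Real.log 2 * ξ / Real.log ξ ^ 2 * (((j : ℝ) + 1) ^ 2 * r ^ j) := by
      intro j _
      set Y : ℝ := ξ / 2 ^ (j + 1) with hY
      have hwin : ∀ d ∈ (T.filter (fun d => ¬ d = ∅)).filter (fun d => Nat.log 2 (ξ / pd d) = j),
          d ∈ T ∧ (2 : ℝ) ^ j ≤ ξ / pd d ∧ Y < pd d ∧ (pd d : ℝ) ≤ 2 * Y ∧ 1 ≤ Y := by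
        intro d hd
        obtain ⟨hd1, hj⟩ := mem_filter.1 hd
        obtain ⟨hdT, hne⟩ := mem_filter.1 hd1
        have hp := hpos d hdT
        have hpR : (0 : ℝ) < pd d := by exact_mod_cast hp
        have hq : ξ / pd d ≠ 0 := (Nat.div_pos (hle d hdT) hp).ne'
        have a1 : 2 ^ j ≤ ξ / pd d := hj ▸ Nat.pow_log_le_self 2 hq
        have a2 : ξ / pd d < 2 ^ (j + 1) := hj ▸ Nat.lt_pow_succ_log_self (by norm_num) _
        have b1 : 2 ^ j * pd d ≤ ξ := (Nat.le_div_iff_mul_le hp).1 a1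
        have b2 : ξ < 2 ^ (j + 1) * pd d := (Nat.div_lt_iff_lt_mul hp).1 a2
        have c1 : (2 : ℝ) ^ j * pd d ≤ ξ := by exact_mod_cast b1
        have c2 : (ξ : ℝ) < 2 ^ (j + 1) * pd d := by exact_mod_cast b2
        have c3 : (pd d : ℝ) ≤ 2 * Y := by
          rw [hY, ← mul_div_assoc, le_div_iff₀ (by positivity), pow_succ]
          linarith
        obtain ⟨p, hpd⟩ := nonempty_iff_ne_empty.2 hne
        have d1 : p ≤ pd d := le_pd (fun p hp => (hpr d hdT p hp).1) hpd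
        have d2 := (hpr d hdT p hpd).2
        have d3 : (3 : ℝ) ≤ pd d := by exact_mod_cast (by omega : 3 ≤ pd d)
        refine ⟨hdT, ?_, ?_, c3, by linarith⟩
        · rw [le_div_iff₀ hpR]; exact c1
        · rw [hY, div_lt_iff₀ (by positivity)]; linarith
      rcases eq_empty_or_nonempty
        ((T.filter (fun d => ¬ d = ∅)).filter (fun d => Nat.log 2 (ξ / pd d) = j)) with he | ⟨d₀, hd₀⟩
      · rw [he, sum_empty]; positivity
      have hY1 : 1 ≤ Y := (hwin d₀ hd₀).2.2.2.2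
      have hYξ : Y < ξ := by
        rw [hY, div_lt_iff₀ (by positivity)]
        have : (1 : ℝ) < 2 ^ (j + 1) := one_lt_pow₀ (by norm_num) (by omega)
        nlinarith
      have hsb := hSB ε ξ Y 2 hε hY1 hYξ le_rfl
      have hlog : Real.log (ξ / Y) = ((j : ℝ) + 1) * Real.log 2 := by
        have : (ξ : ℝ) / Y = 2 ^ (j + 1) := by rw [hY]; field_simp
        rw [this, Real.log_pow]; push_cast; ring
      rw [hlog] at hsb
      calc ∑ d ∈ (T.filter (fun d => ¬ d = ∅)).filter (fun d => Nat.log 2 (ξ / pd d) = j),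
            ((ξ : ℝ) / pd d) ^ (1 - δ)
          ≤ ∑ d ∈ (T.filter (fun d => ¬ d = ∅)).filter (fun d => Nat.log 2 (ξ / pd d) = j),
            ξ * r ^ j * (1 / (pd d : ℝ)) := by
            refine sum_le_sum (fun d hd => ?_)
            refine (term_le hδ (hwin d hd).2.1).trans (le_of_eq ?_)
            rw [hr]; ring
        _ ≤ ∑ d ∈ T.filter (fun d : Finset ℕ => (∀ q ∈ d, (2 : ℝ) < ((q : ℕ) : ℝ)) ∧
              Y < (pd d : ℝ) ∧ (pd d : ℝ) ≤ 2 * Y), ξ * r ^ j * (1 / (pd d : ℝ)) := by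
            refine sum_le_sum_of_subset_of_nonneg (fun d hd => ?_) (fun d _ _ => by positivity)
            obtain ⟨e1, _, e3, e4, _⟩ := hwin d hd
            refine mem_filter.2 ⟨e1, fun q hq => ?_, e3, e4⟩
            exact_mod_cast (hpr d e1 q hq).2
        _ ≤ ξ * r ^ j * (K * (((j : ℝ) + 1) * Real.log 2) ^ 2 /
              (Real.log 2 * Real.log ξ ^ 2)) := by
            rw [← mul_sum]
            gcongr
        _ = _ := by field_simp
    refine (sum_le_sum hfib).trans ?_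
    rw [← mul_sum]
    calc K * Real.log 2 * ξ / Real.log ξ ^ 2 * ∑ j ∈ range (ξ + 1), ((j : ℝ) + 1) ^ 2 * r ^ j
        ≤ K * Real.log 2 * ξ / Real.log ξ ^ 2 * S := by
          gcongr
          exact hsum.sum_le_tsum _ (fun j _ => by positivity)
      _ = _ := by ring
  calc _ ≤ (2 / δ) ^ 2 * ξ / Real.log ξ ^ 2 + K * Real.log 2 * S * ξ / Real.log ξ ^ 2 :=
        add_le_add h1 h2
    _ = _ := by ring

end Crest.Agent.R1s
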