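import Crest.Agent.R1s.Ev

/-! Row 1: the telescoping weight. -/

set_option autoImplicit false

namespace Crest.Agent.R1s

open Finset Filter
open Crest.Agent.R5 (pr pd ee)

namespace EtaAux

lemma eta_pos (ζ : ℝ) : 0 < eta ζ :=
  prod_pos fun p _ => by positivity

lemma eta_split {ζ Y : ℝ} (h0 : 0 ≤ ζ) (h : ζ ≤ Y) :
    eta Y = eta ζ * ∏ q ∈ pr ζ Y, (1 + 8 / (q : ℝ))⁻¹ := by
  unfold eta
  rw [← prod_union]
  · congr 1
    ext p
    simp only [mem_union, mem_pr]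
    constructor
    · rintro ⟨a, b, c⟩
      rcases le_or_gt (p : ℝ) ζ with d | d
      · exact Or.inl ⟨a, b, d⟩
      · exact Or.inr ⟨a, d, c⟩
    · rintro (⟨a, b, c⟩ | ⟨a, b, c⟩)
      · exact ⟨a, b, c.trans h⟩
      · exact ⟨a, h0.trans_lt b, c⟩
  · rw [disjoint_left]
    intro p a b
    exact absurd (mem_pr.1 a).2.2 (not_le.2 (mem_pr.1 b).2.1)

lemma tele {ζ : ℝ} (h0 : 0 ≤ ζ) (n : ℕ) :
    8 * ∑ p ∈ pr ζ n, eta p / p + eta ζ * ∏ q ∈ pr ζ n, (1 + 8 / (q : ℝ))⁻¹ = eta ζ := by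
  induction n with
  | zero =>
    have : pr ζ ((0 : ℕ) : ℝ) = ∅ := by
      refine eq_empty_of_forall_notMem fun p hp => ?_
      obtain ⟨a, -, c⟩ := mem_pr.1 hp
      have : p ≤ 0 := by exact_mod_cast c
      exact absurd a.pos (by omega)
    rw [this]; simp
  | succ n ih =>
    by_cases h : (n + 1).Prime ∧ ζ < ((n + 1 : ℕ) : ℝ)
    · have hn : n + 1 ∉ pr ζ n := fun hm => by
        have : n + 1 ≤ n := by exact_mod_cast (mem_pr.1 hm).2.2
        omega
      have e : pr ζ ((n + 1 : ℕ) : ℝ) = insert (n + 1) (pr ζ n) := by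
        ext p
        simp only [mem_insert, mem_pr, Nat.cast_le]
        constructor
        · rintro ⟨a, b, c⟩
          rcases c.eq_or_lt with d | d
          · exact Or.inl d
          · exact Or.inr ⟨a, b, by omega⟩
        · rintro (rfl | ⟨a, b, c⟩)
          · exact ⟨h.1, h.2, le_rfl⟩
          · exact ⟨a, b, by omega⟩
      have e2 := eta_split h0 h.2.le
      rw [e] at e2 ⊢
      rw [prod_insert hn] at e2 ⊢
      rw [sum_insert hn, e2]
      have hp : (0 : ℝ) < ((n + 1 : ℕ) : ℝ) := by positivity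
      generalize ((n + 1 : ℕ) : ℝ) = x at *
      have e3 : 8 * ((1 + 8 / x)⁻¹ / x) + (1 + 8 / x)⁻¹ = 1 := by field_simp; ring
      linear_combination ih + eta ζ * (∏ q ∈ pr ζ n, (1 + 8 / (q : ℝ))⁻¹) * e3
    · have e : pr ζ ((n + 1 : ℕ) : ℝ) = pr ζ n := by
        ext p
        simp only [mem_pr, Nat.cast_le]
        constructor
        · rintro ⟨a, b, c⟩
          rcases c.eq_or_lt with d | d
          · subst d; exact absurd ⟨a, b⟩ h
          · exact ⟨a, b, by omega⟩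
        · rintro ⟨a, b, c⟩
          exact ⟨a, b, by omega⟩
      rw [e, ih]

lemma eta_le (ζ : ℝ) : eta ζ ≤ Real.exp (-∑ p ∈ pr 0 ζ, 1 / (p : ℝ)) := by
  rw [← sum_neg_distrib, Real.exp_sum]
  refine prod_le_prod (fun p _ => by positivity) fun p hp => ?_
  have h2 : (2 : ℝ) ≤ p := by exact_mod_cast (mem_pr.1 hp).1.two_le
  have h1 : 1 / (p : ℝ) ≤ 1 / 2 := by gcongr
  have h0 : 0 < 1 / (p : ℝ) := by positivity
  have e : 8 / (p : ℝ) = 8 * (1 / p) := by ring
  rw [e]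
  generalize 1 / (p : ℝ) = x at *
  refine le_trans ?_ (Real.add_one_le_exp (-x))
  rw [inv_le_iff_one_le_mul₀ (by positivity)]
  nlinarith

lemma le_eta (ζ : ℝ) : Real.exp (-(8 * ∑ p ∈ pr 0 ζ, 1 / (p : ℝ))) ≤ eta ζ := by
  rw [mul_sum, ← sum_neg_distrib, Real.exp_sum]
  refine prod_le_prod (fun p _ => by positivity) fun p _ => ?_
  rw [Real.exp_neg, mul_one_div]
  refine inv_anti₀ (by positivity) ?_
  linarith [Real.add_one_le_exp (8 / (p : ℝ))]

end EtaAux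

theorem etaOK : EtaStmt := by
  refine ⟨EtaAux.eta_pos, fun ζ Y h0 => ?_, ?_⟩
  · have e : pr ζ Y = pr ζ (⌊Y⌋₊ : ℕ) := by simp [pr]
    have h1 := EtaAux.tele h0 ⌊Y⌋₊
    have h2 : 0 ≤ eta ζ * ∏ q ∈ pr ζ (⌊Y⌋₊ : ℕ), (1 + 8 / (q : ℝ))⁻¹ :=
      mul_nonneg (EtaAux.eta_pos ζ).le (prod_nonneg fun p _ => by positivity)
    rw [e]
    linarith
  · obtain ⟨C, hC, h⟩ := recip_le
    refine ⟨Real.exp (8 * C), Real.exp_pos _, fun ζ hζ => ?_⟩
    have l0 : 0 < Real.log ζ := Real.log_pos (by linarith)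
    obtain ⟨h1, h2⟩ := abs_le.1 (h ζ hζ)
    constructor
    · refine (EtaAux.eta_le ζ).trans ?_
      rw [← Real.exp_log l0, ← Real.exp_sub]
      exact Real.exp_le_exp.2 (by linarith)
    · refine le_trans ?_ (mul_le_mul_of_nonneg_left (EtaAux.le_eta ζ) (Real.exp_pos _).le)
      have e : 1 / Real.log ζ ^ 8 = Real.exp (-(8 * Real.log (Real.log ζ))) := by
        rw [Real.exp_neg, show (8 : ℝ) = ((8 : ℕ) : ℝ) by norm_num, Real.exp_nat_mul,
          Real.exp_log l0, one_div]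
      rw [e, ← Real.exp_add]
      exact Real.exp_le_exp.2 (by linarith)

end Crest.Agent.R1s
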