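import Crest.Agent.R1s.Ev

/-! Row 1: almost disjoint families of primes. -/

set_option autoImplicit false

namespace Crest.Agent.R1s

open Finset Filter
open Crest.Agent.R5 (pr pd ee)

namespace FamAux

theorem mass_le {T : Finset ℕ} {y ν : ℝ} (hy : 1 < y) (hT : ∀ p ∈ T, p.Prime ∧ y < (p : ℝ))
    {w : ℤ} (hw : w ≠ 0) (hd : ∀ p ∈ T, (p : ℤ) ∣ w) (hle : |(w : ℝ)| ≤ y ^ ν) :
    ∑ p ∈ T, 1 / (p : ℝ) ≤ ν / y := by
  have hy0 : 0 < y := by linarith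
  have h1 : ((pd T : ℕ) : ℤ) ∣ w := (pd_dvd_iff_int fun p hp => (hT p hp).1).2 hd
  have h2 : ((pd T : ℕ) : ℝ) ≤ |(w : ℝ)| := by
    have := Int.le_of_dvd (abs_pos.2 hw) ((dvd_abs _ _).2 h1)
    exact_mod_cast this
  have h3 : y ^ T.card ≤ ((pd T : ℕ) : ℝ) := by
    rw [pd, Nat.cast_prod, ← prod_const]
    exact prod_le_prod (fun _ _ => hy0.le) fun p hp => (hT p hp).2.le
  have h4 : (T.card : ℝ) ≤ ν := by
    have : y ^ (T.card : ℝ) ≤ y ^ ν := by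
      rw [Real.rpow_natCast]
      linarith
    exact (Real.rpow_le_rpow_left_iff hy).1 this
  calc ∑ p ∈ T, 1 / (p : ℝ) ≤ ∑ _p ∈ T, 1 / y :=
        sum_le_sum fun p hp => one_div_le_one_div_of_le hy0 (hT p hp).2.le
    _ = T.card / y := by rw [sum_const, nsmul_eq_mul, mul_one_div]
    _ ≤ ν / y := div_le_div_of_nonneg_right h4 hy0.le

theorem det_ne {ρ ρ' : ℕ × ℤ} (h : 1 ≤ ρ.1 ∧ Int.gcd ρ.2 ρ.1 = 1)
    (h' : 1 ≤ ρ'.1 ∧ Int.gcd ρ'.2 ρ'.1 = 1) (hne : ρ ≠ ρ') :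
    (ρ'.1 : ℤ) * ρ.2 - ρ.1 * ρ'.2 ≠ 0 := by
  intro h0
  have e : (ρ'.1 : ℤ) * ρ.2 = ρ.1 * ρ'.2 := by linarith
  have c1 : IsCoprime ρ.2 (ρ.1 : ℤ) := Int.isCoprime_iff_gcd_eq_one.2 h.2
  have c2 : IsCoprime ρ'.2 (ρ'.1 : ℤ) := Int.isCoprime_iff_gcd_eq_one.2 h'.2
  have d1 : (ρ.1 : ℤ) ∣ ρ'.1 := c1.symm.dvd_of_dvd_mul_right ⟨_, e⟩
  have d2 : (ρ'.1 : ℤ) ∣ ρ.1 := c2.symm.dvd_of_dvd_mul_right ⟨_, e.symm⟩
  have q : ρ.1 = ρ'.1 :=
    Nat.dvd_antisymm (Int.natCast_dvd_natCast.1 d1) (Int.natCast_dvd_natCast.1 d2)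
  apply hne
  refine Prod.ext q ?_
  rw [← q] at e
  have : (ρ.1 : ℤ) ≠ 0 := by have := h.1; omega
  exact mul_left_cancel₀ this e

theorem card_le_offDiag {α : Type*} (s : Finset α) : (s.card : ℝ) ≤ 1 + s.offDiag.card := by
  rw [offDiag_card]
  have : s.card ≤ 1 + (s.card * s.card - s.card) := by
    rcases Nat.lt_or_ge s.card 2 with h | h
    · omega
    · have : 2 * s.card ≤ s.card * s.card := Nat.mul_le_mul_right _ h
      omega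
  exact_mod_cast this

end FamAux

theorem famOK : FamStmt := by
  classical
  intro N S 𝒞 y H ν hy hν hS h𝒞 hH hHy
  have hy0 : 0 < y := by linarith
  have key : ∀ π ∈ 𝒞.offDiag, ∑ p ∈ S.filter (fun p : ℕ =>
      (p : ℤ) ∣ π.1.1 * N + π.1.2 ∧ (p : ℤ) ∣ π.2.1 * N + π.2.2), 1 / (p : ℝ) ≤ ν / y := by
    rintro ⟨ρ, ρ'⟩ hπ
    obtain ⟨h1, h2, h3⟩ := mem_offDiag.1 hπ
    refine FamAux.mass_le hy (fun p hp => hS p (mem_filter.1 hp).1)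
      (FamAux.det_ne (h𝒞 _ h1) (h𝒞 _ h2) h3) (fun p hp => ?_) ?_
    · obtain ⟨-, d1, d2⟩ := mem_filter.1 hp
      have : (ρ'.1 : ℤ) * ρ.2 - ρ.1 * ρ'.2 =
          ρ'.1 * (ρ.1 * N + ρ.2) - ρ.1 * (ρ'.1 * N + ρ'.2) := by ring
      rw [this]
      exact (d1.mul_left _).sub (d2.mul_left _)
    · have a1 := hH _ h2 _ h1
      have a2 := hH _ h1 _ h2
      push_cast
      refine (abs_sub _ _).trans ?_
      rw [abs_mul, abs_mul, Nat.abs_cast, Nat.abs_cast]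
      linarith
  calc ∑ ρ ∈ 𝒞, ∑ p ∈ S.filter (fun p : ℕ => (p : ℤ) ∣ ρ.1 * N + ρ.2), 1 / (p : ℝ)
      = ∑ p ∈ S, ((𝒞.filter fun ρ => (p : ℤ) ∣ ρ.1 * N + ρ.2).card : ℝ) * (1 / (p : ℝ)) := by
        simp only [sum_filter]
        rw [sum_comm]
        refine sum_congr rfl fun p _ => ?_
        rw [← sum_filter, sum_const, nsmul_eq_mul]
    _ ≤ ∑ p ∈ S, (1 + ((𝒞.offDiag.filter fun π => (p : ℤ) ∣ π.1.1 * N + π.1.2 ∧
          (p : ℤ) ∣ π.2.1 * N + π.2.2).card : ℝ)) * (1 / (p : ℝ)) := by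
        refine sum_le_sum fun p _ => mul_le_mul_of_nonneg_right ?_ (by positivity)
        refine (FamAux.card_le_offDiag _).trans (le_of_eq ?_)
        congr 3
        ext π
        simp only [mem_offDiag, mem_filter]
        tauto
    _ = ∑ p ∈ S, 1 / (p : ℝ) + ∑ π ∈ 𝒞.offDiag, ∑ p ∈ S.filter (fun p : ℕ =>
          (p : ℤ) ∣ π.1.1 * N + π.1.2 ∧ (p : ℤ) ∣ π.2.1 * N + π.2.2), 1 / (p : ℝ) := by
        simp only [add_mul, one_mul, sum_add_distrib, sum_filter]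
        congr 1
        rw [sum_comm]
        refine sum_congr rfl fun p _ => ?_
        rw [← sum_filter, sum_const, nsmul_eq_mul]
    _ ≤ ∑ p ∈ S, 1 / (p : ℝ) + (𝒞.card : ℝ) ^ 2 * ν / y := by
        gcongr
        refine (sum_le_sum key).trans ?_
        rw [sum_const, nsmul_eq_mul, mul_div_assoc]
        refine mul_le_mul_of_nonneg_right ?_ (by positivity)
        rw [offDiag_card, sq]
        exact_mod_cast Nat.sub_le _ _

end Crest.Agent.R1s
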