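import Crest.Agent.R1s.Ev

/-! Row 1: finite Fourier expansion of the remainder. -/

set_option autoImplicit false

namespace Crest.Agent.R1s

open Finset Filter
open Crest.Agent.R5 (pr pd ee)

namespace FourAux

theorem norm_ee (x : ℝ) : ‖ee x‖ = 1 := Complex.norm_exp_ofReal_mul_I _

theorem ee_add (x y : ℝ) : ee (x + y) = ee x * ee y := by
  unfold ee
  rw [← Complex.exp_add]
  congr 1
  push_cast
  ring

theorem ee_int (z : ℤ) : ee z = 1 := by
  unfold ee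
  rw [← Complex.exp_int_mul_two_pi_mul_I z]
  congr 1
  push_cast
  ring

theorem ee_nat_mul (m : ℕ) (x : ℝ) : ee (m * x) = ee x ^ m := by
  unfold ee
  rw [← Complex.exp_nat_mul]
  congr 1
  push_cast
  ring

theorem ee_ne_one {n : ℤ} {d : ℕ} (hd : 1 ≤ d) (h : ¬ (d : ℤ) ∣ n) : ee ((n : ℝ) / d) ≠ 1 := by
  intro h1
  unfold ee at h1
  obtain ⟨k, hk⟩ := Complex.exp_eq_one_iff.1 h1
  have h2 := congrArg Complex.im hk
  have hd0 : (d : ℝ) ≠ 0 := by positivity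
  have h3 : 2 * Real.pi * ((n : ℝ) / d) = k * (2 * Real.pi) := by
    simpa using h2
  have h4 : (n : ℝ) / d = k := by
    have h5 : (2 * Real.pi) ≠ 0 := by positivity
    apply mul_left_cancel₀ h5
    rw [h3, mul_comm]
  rw [div_eq_iff hd0] at h4
  have h5 : n = k * d := by exact_mod_cast h4
  exact h ⟨k, by rw [h5, mul_comm]⟩

theorem ind (n a : ℤ) {d : ℕ} (hd : 1 ≤ d) :
    ∑ h ∈ Ico a (a + d), ee ((h : ℝ) * n / d) = if (d : ℤ) ∣ n then (d : ℂ) else 0 := by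
  have hd0 : (d : ℝ) ≠ 0 := by positivity
  split_ifs with h
  · obtain ⟨c, rfl⟩ := h
    have h1 : ∀ h ∈ Ico a (a + d), ee ((h : ℝ) * ((d * c : ℤ) : ℝ) / d) = 1 := by
      intro h _
      rw [← ee_int (h * c)]
      congr 1
      push_cast
      field_simp
    rw [sum_congr rfl h1, sum_const, Int.card_Ico, add_sub_cancel_left, Int.toNat_natCast,
      nsmul_eq_mul, mul_one]
  · rw [Int.Ico_eq_finset_map, sum_map, add_sub_cancel_left, Int.toNat_natCast]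
    have h1 : ∀ k ∈ range d,
        ee ((((Nat.castEmbedding.trans (addLeftEmbedding a)) k : ℤ) : ℝ) * n / d) =
          ee ((a : ℝ) * n / d) * ee ((n : ℝ) / d) ^ k := by
      intro k _
      rw [← ee_nat_mul, ← ee_add]
      congr 1
      show (((a + (k : ℤ) : ℤ)) : ℝ) * n / d = _
      push_cast
      ring
    have h2 : ee ((n : ℝ) / d) ^ d = 1 := by
      rw [← ee_nat_mul, ← ee_int n]
      congr 1
      field_simp
    rw [sum_congr rfl h1, ← mul_sum, geom_sum_eq (ee_ne_one hd h), h2, sub_self, zero_div, mul_zero]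

theorem geom_le (M : ℕ) {x : ℝ} (h0 : x ≠ 0) (h : |x| ≤ 1 / 2) :
    ‖∑ u ∈ range M, ee (u * x)‖ ≤ 1 / (2 * |x|) := by
  have hpi := Real.pi_pos
  have hx : 0 < |x| := abs_pos.2 h0
  have h1 : 4 * |x| ≤ ‖ee x - 1‖ := by
    have h3 : ee x = Complex.exp (Complex.I * ((2 * Real.pi * x : ℝ) : ℂ)) := by
      rw [ee, mul_comm]
    have h4 : |Real.pi * x| = Real.pi * |x| := by rw [abs_mul, abs_of_pos hpi]
    have h5 := Real.mul_abs_le_abs_sin (x := Real.pi * x) (by rw [h4]; nlinarith)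
    rw [h3, Complex.norm_exp_I_mul_ofReal_sub_one, show 2 * Real.pi * x / 2 = Real.pi * x by ring,
      Real.norm_eq_abs, abs_mul, abs_two]
    rw [h4, show 2 / Real.pi * (Real.pi * |x|) = 2 * |x| by field_simp] at h5
    linarith
  have h2 : ee x ≠ 1 := fun h0 => by
    rw [h0, sub_self, norm_zero] at h1
    linarith
  simp only [ee_nat_mul]
  rw [geom_sum_eq h2, norm_div, div_le_div_iff₀ (by linarith) (by linarith)]
  have h3 : ‖ee x ^ M - 1‖ ≤ 2 := by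
    refine (norm_sub_le _ _).trans ?_
    rw [norm_pow, norm_ee, one_pow, norm_one]
    norm_num
  nlinarith

theorem cnt_eq (N a : ℤ) (M : ℕ) {d : ℕ} (hd : 1 ≤ d) :
    (cnt N M d : ℂ) = ∑ h ∈ Ico a (a + d), wh M (h / d) * ee (h * N / d) / d := by
  have hd0 : (d : ℂ) ≠ 0 := by
    have : d ≠ 0 := by omega
    exact_mod_cast this
  have h1 : (((range M ×ˢ range M).filter (fun x => (d : ℤ) ∣ N + x.1 + x.2)).card : ℂ) =
      ∑ x ∈ range M ×ˢ range M,
        (∑ h ∈ Ico a (a + d), ee ((h : ℝ) * ((N + x.1 + x.2 : ℤ) : ℝ) / d)) / d := by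
    rw [card_filter]
    push_cast [Nat.cast_ite]
    refine sum_congr rfl fun x _ => ?_
    have h2 := ind (N + x.1 + x.2) a hd
    push_cast at h2
    rw [h2]
    split_ifs
    · rw [div_self hd0]
    · rw [zero_div]
  have h2 : (cnt N M d : ℂ) =
      (((range M ×ˢ range M).filter (fun x => (d : ℤ) ∣ N + x.1 + x.2)).card : ℂ) / M := by
    unfold cnt
    push_cast
    rfl
  rw [h2, h1, ← sum_div, sum_comm, sum_div, sum_div]
  refine sum_congr rfl fun h _ => ?_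
  have h3 : ∑ x ∈ range M ×ˢ range M, ee ((h : ℝ) * ((N + x.1 + x.2 : ℤ) : ℝ) / d) =
      (∑ u ∈ range M, ee (u * ((h : ℝ) / d))) ^ 2 * ee (h * N / d) := by
    rw [sq, sum_mul_sum, sum_mul, sum_product]
    refine sum_congr rfl fun u _ => ?_
    rw [sum_mul]
    refine sum_congr rfl fun v _ => ?_
    rw [← ee_add, ← ee_add]
    congr 1
    push_cast
    ring
  rw [h3, wh]
  ring

theorem term_le (N h : ℤ) {M d : ℕ} (hM : 1 ≤ M) (hd : 1 ≤ d) (h0 : h ≠ 0) (h1 : 2 * |h| ≤ d) :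
    ‖wh M (h / d) * ee (h * N / d) / d‖ ≤ (d : ℝ) / (4 * M) * ((h : ℝ) ^ 2)⁻¹ := by
  have hd0 : (0 : ℝ) < d := by positivity
  have hM0 : (0 : ℝ) < M := by positivity
  have h0' : (h : ℝ) ≠ 0 := by exact_mod_cast h0
  have hh : 0 < |(h : ℝ)| := abs_pos.2 h0'
  have h1' : 2 * |(h : ℝ)| ≤ d := by exact_mod_cast h1
  have h2 : |(h : ℝ) / d| = |(h : ℝ)| / d := by rw [abs_div, abs_of_pos hd0]
  have h3 := geom_le M (div_ne_zero h0' hd0.ne') (by
    rw [h2, div_le_iff₀ hd0]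
    linarith)
  rw [h2] at h3
  rw [wh, norm_div, norm_mul, norm_ee, norm_div, norm_pow, mul_one, Complex.norm_natCast,
    Complex.norm_natCast]
  have h4 := pow_le_pow_left₀ (norm_nonneg _) h3 2
  calc _ ≤ (1 / (2 * (|(h : ℝ)| / d))) ^ 2 / M / d :=
        div_le_div_of_nonneg_right (div_le_div_of_nonneg_right h4 hM0.le) hd0.le
    _ = (d : ℝ) / (4 * M) * (|(h : ℝ)| ^ 2)⁻¹ := by
        field_simp
        ring
    _ = _ := by rw [sq_abs]

theorem tail_le (S : Finset ℤ) {H d : ℕ} (hH : 1 ≤ H) (hHd : H ≤ d)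
    (hS : ∀ h ∈ S, (H : ℤ) < |h| ∧ |h| ≤ d) : ∑ h ∈ S, ((h : ℝ) ^ 2)⁻¹ ≤ 2 / H := by
  have h1 : S ⊆ (Ioc H d).image (fun k : ℕ => (k : ℤ)) ∪ (Ioc H d).image (fun k : ℕ => -(k : ℤ)) := by
    intro h hh
    obtain ⟨h2, h3⟩ := hS h hh
    have h4 : h.natAbs ∈ Ioc H d := by
      rw [mem_Ioc]
      rw [Int.abs_eq_natAbs] at h2 h3
      exact ⟨by exact_mod_cast h2, by exact_mod_cast h3⟩
    rcases Int.natAbs_eq h with h5 | h5
    · exact mem_union_left _ (mem_image.2 ⟨_, h4, h5.symm⟩)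
    · exact mem_union_right _ (mem_image.2 ⟨_, h4, h5.symm⟩)
  have h2 := sum_le_sum_of_subset_of_nonneg (f := fun h : ℤ => ((h : ℝ) ^ 2)⁻¹) h1
    (fun h _ _ => by positivity)
  have h3 := sum_union_inter (s₁ := (Ioc H d).image (fun k : ℕ => (k : ℤ)))
    (s₂ := (Ioc H d).image (fun k : ℕ => -(k : ℤ))) (f := fun h : ℤ => ((h : ℝ) ^ 2)⁻¹)
  have h4 : 0 ≤ ∑ h ∈ (Ioc H d).image (fun k : ℕ => (k : ℤ)) ∩
      (Ioc H d).image (fun k : ℕ => -(k : ℤ)), ((h : ℝ) ^ 2)⁻¹ :=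
    sum_nonneg fun h _ => by positivity
  have h5 : ∑ h ∈ (Ioc H d).image (fun k : ℕ => (k : ℤ)), ((h : ℝ) ^ 2)⁻¹ =
      ∑ k ∈ Ioc H d, ((k : ℝ) ^ 2)⁻¹ := by
    rw [sum_image fun x _ y _ h => by exact_mod_cast h]
    refine sum_congr rfl fun k _ => ?_
    rw [Int.cast_natCast]
  have h6 : ∑ h ∈ (Ioc H d).image (fun k : ℕ => -(k : ℤ)), ((h : ℝ) ^ 2)⁻¹ =
      ∑ k ∈ Ioc H d, ((k : ℝ) ^ 2)⁻¹ := by
    rw [sum_image fun x _ y _ h => by exact_mod_cast neg_injective h]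
    refine sum_congr rfl fun k _ => ?_
    rw [Int.cast_neg, Int.cast_natCast, neg_sq]
  have h7 := sum_Ioc_inv_sq_le_sub (α := ℝ) (show H ≠ 0 by omega) hHd
  have h8 : (0 : ℝ) ≤ (d : ℝ)⁻¹ := by positivity
  rw [div_eq_mul_inv]
  linarith

end FourAux

theorem fourOK : FourStmt := by
  intro N M d H hM hH hHd
  have hd : 1 ≤ d := by omega
  have hM0 : (0 : ℝ) < M := by positivity
  have hH0 : (0 : ℝ) < H := by positivity
  obtain ⟨a, ha⟩ : ∃ a : ℤ, a = -(((d : ℤ) - 1) / 2) := ⟨_, rfl⟩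
  have hsub : Icc (-(H : ℤ)) H ⊆ Ico a (a + d) := by
    intro h hh
    rw [mem_Icc] at hh
    rw [mem_Ico]
    omega
  have h0 : (0 : ℤ) ∈ Icc (-(H : ℤ)) H := by
    rw [mem_Icc]
    omega
  obtain ⟨t, ht⟩ : ∃ t : ℤ → ℂ, t = fun h : ℤ => wh M (h / d) * ee (h * N / d) / d := ⟨_, rfl⟩
  have h1 : (cnt N M d : ℂ) = ∑ h ∈ Ico a (a + d), t h := by
    rw [ht]
    exact FourAux.cnt_eq N a M hd
  have h2 : t 0 = (M : ℂ) / d := by
    have hMc : (M : ℂ) ≠ 0 := by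
      have : M ≠ 0 := by omega
      exact_mod_cast this
    have h3 : ee 0 = 1 := by
      have := FourAux.ee_int 0
      rwa [Int.cast_zero] at this
    rw [ht]
    simp only [wh, Int.cast_zero, zero_div, mul_zero, zero_mul, h3, sum_const, card_range,
      nsmul_eq_mul, mul_one]
    field_simp
  have h3 : (rem N M d : ℂ) - ∑ h ∈ (Icc (-(H : ℤ)) H).erase 0, t h =
      ∑ h ∈ Ico a (a + d) \ Icc (-(H : ℤ)) H, t h := by
    have h4 : (rem N M d : ℂ) = (cnt N M d : ℂ) - (M : ℂ) / d := by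
      unfold rem
      push_cast
      rfl
    rw [h4, h1, ← sum_sdiff hsub, ← add_sum_erase _ _ h0, h2]
    ring
  have h4 : ∀ h ∈ Ico a (a + d) \ Icc (-(H : ℤ)) H, (H : ℤ) < |h| ∧ 2 * |h| ≤ d := by
    intro h hh
    rw [Finset.mem_sdiff, Finset.mem_Ico, Finset.mem_Icc] at hh
    rcases abs_cases h with h5 | h5 <;> omega
  have h5 := FourAux.tail_le (Ico a (a + d) \ Icc (-(H : ℤ)) H) hH (show H ≤ d by omega)
    fun h hh => ⟨(h4 h hh).1, by have := (h4 h hh).2; have := abs_nonneg h; omega⟩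
  have h6 : ‖(rem N M d : ℂ) - ∑ h ∈ (Icc (-(H : ℤ)) H).erase 0, t h‖ ≤ (d : ℝ) / (M * H) := by
    rw [h3]
    calc _ ≤ ∑ h ∈ Ico a (a + d) \ Icc (-(H : ℤ)) H, ‖t h‖ := norm_sum_le _ _
      _ ≤ ∑ h ∈ Ico a (a + d) \ Icc (-(H : ℤ)) H, (d : ℝ) / (4 * M) * ((h : ℝ) ^ 2)⁻¹ := by
          refine sum_le_sum fun h hh => ?_
          rw [ht]
          refine FourAux.term_le N h hM hd ?_ (h4 h hh).2
          rintro rfl
          have := (h4 0 hh).1
          rw [abs_zero] at this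
          omega
      _ ≤ (d : ℝ) / (4 * M) * (2 / H) := by
          rw [← mul_sum]
          exact mul_le_mul_of_nonneg_left h5 (by positivity)
      _ = (d : ℝ) / (M * H) / 2 := by
          field_simp
          ring
      _ ≤ (d : ℝ) / (M * H) := half_le_self (by positivity)
  rw [ht] at h6
  exact h6

end Crest.Agent.R1s
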