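import Crest.Agent.R1s.Ev

/-! Row 1: the two main terms. -/

set_option autoImplicit false

namespace Crest.Agent.R1s

open Finset Filter
open Crest.Agent.R5 (pr pd ee)

theorem gmOK : EO1Stmt → EO2Stmt → DiscStmt → PiStmt → GMStmt := by
  rintro ⟨C1, hC1, h1⟩ h2 ⟨C2, hC2, h3⟩ ⟨C3, hC3, h4⟩
  refine ⟨4 * (C1 + C2 + C3 + 1), by positivity, ?_⟩
  filter_upwards [h3, ev_log 1, ev_loglog 1, ev_log_pow 2 2 (show (0 : ℝ) < 1 / 2 by norm_num),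
    eventually_ge_atTop 2] with ξ h3 hL hl hs hξ
  have hx : (2 : ℝ) ≤ ξ := by exact_mod_cast hξ
  have hx0 : (0 : ℝ) < ξ := by linarith
  have a1 := h1 1 ξ le_rfl hξ
  have a0 := h1 0 ξ zero_le_one hξ
  obtain ⟨b0, b1⟩ := h2 ξ hξ
  have d1 := h3 1 le_rfl
  have d0 := h3 0 zero_le_one
  have e1 := (h4 ξ hx).1
  have hG : ∑ t ∈ RR 1 ξ (√(ξ : ℝ)), sg t / pd t = GG ξ := rfl
  have hM : ∑ t ∈ RR 0 ξ (√(ξ : ℝ)), sg t / pd t = MM ξ (√(ξ : ℝ)) := rfl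
  rw [hG] at a1
  rw [hM] at a0
  rw [← Real.sqrt_eq_rpow] at hs
  generalize GG ξ = G at a1 ⊢
  generalize MM ξ (√(ξ : ℝ)) = M at a0 ⊢
  generalize ∑ n ∈ AA 1 ξ, lamR 1 ξ n = S1 at a1 b1
  generalize ∑ n ∈ AA 0 ξ, lamR 0 ξ n = S0 at a0 b0
  generalize ((disc 1 ξ).card : ℝ) = D1 at b1 d1
  generalize ((disc 0 ξ).card : ℝ) = D0 at b0 d0
  generalize ((pr 0 (ξ : ℝ)).card : ℝ) = P at b1 e1
  generalize Real.log (Real.log ξ) = l at hl d1 d0 ⊢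
  generalize Real.log ξ = L at hL hs a1 a0 d1 d0 e1 ⊢
  generalize (ξ : ℝ) = x at hx hx0 hs a1 a0 b1 d1 d0 e1 ⊢
  have hL0 : 0 < L := by linarith
  obtain ⟨W, hW⟩ : ∃ W : ℝ, W = l / L ^ 2 := ⟨_, rfl⟩
  have hW0 : 0 ≤ W := by rw [hW]; positivity
  have hU : ∀ C : ℝ, 0 ≤ C → C * x / L ^ 2 ≤ C * (x * W) := by
    intro C hC
    have h5 : 1 / L ^ 2 ≤ W := by
      rw [hW]
      exact div_le_div_of_nonneg_right hl (by positivity)
    calc C * x / L ^ 2 = C * (x * (1 / L ^ 2)) := by ring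
      _ ≤ C * (x * W) := mul_le_mul_of_nonneg_left (mul_le_mul_of_nonneg_left h5 hx0.le) hC
  have hD : C2 * x * l / L ^ 2 = C2 * (x * W) := by rw [hW]; ring
  have hsq : √x + 1 ≤ 1 * (x * W) := by
    refine le_trans ?_ (hU 1 zero_le_one)
    have h5 : 1 ≤ √x := Real.one_le_sqrt.2 (by linarith)
    have h6 : √x * √x = x := Real.mul_self_sqrt hx0.le
    rw [le_div_iff₀ (by positivity)]
    have h7 := mul_le_mul_of_nonneg_left hs (Real.sqrt_nonneg x)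
    have h8 : (√x + 1) * L ^ 2 ≤ (2 * √x) * L ^ 2 :=
      mul_le_mul_of_nonneg_right (by linarith) (by positivity)
    nlinarith
  have hgoal : 4 * (C1 + C2 + C3 + 1) * l / L ^ 2 = 4 * (C1 + C2 + C3 + 1) * W := by
    rw [hW]; ring
  rw [hD] at d1 d0
  have u1 := hU C1 hC1.le
  have u3 := hU C3 hC3.le
  have hxW : 0 ≤ x * W := mul_nonneg hx0.le hW0
  have v2 : 0 ≤ C3 * (x * W) := mul_nonneg hC3.le hxW
  obtain ⟨a11, a12⟩ := abs_le.1 a1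
  obtain ⟨a01, a02⟩ := abs_le.1 a0
  obtain ⟨b11, b12⟩ := abs_le.1 b1
  obtain ⟨e11, e12⟩ := abs_le.1 e1
  have hsplit : x * (4 * (C1 + C2 + C3 + 1) * W) =
      4 * (C1 * (x * W) + C2 * (x * W) + C3 * (x * W) + 1 * (x * W)) := by ring
  have hG4 : x * (G - 4 / L) = 4 * (x / 4 * G - x / L) := by ring
  rw [hgoal]
  refine ⟨abs_le.2 ⟨?_, ?_⟩, ?_⟩
  · refine le_of_mul_le_mul_left ?_ hx0
    rw [mul_neg, hsplit, hG4]
    linarith
  · refine le_of_mul_le_mul_left ?_ hx0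
    rw [hsplit, hG4]
    linarith
  · refine le_of_mul_le_mul_left ?_ hx0
    have h5 : x * M = 4 * (x / 4 * M) := by ring
    rw [mul_neg, hsplit, h5]
    linarith

end Crest.Agent.R1s
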