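import Crest.Agent.R1s.Ev

/-! Row 1: summing the hybrid sieve. -/

set_option autoImplicit false

namespace Crest.Agent.R1s

open Finset Filter
open Crest.Agent.R5 (pr pd ee)

namespace HybAux

open Crest.Agent.R5 (dv)

theorem cnt_eq (N : ℤ) (M d : ℕ) :
    cnt N M d = (∑ x ∈ range M ×ˢ range M, dv d (N + x.1 + x.2)) / M := by
  unfold cnt dv
  rw [card_filter]
  push_cast
  rfl

theorem sub_iff {z : ℝ} {n : ℤ} {t : Finset ℕ} (ht : ∀ p ∈ t, p.Prime ∧ 2 < p ∧ (p : ℝ) ≤ z) :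
    t ⊆ (pr 2 z).filter (fun p : ℕ => (p : ℤ) ∣ n) ↔ (pd t : ℤ) ∣ n := by
  rw [pd_dvd_iff_int (fun p hp => (ht p hp).1)]
  refine ⟨fun h p hp => (mem_filter.1 (h hp)).2, fun h p hp => mem_filter.2 ⟨?_, h p hp⟩⟩
  exact mem_pr.2 ⟨(ht p hp).1, by exact_mod_cast (ht p hp).2.1, (ht p hp).2.2⟩

theorem inner {j D₀ D : ℕ} {z y : ℝ} {𝒟 : Finset (Finset ℕ)} (h : DesOK j D₀ D z y 𝒟)
    {d : Finset ℕ} (hd : d ∈ 𝒟) {D' : ℕ} (hD : D' ≤ D) (n : ℤ) :
    ∑ e ∈ Rp (D' / pd d), sg e * dv (pd d * pd e) n =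
      if d ⊆ (pr 2 z).filter (fun p : ℕ => (p : ℤ) ∣ n) then
        ∑ e ∈ (Rp (D' / pd d)).filter
          (fun e => e ⊆ (pr 2 z).filter (fun p : ℕ => (p : ℤ) ∣ n)), sg e else 0 := by
  have hdp := (mem_RR.1 (h.mem d hd)).1
  obtain ⟨q₀, hq₀⟩ := h.nonempty hd
  have key : ∀ e ∈ Rp (D' / pd d), (((pd d * pd e : ℕ) : ℤ) ∣ n ↔
      d ⊆ (pr 2 z).filter (fun p : ℕ => (p : ℤ) ∣ n) ∧
        e ⊆ (pr 2 z).filter (fun p : ℕ => (p : ℤ) ∣ n)) := by
    intro e he
    have hlt := h.lt hd hD he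
    have hep : ∀ p ∈ e, p.Prime ∧ 2 < p ∧ (p : ℝ) ≤ z := by
      intro p hp
      have h1 := (mem_Rp.1 he).1 p hp
      refine ⟨h1.1, h1.2, ?_⟩
      have h2 : (p : ℝ) ≤ q₀ := by exact_mod_cast (hlt p hp q₀ hq₀).le
      exact h2.trans (hdp q₀ hq₀).2.2
    rw [← pd_union (disjoint_of_lt hlt), ← union_subset_iff]
    refine (sub_iff (fun p hp => ?_)).symm
    rcases mem_union.1 hp with hp | hp
    · exact hdp p hp
    · exact hep p hp
  split_ifs with hT
  · rw [sum_filter]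
    refine sum_congr rfl (fun e he => ?_)
    unfold dv
    simp only [key e he, hT, true_and]
    split_ifs <;> simp
  · refine sum_eq_zero (fun e he => ?_)
    unfold dv
    simp only [key e he, hT, false_and, if_false, mul_zero]

theorem point (H : HybPtStmt) {j D₀ D : ℕ} {z y : ℝ} {𝒟 : Finset (Finset ℕ)}
    (h : DesOK j D₀ D z y 𝒟) (n : ℤ) :
    ∑ t ∈ RR 0 D₀ z, sg t * dv (pd t) n +
      ∑ d ∈ 𝒟, (∑ e ∈ Rp (D₀ / pd d), sg e * dv (pd d * pd e) n -
        ∑ e ∈ Rp (D / pd d), sg e * dv (pd d * pd e) n) ≤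
      if ∀ p ∈ pr 2 z, ¬ (p : ℤ) ∣ n then 1 else 0 := by
  have h1 := H j D₀ D z y 𝒟 h ((pr 2 z).filter (fun p : ℕ => (p : ℤ) ∣ n)) (filter_subset _ _)
  simp only [filter_eq_empty_iff] at h1
  convert h1 using 2
  · rw [sum_filter]
    refine sum_congr rfl (fun t ht => ?_)
    unfold dv
    simp only [sub_iff (mem_RR.1 ht).1]
    split_ifs <;> simp
  · rw [sum_filter]
    refine sum_congr rfl (fun d hd => ?_)
    rw [inner h hd h.le n, inner h hd le_rfl n]
    split_ifs <;> simp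

theorem card_le (N : ℤ) (M m : ℕ) (z : ℝ) (hm : 2 * M ≤ m) :
    ((range M ×ˢ range M).filter
      (fun x : ℕ × ℕ => ∀ p ∈ pr 2 z, ¬ (p : ℤ) ∣ N + x.1 + x.2)).card ≤
      M * (surv N m z).card := by
  refine card_le_mul_card_image_of_maps_to (f := fun x : ℕ × ℕ => x.1 + x.2) ?_ M ?_
  · intro x hx
    obtain ⟨h1, h2⟩ := mem_filter.1 hx
    obtain ⟨h3, h4⟩ := mem_product.1 h1
    rw [mem_range] at h3 h4
    unfold surv
    refine mem_filter.2 ⟨mem_range.2 (by omega), fun p hp => ?_⟩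
    have := h2 p hp
    push_cast
    rwa [← add_assoc]
  · intro i _
    calc _ ≤ (range M).card := by
          refine card_le_card_of_injOn (fun x : ℕ × ℕ => x.1) ?_ ?_
          · intro x hx
            have h1 := (mem_filter.1 (mem_filter.1 (mem_coe.1 hx)).1).1
            exact mem_coe.2 (mem_product.1 h1).1
          · intro x hx x' hx' he
            have h1 := (mem_filter.1 (mem_coe.1 hx)).2
            have h2 := (mem_filter.1 (mem_coe.1 hx')).2
            simp only at he h1 h2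
            exact Prod.ext he (by omega)
      _ = M := card_range M

end HybAux

open HybAux in
theorem hybOK : HybPtStmt → HybStmt := by
  intro H j D₀ D z y 𝒟 h N M m hM hm
  have hM0 : (0 : ℝ) < M := by exact_mod_cast hM
  have h1 := sum_le_sum (s := range M ×ˢ range M) (fun x _ => point H h (N + x.1 + x.2))
  have h2 : (∑ x ∈ range M ×ˢ range M,
      (if ∀ p ∈ pr 2 z, ¬ (p : ℤ) ∣ N + x.1 + x.2 then (1 : ℝ) else 0)) ≤
      M * (surv N m z).card := by
    have h3 := card_le N M m z hm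
    rw [card_filter] at h3
    exact_mod_cast h3
  have h4 := h1.trans h2
  rw [← div_le_iff₀' hM0] at h4
  refine le_of_eq_of_le ?_ h4
  simp only [cnt_eq, ← mul_div_assoc, ← sum_div, ← sub_div, ← add_div, mul_sum]
  congr 1
  rw [sum_add_distrib, sum_comm]
  congr 1
  rw [sum_comm (s := range M ×ˢ range M)]
  refine sum_congr rfl (fun d _ => ?_)
  rw [sum_sub_distrib, sum_comm (s := range M ×ˢ range M), sum_comm (s := range M ×ˢ range M)]

end Crest.Agent.R1s
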