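import Crest.Agent.R1s.Ev

/-! Row 1: the pointwise inequality of the hybrid sieve. -/

set_option autoImplicit false

namespace Crest.Agent.R1s

open Finset Filter
open Crest.Agent.R5 (pr pd ee)

namespace HybPtAux

/-- a set is marked if one of its prefixes is designated -/
def mk (𝒟 : Finset (Finset ℕ)) (s : Finset ℕ) : Prop := ∃ q ∈ s, up s q ∈ 𝒟

instance (𝒟 : Finset (Finset ℕ)) : DecidablePred (mk 𝒟) := fun s => by
  unfold mk
  infer_instance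

/-- the level at a prefix -/
def lev (𝒟 : Finset (Finset ℕ)) (D₀ D : ℕ) (s : Finset ℕ) : ℕ := if mk 𝒟 s then D else D₀

/-- the hybrid condition -/
def hy (𝒟 : Finset (Finset ℕ)) (D₀ D : ℕ) (t : Finset ℕ) : Prop :=
  ∀ q ∈ t, (up t q).card % 2 = 0 → pd (up t q) * q ^ 2 ≤ lev 𝒟 D₀ D (up t q)

instance (𝒟 : Finset (Finset ℕ)) (D₀ D : ℕ) : DecidablePred (hy 𝒟 D₀ D) := fun s => by
  unfold hy
  infer_instance

theorem lower (𝒟 : Finset (Finset ℕ)) (D₀ D : ℕ) (T : Finset ℕ) :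
    ∑ t ∈ T.powerset.filter (hy 𝒟 D₀ D), sg t ≤ if T = ∅ then 1 else 0 := by
  rcases T.eq_empty_or_nonempty with rfl | hne
  · have h0 : hy 𝒟 D₀ D ∅ := fun q hq => absurd hq (notMem_empty q)
    rw [if_pos rfl, powerset_empty, filter_singleton, if_pos h0, sum_singleton,
      sg_of_even (by rw [card_empty])]
  · rw [if_neg hne.ne_empty]
    obtain ⟨q, hq, hmin⟩ : ∃ q ∈ T, ∀ p ∈ T, q ≤ p :=
      ⟨T.min' hne, min'_mem _ _, fun p hp => min'_le _ _ hp⟩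
    have hlt : ∀ t ⊆ T.erase q, ∀ p ∈ t, q < p := fun t ht p hp =>
      lt_of_le_of_ne (hmin p (mem_erase.1 (ht hp)).2) (mem_erase.1 (ht hp)).1.symm
    rw [tree (hy 𝒟 D₀ D) hq hmin fun t ht H p hp => by
      have h1 := H p (mem_insert_of_mem hp)
      rwa [up_insert_of_lt (hlt t ht p hp)] at h1]
    refine sum_nonpos fun t ht => ?_
    obtain ⟨ht1, ht2, ht3⟩ := mem_filter.1 ht
    have hs := mem_powerset.1 ht1
    have hqt : q ∉ t := fun h => lt_irrefl _ (hlt t hs q h)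
    have hodd : t.card % 2 = 1 := by
      by_contra hc
      refine ht3 fun p hp => ?_
      rcases mem_insert.1 hp with rfl | hp
      · intro hc'
        rw [up_of_min fun p' hp' => ?_, card_insert_of_notMem hqt] at hc'
        · omega
        · rcases mem_insert.1 hp' with rfl | hp'
          · exact le_rfl
          · exact (hlt t hs p' hp').le
      · rw [up_insert_of_lt (hlt t hs p hp)]
        exact ht2 p hp
    rw [sg_of_odd hodd]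
    norm_num

variable {j D₀ D : ℕ} {z y : ℝ} {𝒟 : Finset (Finset ℕ)}

theorem mk_union (h : DesOK j D₀ D z y 𝒟) {d e : Finset ℕ} (hd : d ∈ 𝒟)
    (hlt : ∀ p ∈ e, ∀ q ∈ d, p < q) : mk 𝒟 (d ∪ e) := by
  have hne := h.nonempty hd
  refine ⟨d.min' hne, mem_union_left _ (min'_mem _ _), ?_⟩
  rw [up_union_left hlt (min'_mem _ _), up_of_min fun p hp => min'_le _ _ hp]
  exact hd

theorem marked (h : DesOK j D₀ D z y 𝒟) {T : Finset ℕ} (hT : T ⊆ pr 2 z) (Q : Finset ℕ → Prop)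
    [DecidablePred Q] {D' : ℕ} (hD : D' ≤ D)
    (hQ : ∀ d ∈ 𝒟, ∀ e : Finset ℕ, (∀ p ∈ e, ∀ q ∈ d, p < q) → (Q (d ∪ e) ↔ ros 1 (D' / pd d) e)) :
    ∑ t ∈ (T.powerset.filter Q).filter (mk 𝒟), sg t =
      -∑ d ∈ 𝒟.filter (fun d => d ⊆ T), ∑ e ∈ (Rp (D' / pd d)).filter (fun e => e ⊆ T), sg e := by
  rw [sum_sigma', ← sum_neg_distrib]
  symm
  refine sum_bij (fun x _ => x.1 ∪ x.2) ?_ ?_ ?_ ?_
  · rintro ⟨d, e⟩ hx
    obtain ⟨h1, h2⟩ := mem_sigma.1 hx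
    obtain ⟨hd, hdT⟩ := mem_filter.1 h1
    obtain ⟨he, heT⟩ := mem_filter.1 h2
    have hlt := h.lt hd hD he
    exact mem_filter.2 ⟨mem_filter.2 ⟨mem_powerset.2 (union_subset hdT heT),
      (hQ d hd e hlt).2 (mem_Rp.1 he).2⟩, mk_union h hd hlt⟩
  · rintro ⟨d, e⟩ hx ⟨d', e'⟩ hx' hu
    obtain ⟨h1, h2⟩ := mem_sigma.1 hx
    obtain ⟨h1', h2'⟩ := mem_sigma.1 hx'
    have hd := (mem_filter.1 h1).1
    have hd' := (mem_filter.1 h1').1
    obtain ⟨rfl, rfl⟩ := union_inj (h.lt hd hD (mem_filter.1 h2).1)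
      (h.lt hd' hD (mem_filter.1 h2').1) ((h.card _ hd).trans (h.card _ hd').symm) hu
    rfl
  · intro t ht
    obtain ⟨h1, q, hq, hd⟩ := mem_filter.1 ht
    obtain ⟨h2, h3⟩ := mem_filter.1 h1
    have htT := mem_powerset.1 h2
    have hu : up t q ∪ t.filter (fun p => p < q) = t := by
      ext p
      rw [mem_union, mem_up, mem_filter]
      constructor
      · rintro (h4 | h4)
        exacts [h4.1, h4.1]
      · intro hp
        rcases le_or_gt q p with h4 | h4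
        exacts [Or.inl ⟨hp, h4⟩, Or.inr ⟨hp, h4⟩]
    have hlt : ∀ p ∈ t.filter (fun p => p < q), ∀ q' ∈ up t q, p < q' := fun p hp q' hq' =>
      (mem_filter.1 hp).2.trans_le (mem_up.1 hq').2
    refine ⟨⟨up t q, t.filter (fun p => p < q)⟩, mem_sigma.2 ⟨mem_filter.2
      ⟨hd, (up_subset t q).trans htT⟩, mem_filter.2 ⟨mem_Rp.2 ⟨fun p hp => ?_, ?_⟩,
        (filter_subset _ _).trans htT⟩⟩, hu⟩
    · obtain ⟨a, b, _⟩ := mem_pr.1 (hT (htT (mem_filter.1 hp).1))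
      exact ⟨a, by exact_mod_cast b⟩
    · exact (hQ _ hd _ hlt).1 (by rw [hu]; exact h3)
  · rintro ⟨d, e⟩ hx
    obtain ⟨h1, h2⟩ := mem_sigma.1 hx
    have hd : d ∈ 𝒟 := (mem_filter.1 h1).1
    have hlt : ∀ p ∈ e, ∀ q ∈ d, p < q := h.lt hd hD (mem_filter.1 h2).1
    have hodd : sg d = -1 := sg_of_odd (by rw [h.card d hd]; exact h.odd)
    show -sg e = sg (d ∪ e)
    rw [sg_union (disjoint_of_lt hlt), hodd, neg_one_mul]

theorem ros_iff (h : DesOK j D₀ D z y 𝒟) {D' : ℕ} (hD : D₀ ≤ D') {d e : Finset ℕ} (hd : d ∈ 𝒟)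
    (hlt : ∀ p ∈ e, ∀ q ∈ d, p < q) : ros 0 D' (d ∪ e) ↔ ros 1 (D' / pd d) e := by
  rw [ros_union (Nat.zero_le 1) (pd_pos (h.prime hd)) hlt, zero_add, h.card d hd, h.odd]
  exact and_iff_right (ros_mono (mem_RR.1 (h.mem d hd)).2 hD)

theorem le_lev (h : D₀ ≤ D) (s : Finset ℕ) : D₀ ≤ lev 𝒟 D₀ D s ∧ lev 𝒟 D₀ D s ≤ D := by
  unfold lev
  split_ifs
  exacts [⟨h, le_rfl⟩, ⟨le_rfl, h⟩]

theorem hy_iff (h : DesOK j D₀ D z y 𝒟) {d e : Finset ℕ} (hd : d ∈ 𝒟)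
    (hlt : ∀ p ∈ e, ∀ q ∈ d, p < q) : hy 𝒟 D₀ D (d ∪ e) ↔ ros 1 (D / pd d) e := by
  rw [← ros_iff h h.le hd hlt]
  refine ⟨fun H q hq hc => (H q hq hc).trans (le_lev h.le _).2, fun H q hq hc => ?_⟩
  rcases mem_union.1 hq with hq' | hq'
  · rw [up_union_left hlt hq'] at hc ⊢
    exact ((mem_RR.1 (h.mem d hd)).2 q hq' hc).trans (le_lev h.le _).1
  · have hm : mk 𝒟 (up (d ∪ e) q) := by
      rw [up_union_right hlt hq']
      exact mk_union h hd fun p hp => hlt p (up_subset e q hp)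
    have e1 : lev 𝒟 D₀ D (up (d ∪ e) q) = D := if_pos hm
    rw [e1]
    exact H q hq hc

theorem unmarked {t : Finset ℕ} (ht : ¬ mk 𝒟 t) : hy 𝒟 D₀ D t ↔ ros 0 D₀ t := by
  have e1 : ∀ q, lev 𝒟 D₀ D (up t q) = D₀ := fun q => if_neg fun ⟨q', h1, h2⟩ => by
    rw [up_up t (mem_up.1 h1).2] at h2
    exact ht ⟨q', (mem_up.1 h1).1, h2⟩
  refine ⟨fun H q hq hc => ?_, fun H q hq hc => ?_⟩
  · rw [← e1 q]
    exact H q hq hc
  · rw [e1 q]
    exact H q hq hc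

end HybPtAux

theorem hybPt : HybPtStmt := by
  intro j D₀ D z y 𝒟 h T hT
  have e0 : (RR 0 D₀ z).filter (fun t => t ⊆ T) = T.powerset.filter (ros 0 D₀) := by
    ext t
    rw [mem_filter, mem_filter, mem_RR, mem_powerset]
    refine ⟨fun H => ⟨H.2, H.1.2⟩, fun H => ⟨⟨fun p hp => ?_, H.2⟩, H.1⟩⟩
    obtain ⟨a, b, c⟩ := mem_pr.1 (hT (H.1 hp))
    exact ⟨a, by exact_mod_cast b, c⟩
  have e1 := HybPtAux.marked h hT (ros 0 D₀) h.le fun d hd e hlt =>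
    HybPtAux.ros_iff h le_rfl hd hlt
  have e2 := HybPtAux.marked h hT (HybPtAux.hy 𝒟 D₀ D) le_rfl fun d hd e hlt =>
    HybPtAux.hy_iff h hd hlt
  have e3 : (T.powerset.filter (HybPtAux.hy 𝒟 D₀ D)).filter (fun t => ¬ HybPtAux.mk 𝒟 t) =
      (T.powerset.filter (ros 0 D₀)).filter (fun t => ¬ HybPtAux.mk 𝒟 t) := by
    ext t
    simp only [mem_filter]
    exact ⟨fun H => ⟨⟨H.1.1, (HybPtAux.unmarked H.2).1 H.1.2⟩, H.2⟩,
      fun H => ⟨⟨H.1.1, (HybPtAux.unmarked H.2).2 H.1.2⟩, H.2⟩⟩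
  have e4 := sum_filter_add_sum_filter_not (T.powerset.filter (ros 0 D₀)) (HybPtAux.mk 𝒟) sg
  have e5 := sum_filter_add_sum_filter_not (T.powerset.filter (HybPtAux.hy 𝒟 D₀ D))
    (HybPtAux.mk 𝒟) sg
  have e6 := HybPtAux.lower 𝒟 D₀ D T
  rw [e3] at e5
  rw [e0, sum_sub_distrib]
  linarith

end Crest.Agent.R1s
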