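import Crest.Agent.R1s.Ev

/-! Row 1: the inverse theorem. -/

set_option autoImplicit false

namespace Crest.Agent.R1s

open Finset Filter
open Crest.Agent.R5 (pr pd ee)

theorem itOK : IT1Stmt → IT2Stmt → ITStmt := by
  intro h1 h2 B κ hκ hκ'
  refine ⟨⌈200 * (((2 * B + 15 : ℕ) : ℝ) + 3) / κ⌉₊, ?_⟩
  obtain ⟨r, hr⟩ : ∃ r : ℕ, r = ⌈200 * (((2 * B + 15 : ℕ) : ℝ) + 3) / κ⌉₊ := ⟨_, rfl⟩
  rw [← hr]
  have hr' : 200 * (((2 * B + 15 : ℕ) : ℝ) + 3) ≤ κ * r := by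
    have e := Nat.le_ceil (200 * (((2 * B + 15 : ℕ) : ℝ) + 3) / κ)
    rw [← hr, div_le_iff₀ hκ] at e
    linarith
  filter_upwards [h1 B r, h2 B (2 * B + 15) r κ hκ hκ' hr', ev_log 4] with m H1 H2 hL N 𝒢 ty E c
    hG hC
  have hg : ∀ g ∈ 𝒢, 1 ≤ g ∧ g ≤ DD B m := fun g hg => by
    obtain ⟨a, b, _⟩ := hG.gb g hg
    refine ⟨Nat.pos_of_ne_zero fun h0 => ?_, b⟩
    rw [h0, zero_mul] at a
    omega
  refine (H1 N 𝒢 ty c hg hC).trans ?_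
  obtain ⟨L, hL'⟩ : ∃ L : ℝ, L = Real.log m := ⟨_, rfl⟩
  rw [← hL'] at H2 hL ⊢
  have hL1 : 1 ≤ L := by linarith
  have hL0 : 0 < L := by linarith
  obtain ⟨H, hH⟩ : ∃ H : ℕ, H = ⌊L ^ (2 * B + 8)⌋₊ := ⟨_, rfl⟩
  rw [← hH]
  have hH' : (H : ℝ) ≤ L ^ (2 * B + 8) := by
    rw [hH]
    exact Nat.floor_le (by positivity)
  have hs : ∑ h ∈ (Icc (-(H : ℤ)) H).erase 0, ‖RH r m N 𝒢 ty c h‖ ≤
      ((Icc (-(H : ℤ)) H).erase 0).card • (L ^ 3 / L ^ (2 * B + 15)) := by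
    refine sum_le_card_nsmul _ _ _ fun h hh => ?_
    obtain ⟨a, b⟩ := mem_erase.1 hh
    refine H2 N h 𝒢 ty E c hG hC a ?_
    have e1 : |h| ≤ (H : ℤ) := abs_le.2 (mem_Icc.1 b)
    have e2 : |(h : ℝ)| ≤ H := by exact_mod_cast e1
    exact e2.trans (hH'.trans (pow_le_pow_right₀ hL1 (by omega)))
  have hc : ((Icc (-(H : ℤ)) H).erase 0).card = 2 * H := by
    rw [card_erase_of_mem (mem_Icc.2 ⟨by omega, by omega⟩), Int.card_Icc]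
    omega
  rw [hc, nsmul_eq_mul] at hs
  have hm : (0 : ℝ) ≤ m := Nat.cast_nonneg m
  have e3 : ((2 * H : ℕ) : ℝ) * (L ^ 3 / L ^ (2 * B + 15)) ≤ 1 / (2 * L ^ 3) := by
    calc ((2 * H : ℕ) : ℝ) * (L ^ 3 / L ^ (2 * B + 15))
        ≤ (2 * L ^ (2 * B + 8)) * (L ^ 3 / L ^ (2 * B + 15)) := by
          refine mul_le_mul_of_nonneg_right ?_ (by positivity)
          push_cast
          linarith
      _ = 4 / L * (1 / (2 * L ^ 3)) := by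
          field_simp
          ring
      _ ≤ 1 / (2 * L ^ 3) :=
          mul_le_of_le_one_left (by positivity) ((div_le_one hL0).2 hL)
  have e4 := mul_le_mul_of_nonneg_left (hs.trans e3) hm
  have e5 : (m : ℝ) / L ^ 3 = m / (2 * L ^ 3) + m * (1 / (2 * L ^ 3)) := by
    field_simp
    ring
  rw [e5]
  linarith

end Crest.Agent.R1s
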