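import Crest.Agent.R1s.Ev

/-! Row 1: Fourier expansion of the bilinear remainder. -/

set_option autoImplicit false

namespace Crest.Agent.R1s

open Finset Filter
open Crest.Agent.R5 (pr pd ee)

namespace IT1Aux

theorem term (hF : FourStmt) (N : ℤ) {M H D₀ D g f : ℕ} {c : ℝ} (hM : 1 ≤ M) (hH : 1 ≤ H)
    (hHD : 2 * H ≤ D₀) (hg : 1 ≤ g) (hc : |c| ≤ 1) (hs : c ≠ 0 → D₀ < g * f ∧ g * f ≤ D) :
    ‖((c * rem N M (g * f) : ℝ) : ℂ) - M * ∑ h ∈ (Icc (-(H : ℤ)) H).erase 0,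
      (c : ℂ) / (g * (f : ℕ)) * (gam M g (ig N g) h f * ee (h * Xg N g / (f : ℕ)))‖ ≤
      (D : ℝ) ^ 2 / (M * H) * (1 / ((g : ℝ) * f)) := by
  by_cases hc0 : c = 0
  · subst hc0
    simp only [zero_mul, Complex.ofReal_zero, zero_div, sum_const_zero, mul_zero, sub_zero,
      norm_zero]
    positivity
  obtain ⟨h1, h2⟩ := hs hc0
  have hf : 1 ≤ f := by
    rcases Nat.eq_zero_or_pos f with rfl | h
    · simp at h1
    · exact h
  have hg' : (0 : ℝ) < g := by exact_mod_cast hg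
  have hf' : (0 : ℝ) < f := by exact_mod_cast hf
  have hM' : (0 : ℝ) < M := by exact_mod_cast hM
  have hH' : (0 : ℝ) < H := by exact_mod_cast hH
  have hMc : (M : ℂ) ≠ 0 := by exact_mod_cast hM'.ne'
  have key := hF N M (g * f) H hM hH (by omega)
  have e : ∀ h : ℤ, (M : ℂ) * ((c : ℂ) / (g * (f : ℕ)) *
      (gam M g (ig N g) h f * ee (h * Xg N g / (f : ℕ)))) =
      c * (wh M (h / ((g * f : ℕ) : ℝ)) * ee (h * N / ((g * f : ℕ) : ℝ)) / ((g * f : ℕ) : ℂ)) := by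
    intro h
    have e1 : (h : ℝ) * N / ((g * f : ℕ) : ℝ) =
        -(h * (ig N g : ℝ)) / (g * f) + h * (Xg N g : ℝ) / f := by
      have : (g : ℝ) * (Xg N g : ℝ) = N + (ig N g : ℝ) := by exact_mod_cast mul_Xg N g
      have e2 : (N : ℝ) = g * (Xg N g : ℝ) - ig N g := by linarith
      rw [e2]
      push_cast
      field_simp
      ring
    rw [e1, ee_add]
    unfold gam
    push_cast
    field_simp
  rw [mul_sum, sum_congr rfl fun h _ => e h, ← mul_sum, Complex.ofReal_mul, ← mul_sub, norm_mul,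
    Complex.norm_real, Real.norm_eq_abs]
  have h3 : ((g * f : ℕ) : ℝ) ≤ D := by exact_mod_cast h2
  calc _ ≤ 1 * (((g * f : ℕ) : ℝ) / (M * H)) := mul_le_mul hc key (norm_nonneg _) zero_le_one
    _ = ((g : ℝ) * f) ^ 2 / (M * H) * (1 / ((g : ℝ) * f)) := by
        push_cast
        field_simp
    _ ≤ _ := by
        push_cast at h3
        gcongr

theorem main (hF : FourStmt) {B r m H : ℕ} (N : ℤ) {𝒢 : Finset ℕ} {ty : ℕ → ℕ × ℕ × ℕ}
    {c : ℕ × ℕ × ℕ → (Fin r → ℕ) → ℕ → ℕ → ℝ} (hM : 1 ≤ m / 2) (hH : 1 ≤ H)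
    (hHD : 2 * H ≤ D0 m) (hg : ∀ g ∈ 𝒢, 1 ≤ g) (hc : COK B r m 𝒢 ty c) :
    ‖(RS r m N 𝒢 ty c : ℂ) - ((m / 2 : ℕ) : ℂ) * ∑ h ∈ (Icc (-(H : ℤ)) H).erase 0,
      RH r m N 𝒢 ty c h‖ ≤
      (DD B m : ℝ) ^ 2 / ((m / 2 : ℕ) * H) * ((∑ g ∈ 𝒢, 1 / (g : ℝ)) *
        ((∑ s ∈ tup r m, 1 / (ps s : ℝ)) * ((∑ p ∈ top r m, 1 / (p : ℝ)) *
          ∑ u ∈ Icc 1 (VV m), 1 / (u : ℝ)))) := by
  have e : (RS r m N 𝒢 ty c : ℂ) - ((m / 2 : ℕ) : ℂ) * ∑ h ∈ (Icc (-(H : ℤ)) H).erase 0,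
      RH r m N 𝒢 ty c h = ∑ g ∈ 𝒢, ∑ s ∈ tup r m, ∑ p ∈ top r m, ∑ u ∈ Icc 1 (VV m),
        (((c (ty g) s p u * rem N (m / 2) (g * (ps s * p * u)) : ℝ) : ℂ) -
          ((m / 2 : ℕ) : ℂ) * ∑ h ∈ (Icc (-(H : ℤ)) H).erase 0,
            (c (ty g) s p u : ℂ) / (g * (ps s * p * u : ℕ)) *
              (gam (m / 2) g (ig N g) h (ps s * p * u) *
                ee (h * Xg N g / (ps s * p * u : ℕ)))) := by
    simp only [sum_sub_distrib]
    congr 1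
    · unfold RS
      simp only [Complex.ofReal_sum]
    · unfold RH
      simp only [← mul_sum]
      congr 1
      rw [sum_comm]
      refine sum_congr rfl fun g _ => ?_
      rw [sum_comm]
      refine sum_congr rfl fun s _ => ?_
      rw [sum_comm]
      refine sum_congr rfl fun p _ => ?_
      rw [sum_comm]
      refine sum_congr rfl fun u _ => ?_
      rw [mul_sum]
  rw [e, sum_mul, mul_sum]
  refine norm_sum_le_of_le _ fun g hg' => ?_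
  rw [sum_mul, mul_sum, mul_sum]
  refine norm_sum_le_of_le _ fun s _ => ?_
  rw [sum_mul, mul_sum, mul_sum, mul_sum]
  refine norm_sum_le_of_le _ fun p _ => ?_
  rw [mul_sum, mul_sum, mul_sum, mul_sum]
  refine norm_sum_le_of_le _ fun u _ => ?_
  refine (term hF N hM hH hHD (hg g hg') (hc.cb _ s p u) (hc.cs g hg' s p u)).trans (le_of_eq ?_)
  push_cast
  congr 1
  simp only [one_div, mul_inv]
  ring

end IT1Aux

theorem it1 : FourStmt → IT1Stmt := by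
  intro hF B r
  filter_upwards [ev_log 7, ev_loglog 1, ev_D0, ev_DD B, ev_VV, ev_ZZ 0 0 r (c := 2) two_pos,
    ev_recip, ev_log_pow 4 (2 * B + 10) one_pos, ev_loglog_pow (2 ^ (r + 1)) (r + 1) one_pos,
    eventually_ge_atTop 3] with m hL hl hD0 hDD hVV hZZ hrec hpow hll hm N 𝒢 ty c hg hc
  set L : ℝ := Real.log m with hLdef
  set l : ℝ := Real.log L with hldef
  set H : ℕ := ⌊L ^ (2 * B + 8)⌋₊ with hHdef
  have hm' : (3 : ℝ) ≤ m := by exact_mod_cast hm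
  have hL1 : (1 : ℝ) ≤ L := by linarith
  have hLp : (1 : ℝ) ≤ L ^ (2 * B + 8) := one_le_pow₀ hL1
  have hH1 : 1 ≤ H := Nat.le_floor (by simpa using hLp)
  have hH2 : L ^ (2 * B + 8) / 2 ≤ H := half_le_floor hLp
  have hH3 : (H : ℝ) ≤ L ^ (2 * B + 8) := Nat.floor_le (by positivity)
  rw [Real.rpow_one] at hpow hll
  have hHD : 2 * H ≤ D0 m := by
    have h1 : 2 * L ^ (2 * B + 8) ≤ m / (2 * L ^ 2) := by
      rw [le_div_iff₀ (by positivity)]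
      calc 2 * L ^ (2 * B + 8) * (2 * L ^ 2) = 4 * L ^ (2 * B + 10) := by ring
        _ ≤ m := hpow
    have h2 : (2 : ℝ) * H ≤ D0 m := by linarith [hD0.1]
    exact_mod_cast h2
  have hM : 1 ≤ m / 2 := by omega
  have hM2 : (m : ℝ) / 3 ≤ (m / 2 : ℕ) := by
    have h1 : m ≤ 3 * (m / 2) := by omega
    have h2 : (m : ℝ) ≤ 3 * ((m / 2 : ℕ) : ℝ) := by exact_mod_cast h1
    linarith
  have hM3 : ((m / 2 : ℕ) : ℝ) ≤ m := by exact_mod_cast Nat.div_le_self m 2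
  have key := IT1Aux.main hF N hM hH1 hHD (fun g h => (hg g h).1) hc
  have hZ2 : ZZ r m (r + 1) ≤ (m : ℝ) ^ 2 := by simpa using hZZ.2
  have hpr : ∀ j ≤ r, ∑ p ∈ pr (ZZ r m j) (ZZ r m (j + 1)), 1 / (p : ℝ) ≤ 2 * l := by
    intro j hj
    refine hrec _ fun p hp => ?_
    obtain ⟨a1, -, a3⟩ := mem_pr.1 hp
    exact ⟨a1, a3.trans ((ZZ_mono r hm (by omega)).trans hZ2)⟩
  have s1 : ∑ g ∈ 𝒢, 1 / (g : ℝ) ≤ 2 * L := by
    have := sum_inv_le (le_trans (by omega) hDD.1) hg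
    linarith [hDD.2.2.2.2]
  have s2 : ∑ s ∈ tup r m, 1 / (ps s : ℝ) ≤ (2 * l) ^ r := by
    have e : ∑ s ∈ tup r m, 1 / (ps s : ℝ) =
        ∏ j : Fin r, ∑ p ∈ pr (ZZ r m j) (ZZ r m (j + 1)), 1 / (p : ℝ) := by
      rw [prod_univ_sum]
      refine sum_congr rfl fun s _ => ?_
      unfold ps
      rw [prod_div_distrib, prod_const_one, Nat.cast_prod]
    rw [e]
    calc _ ≤ ∏ _j : Fin r, 2 * l :=
          prod_le_prod (fun j _ => sum_nonneg fun p _ => by positivity) fun j _ => hpr j j.2.le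
      _ = _ := by simp
  have s3 : ∑ p ∈ top r m, 1 / (p : ℝ) ≤ 2 * l := hpr r le_rfl
  have s4 : ∑ u ∈ Icc 1 (VV m), 1 / (u : ℝ) ≤ 2 * L := by
    have h1 := sum_inv_le (S := Icc 1 (VV m)) (D := VV m) (by linarith [hVV.2.2])
      fun u hu => mem_Icc.1 hu
    have h0 : (0 : ℝ) < VV m := by exact_mod_cast (by linarith [hVV.2.2] : 0 < VV m)
    have h2 := Real.log_le_log h0 hVV.2.1
    rw [Real.log_exp] at h2
    have h3 : √L ≤ L := by
      rw [Real.sqrt_le_left (by linarith)]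
      nlinarith
    linarith
  have n1 : 0 ≤ ∑ g ∈ 𝒢, 1 / (g : ℝ) := sum_nonneg fun p _ => by positivity
  have n2 : 0 ≤ ∑ s ∈ tup r m, 1 / (ps s : ℝ) := sum_nonneg fun p _ => by positivity
  have n3 : 0 ≤ ∑ p ∈ top r m, 1 / (p : ℝ) := sum_nonneg fun p _ => by positivity
  have n4 : 0 ≤ ∑ u ∈ Icc 1 (VV m), 1 / (u : ℝ) := sum_nonneg fun p _ => by positivity
  have s5 : (∑ g ∈ 𝒢, 1 / (g : ℝ)) * ((∑ s ∈ tup r m, 1 / (ps s : ℝ)) *
      ((∑ p ∈ top r m, 1 / (p : ℝ)) * ∑ u ∈ Icc 1 (VV m), 1 / (u : ℝ))) ≤ 4 * L ^ 3 := by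
    calc _ ≤ (2 * L) * ((2 * l) ^ r * ((2 * l) * (2 * L))) := by gcongr
      _ = 4 * L ^ 2 * (2 ^ (r + 1) * l ^ (r + 1)) := by ring
      _ ≤ 4 * L ^ 2 * L := by gcongr
      _ = _ := by ring
  have s6 : (DD B m : ℝ) ^ 2 / ((m / 2 : ℕ) * H) ≤ 6 * m / L ^ 8 := by
    calc (DD B m : ℝ) ^ 2 / ((m / 2 : ℕ) * H)
        ≤ (m * L ^ B) ^ 2 / ((m / 3) * (L ^ (2 * B + 8) / 2)) := by
          gcongr
          exact hDD.2.1
      _ = _ := by
          field_simp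
          ring
  have s7 : 6 * m / L ^ 8 * (4 * L ^ 3) ≤ m / (2 * L ^ 3) := by
    have h1 : 6 * m / L ^ 8 * (4 * L ^ 3) = m / (2 * L ^ 3) * (48 / L ^ 2) := by
      field_simp
      ring
    have h2 : 48 / L ^ 2 ≤ 1 := by
      rw [div_le_one (by positivity)]
      nlinarith
    rw [h1]
    exact mul_le_of_le_one_right (by positivity) h2
  have s8 := key.trans ((mul_le_mul s6 s5 (by positivity) (by positivity)).trans s7)
  set T : ℂ := ∑ h ∈ (Icc (-(H : ℤ)) H).erase 0, RH r m N 𝒢 ty c h with hT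
  have s9 : ‖T‖ ≤ ∑ h ∈ (Icc (-(H : ℤ)) H).erase 0, ‖RH r m N 𝒢 ty c h‖ := norm_sum_le _ _
  calc |RS r m N 𝒢 ty c| = ‖(RS r m N 𝒢 ty c : ℂ)‖ := by
        rw [Complex.norm_real, Real.norm_eq_abs]
    _ ≤ ‖(RS r m N 𝒢 ty c : ℂ) - ((m / 2 : ℕ) : ℂ) * T‖ + ‖((m / 2 : ℕ) : ℂ) * T‖ :=
        norm_le_norm_sub_add _ _
    _ ≤ _ := by
        refine add_le_add s8 ?_
        rw [norm_mul, Complex.norm_natCast]
        exact mul_le_mul hM3 s9 (norm_nonneg _) (by positivity)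

end Crest.Agent.R1s
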