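import Crest.Agent.R1s.Ev

/-! Row 1: blocks and scales. -/

set_option autoImplicit false

namespace Crest.Agent.R1s

open Finset Filter
open Crest.Agent.R5 (pr pd ee)

namespace IT2Aux

theorem rearr {σ β : Type} (𝒢 : Finset ℕ) (Sg : Finset σ) (T U : Finset ℕ) (Bs : Finset β)
    (As : Finset ℕ) (SB : β → Finset σ) (PP : ℕ → ℕ → Finset ℕ) (t : ℕ → σ → ℕ → ℕ → ℂ)
    (hS : ∀ f : σ → ℂ, ∑ s ∈ Sg, f s = ∑ b ∈ Bs, ∑ s ∈ SB b, f s)
    (hP : ∀ (u : ℕ) (f : ℕ → ℂ), (∀ p, p ∣ u → f p = 0) →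
      ∑ p ∈ T, f p = ∑ a ∈ As, ∑ p ∈ PP u a, f p)
    (ht : ∀ g s p u, p ∣ u → t g s p u = 0) :
    ‖∑ g ∈ 𝒢, ∑ s ∈ Sg, ∑ p ∈ T, ∑ u ∈ U, t g s p u‖ ≤
      ∑ u ∈ U, ∑ a ∈ As, ∑ b ∈ Bs, ∑ g ∈ 𝒢, ∑ p ∈ PP u a, ‖∑ s ∈ SB b, t g s p u‖ := by
  have e : ∑ g ∈ 𝒢, ∑ s ∈ Sg, ∑ p ∈ T, ∑ u ∈ U, t g s p u =
      ∑ u ∈ U, ∑ a ∈ As, ∑ b ∈ Bs, ∑ g ∈ 𝒢, ∑ p ∈ PP u a, ∑ s ∈ SB b, t g s p u :=
    calc ∑ g ∈ 𝒢, ∑ s ∈ Sg, ∑ p ∈ T, ∑ u ∈ U, t g s p u
        = ∑ g ∈ 𝒢, ∑ u ∈ U, ∑ a ∈ As, ∑ b ∈ Bs, ∑ p ∈ PP u a, ∑ s ∈ SB b, t g s p u := by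
          refine sum_congr rfl fun g _ => ?_
          rw [sum_congr rfl fun s _ => sum_comm, sum_comm]
          refine sum_congr rfl fun u _ => ?_
          rw [sum_comm, hP u _ fun p hp => sum_eq_zero fun s _ => ht g s p u hp]
          refine sum_congr rfl fun a _ => ?_
          rw [sum_congr rfl fun p _ => hS _, sum_comm]
      _ = _ := by
          rw [sum_comm]
          refine sum_congr rfl fun u _ => ?_
          rw [sum_comm]
          exact sum_congr rfl fun a _ => sum_comm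
  rw [e]
  refine norm_sum_le_of_le _ fun u _ => norm_sum_le_of_le _ fun a _ =>
    norm_sum_le_of_le _ fun b _ => norm_sum_le_of_le _ fun g _ => norm_sum_le _ _

theorem split_tup {r : ℕ} (S : Fin r → Finset ℕ) (bl : Fin r → ℕ → ℕ) (f : (Fin r → ℕ) → ℂ) :
    ∑ s ∈ Fintype.piFinset S, f s = ∑ β ∈ Fintype.piFinset fun j => (S j).image (bl j),
      ∑ s ∈ Fintype.piFinset fun j => (S j).filter fun q => bl j q = β j, f s := by
  rw [← sum_fiberwise_of_maps_to (g := fun s j => bl j (s j))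
    (t := Fintype.piFinset fun j => (S j).image (bl j)) fun s hs =>
      Fintype.mem_piFinset.2 fun j => mem_image_of_mem _ (Fintype.mem_piFinset.1 hs j)]
  refine sum_congr rfl fun β _ => sum_congr ?_ fun _ _ => rfl
  ext s
  simp only [mem_filter, Fintype.mem_piFinset, funext_iff, forall_and]

theorem split_top (T : Finset ℕ) (k : ℕ) (hT : ∀ p ∈ T, Nat.log 2 p < k) (u : ℕ) (f : ℕ → ℂ)
    (hf : ∀ p, p ∣ u → f p = 0) :
    ∑ p ∈ T, f p = ∑ a ∈ range k, ∑ p ∈ T.filter fun p => Nat.log 2 p = a ∧ ¬ p ∣ u, f p := by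
  rw [← sum_fiberwise_of_maps_to (g := Nat.log 2) (t := range k) fun p hp => mem_range.2 (hT p hp)]
  refine sum_congr rfl fun a _ => (sum_subset (fun p hp => ?_) fun p hp hp' => ?_).symm
  · exact mem_filter.2 ⟨(mem_filter.1 hp).1, (mem_filter.1 hp).2.1⟩
  · by_contra h
    exact hp' (mem_filter.2 ⟨(mem_filter.1 hp).1, (mem_filter.1 hp).2, fun hd => h (hf p hd)⟩)

theorem harm_le (V : ℕ) : ∑ u ∈ Icc 1 V, 1 / (u : ℝ) ≤ 1 + Real.log V := by
  have h := harmonic_le_one_add_log V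
  rw [harmonic_eq_sum_Icc] at h
  push_cast at h
  simpa only [one_div] using h

theorem inner_eq {r : ℕ} (N : ℤ) (M g : ℕ) (h : ℤ) (u p : ℕ) (𝔅 : Fin r → Finset ℕ)
    (c : (Fin r → ℕ) → ℝ) (b : (Fin r → ℕ) → ℂ) (W : ℝ) (hW : 0 < W) (hg : 0 < g) (hu : 0 < u)
    (hp : 0 < p) (hs : ∀ s ∈ Fintype.piFinset 𝔅, 0 < ps s ∧ b s = (c s * (W / (ps s * p)) : ℝ)) :
    ‖∑ s ∈ Fintype.piFinset 𝔅, (c s : ℂ) / (g * (ps s * p * u : ℕ)) *
      (gam M g (ig N g) h (ps s * p * u) * ee (h * Xg N g / (ps s * p * u : ℕ)))‖ =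
      1 / (u * W) * (1 / (g : ℝ) * ‖FF N M g h u p 𝔅 b‖) := by
  have e : ∑ s ∈ Fintype.piFinset 𝔅, (c s : ℂ) / (g * (ps s * p * u : ℕ)) *
      (gam M g (ig N g) h (ps s * p * u) * ee (h * Xg N g / (ps s * p * u : ℕ))) =
      ((1 / (u * W) * (1 / (g : ℝ)) : ℝ) : ℂ) * FF N M g h u p 𝔅 b := by
    unfold FF
    rw [mul_sum]
    refine sum_congr rfl fun s hs' => ?_
    obtain ⟨h1, h2⟩ := hs s hs'
    have a1 : (ps s : ℂ) ≠ 0 := by exact_mod_cast h1.ne'
    have a2 : (p : ℂ) ≠ 0 := by exact_mod_cast hp.ne'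
    have a3 : (u : ℂ) ≠ 0 := by exact_mod_cast hu.ne'
    have a4 : (g : ℂ) ≠ 0 := by exact_mod_cast hg.ne'
    have a5 : (W : ℂ) ≠ 0 := by exact_mod_cast hW.ne'
    rw [h2]
    generalize gam M g (ig N g) h (ps s * p * u) = x
    generalize ee (h * Xg N g / (ps s * p * u : ℕ)) = y
    push_cast
    field_simp
  rw [e, norm_mul, Complex.norm_real, Real.norm_of_nonneg (by positivity), mul_assoc]

end IT2Aux

open IT2Aux

theorem it2 : BlockStmt → CorePStmt → IT2Stmt := by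
  intro hBl hCore B A r κ hκ hκ' hr
  filter_upwards [hCore B A r κ hκ hκ' hr, eventually_ge_atTop 3, ev_log 4, ev_loglog 1, ev_VV,
    ev_ZZ 1 1 r (show (0 : ℝ) < 1 / 4 by norm_num), ev_recip,
    ev_loglog_pow (3 ^ r) r one_pos] with m hC hm hL hl hV hZ hrec hll
  intro N h 𝒢 ty E c hG hc hh hhA
  have hm' : (3 : ℝ) ≤ m := by exact_mod_cast hm
  have hn1 : 1 ≤ nn m :=
    Nat.le_floor (by simpa using Real.one_le_rpow (by linarith) (by norm_num))
  have hnL : (nn m : ℝ) ≤ Real.log m := by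
    refine (Nat.floor_le (by positivity)).trans ?_
    simpa using Real.rpow_le_rpow_of_exponent_le (x := Real.log m) (y := 4 / 5) (z := 1)
      (by linarith) (by norm_num)
  rw [one_mul, pow_one] at hZ
  rw [Real.rpow_one] at hll
  have hZm : (m : ℝ) ^ (1 / 4 : ℝ) ≤ (m : ℝ) ^ 2 := by
    rw [← Real.rpow_natCast]
    exact Real.rpow_le_rpow_of_exponent_le (by linarith) (by norm_num)
  set S : Fin r → Finset ℕ := fun j => pr (ZZ r m j) (ZZ r m (j + 1)) with hS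
  have hb := fun j : Fin r => hBl (S j) (nn m) (ZZ r m j) hn1 (ZZ_pos _ _ _)
    fun q hq => (mem_pr.1 hq).2.1.le
  choose bl lo hlo hcard hsum using hb
  have hT : ∀ p ∈ top r m, Nat.log 2 p < ⌊Real.log m⌋₊ := by
    intro p hp
    obtain ⟨p1, -, p3⟩ := mem_pr.1 hp
    have h1 : ((2 ^ Nat.log 2 p : ℕ) : ℝ) ≤ p := by exact_mod_cast Nat.pow_log_le_self 2 p1.ne_zero
    have h2 := Real.log_le_log (by positivity) (h1.trans (p3.trans hZ.2))
    rw [Real.log_rpow (by linarith), Nat.cast_pow, Real.log_pow, Nat.cast_ofNat] at h2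
    refine Nat.le_floor ?_
    have h3 := Real.log_two_gt_d9
    have h4 : (0 : ℝ) ≤ Nat.log 2 p := Nat.cast_nonneg _
    push_cast
    nlinarith
  refine (rearr 𝒢 (tup r m) (top r m) (Icc 1 (VV m))
    (Fintype.piFinset fun j => (S j).image (bl j)) (range ⌊Real.log m⌋₊)
    (fun β => Fintype.piFinset fun j => (S j).filter fun q => bl j q = β j)
    (fun u a => (top r m).filter fun p => Nat.log 2 p = a ∧ ¬ p ∣ u) _
    (split_tup S bl) (split_top _ _ hT) fun g s p u hp => ?_).trans ?_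
  · have : c (ty g) s p u = 0 := by
      by_contra h0
      exact hc.cp _ _ _ _ h0 hp
    rw [this]
    simp
  have key : ∀ u ∈ Icc 1 (VV m), ∀ a ∈ range ⌊Real.log m⌋₊,
      ∀ β ∈ Fintype.piFinset fun j => (S j).image (bl j),
      ∑ g ∈ 𝒢, ∑ p ∈ (top r m).filter fun p => Nat.log 2 p = a ∧ ¬ p ∣ u,
        ‖∑ s ∈ Fintype.piFinset fun j => (S j).filter fun q => bl j q = β j,
          (c (ty g) s p u : ℂ) / (g * (ps s * p * u : ℕ)) *
          (gam (m / 2) g (ig N g) h (ps s * p * u) * ee (h * Xg N g / (ps s * p * u : ℕ)))‖ ≤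
        1 / (u : ℝ) * ((∏ j, (nn m : ℝ) / lo j (β j)) / Real.log m ^ A) := by
    intro u hu a _ β hβ
    obtain ⟨hu1, hu2⟩ := mem_Icc.1 hu
    have hu0 : (0 : ℝ) < u := by exact_mod_cast hu1
    have hlo0 : ∀ j, 0 < lo j (β j) := fun j => by
      obtain ⟨q, hq, e⟩ := mem_image.1 (Fintype.mem_piFinset.1 hβ j)
      exact e ▸ (hlo j q hq).1
    have hw : 0 < ∏ j, lo j (β j) := prod_pos fun j _ => hlo0 j
    set 𝔅 : Fin r → Finset ℕ := fun j => (S j).filter fun q => bl j q = β j with h𝔅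
    have hws : ∀ s ∈ Fintype.piFinset 𝔅, ∏ j, lo j (β j) ≤ ps s := fun s hs => by
      unfold ps
      rw [Nat.cast_prod]
      refine prod_le_prod (fun j _ => (hlo0 j).le) fun j _ => ?_
      obtain ⟨h1, h2⟩ := mem_filter.1 (Fintype.mem_piFinset.1 hs j)
      exact h2 ▸ (hlo j _ h1).2
    let b : ℕ × ℕ × ℕ → ℕ → (Fin r → ℕ) → ℂ := fun τ p s =>
      if s ∈ Fintype.piFinset 𝔅 ∧ 2 ^ a ≤ p then
        (c τ s p u * ((∏ j, lo j (β j)) * (2 ^ a : ℕ) / (ps s * p)) : ℝ) else 0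
    have hPP : ∀ p ∈ (top r m).filter fun p => Nat.log 2 p = a ∧ ¬ p ∣ u,
        p ∈ top r m ∧ 2 ^ a ≤ p ∧ p < 2 * 2 ^ a ∧ ¬ p ∣ u := fun p hp => by
      obtain ⟨h1, rfl, h3⟩ := mem_filter.1 hp
      refine ⟨h1, Nat.pow_log_le_self 2 (mem_pr.1 h1).1.ne_zero, ?_, h3⟩
      rw [← pow_succ']
      exact Nat.lt_pow_succ_log_self one_lt_two p
    have hblk : Blk 𝔅 (nn m) (ZZ r m r) := by
      refine ⟨fun j q hq => ?_, fun i j hij => ?_, fun j => hcard j _⟩
      · obtain ⟨q1, -, q3⟩ := mem_pr.1 (mem_filter.1 hq).1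
        exact ⟨q1, q3.trans (ZZ_mono r hm j.2)⟩
      · refine disjoint_left.2 fun q hi hj => ?_
        obtain ⟨-, i2, i3⟩ := mem_pr.1 (mem_filter.1 hi).1
        obtain ⟨-, j2, j3⟩ := mem_pr.1 (mem_filter.1 hj).1
        rcases lt_or_gt_of_ne hij with hlt | hlt
        · have := ZZ_mono r hm (show (i : ℕ) + 1 ≤ j from hlt)
          linarith
        · have := ZZ_mono r hm (show (j : ℕ) + 1 ≤ i from hlt)
          linarith
    have hcore := hC N h u (2 ^ a) 𝒢 _ ty E 𝔅 b hG hh hhA hu1 hu2 hblk hPP (fun τ p s => by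
      simp only [b]
      split_ifs with h1
      · have h2 : ((2 ^ a : ℕ) : ℝ) ≤ p := by exact_mod_cast h1.2
        have h3 := hws s h1.1
        have h4 : (0 : ℝ) < (2 ^ a : ℕ) := by positivity
        rw [Complex.norm_real, Real.norm_eq_abs, abs_mul]
        refine mul_le_one₀ (hc.cb _ _ _ _) (abs_nonneg _) ?_
        rw [abs_of_nonneg (by positivity)]
        exact div_le_one_of_le₀ (mul_le_mul h3 h2 h4.le (hw.le.trans h3)) (by positivity)
      · simp) (fun g hg p s hb0 => by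
      refine (hc.cs g hg s p u fun h0 => hb0 ?_).1.le
      simp [b, h0])
    calc _ = 1 / (u * ((∏ j, lo j (β j)) * (2 ^ a : ℕ))) * ∑ g ∈ 𝒢, 1 / (g : ℝ) *
          ∑ p ∈ (top r m).filter fun p => Nat.log 2 p = a ∧ ¬ p ∣ u,
            ‖FF N (m / 2) g h u p 𝔅 (b (ty g) p)‖ := by
          rw [mul_sum]
          refine sum_congr rfl fun g hg => ?_
          rw [mul_sum, mul_sum]
          refine sum_congr rfl fun p hp => ?_
          obtain ⟨p1, p2, -, -⟩ := hPP p hp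
          refine inner_eq N (m / 2) g h u p 𝔅 (fun s => c (ty g) s p u) _ _ (by positivity)
            (Nat.pos_of_ne_zero fun h0 => ?_) hu1 (mem_pr.1 p1).1.pos fun s hs => ⟨?_, ?_⟩
          · have := (hG.gb g hg).1
            rw [h0, zero_mul] at this
            exact Nat.not_lt_zero _ this
          · exact_mod_cast hw.trans_le (hws s hs)
          · exact if_pos ⟨hs, p2⟩
      _ ≤ 1 / (u * ((∏ j, lo j (β j)) * (2 ^ a : ℕ))) *
          ((2 ^ a : ℕ) * (nn m : ℝ) ^ r / Real.log m ^ A) :=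
          mul_le_mul_of_nonneg_left hcore (by positivity)
      _ = _ := by
          rw [prod_div_distrib, prod_const, card_univ, Fintype.card_fin]
          field_simp
  refine (sum_le_sum fun u hu => sum_le_sum fun a ha => sum_le_sum fun β hβ =>
    key u hu a ha β hβ).trans ?_
  have hβ : ∑ β ∈ Fintype.piFinset fun j => (S j).image (bl j),
      ∏ j, (nn m : ℝ) / lo j (β j) ≤ Real.log m := by
    rw [← prod_univ_sum (fun j => (S j).image (bl j)) fun j b => (nn m : ℝ) / lo j b]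
    refine le_trans ?_ hll
    rw [← mul_pow, show (3 * Real.log (Real.log m)) ^ r =
      ∏ _j : Fin r, 3 * Real.log (Real.log m) by simp]
    refine prod_le_prod (fun j _ => sum_nonneg fun b hb => ?_) fun j _ => (hsum j).trans ?_
    · obtain ⟨q, hq, rfl⟩ := mem_image.1 hb
      exact div_nonneg (Nat.cast_nonneg _) (hlo j q hq).1.le
    · have h1 : (nn m : ℝ) / ZZ r m j ≤ 1 :=
        div_le_one_of_le₀ (hnL.trans (hZ.1.trans (ZZ_mono r hm (Nat.zero_le _)))) (ZZ_pos _ _ _).le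
      have h2 := hrec (S j) fun p hp => ⟨(mem_pr.1 hp).1, (mem_pr.1 hp).2.2.trans
        ((ZZ_mono r hm (Nat.succ_le_succ j.2.le)).trans (hZ.2.trans hZm))⟩
      linarith
  have hu : ∑ u ∈ Icc 1 (VV m), 1 / (u : ℝ) ≤ Real.log m := by
    refine (harm_le _).trans ?_
    have h1 : (0 : ℝ) < VV m := by exact_mod_cast (by omega : 0 < VV m)
    have h2 := (Real.log_le_iff_le_exp h1).2 hV.2.1
    have h3 : √(Real.log m) ≤ Real.log m / 2 := by
      rw [Real.sqrt_le_left (by linarith)]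
      nlinarith
    linarith
  have ha : (⌊Real.log m⌋₊ : ℝ) ≤ Real.log m := Nat.floor_le (by linarith)
  have hL0 : 0 < Real.log m := by linarith
  calc _ ≤ ∑ u ∈ Icc 1 (VV m), 1 / (u : ℝ) * (Real.log m * (Real.log m / Real.log m ^ A)) := by
        refine sum_le_sum fun u _ => ?_
        rw [sum_const, card_range, nsmul_eq_mul, ← mul_sum, ← sum_div, mul_left_comm]
        refine mul_le_mul_of_nonneg_left (mul_le_mul ha (by gcongr) ?_ hL0.le) (by positivity)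
        refine div_nonneg (sum_nonneg fun β hβ => prod_nonneg fun j _ => ?_) (by positivity)
        obtain ⟨q, hq, e⟩ := mem_image.1 (Fintype.mem_piFinset.1 hβ j)
        exact div_nonneg (Nat.cast_nonneg _) (e ▸ (hlo j q hq).1.le)
    _ ≤ Real.log m * (Real.log m * (Real.log m / Real.log m ^ A)) := by
        rw [← sum_mul]
        gcongr
    _ = _ := by ring

end Crest.Agent.R1s
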