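import Crest.Agent.R1s.Ev

/-! Row 1: the supersolution inequality. -/

set_option autoImplicit false

namespace Crest.Agent.R1s

open Finset Filter
open Crest.Agent.R5 (pr pd ee)

namespace KerAux

theorem log_mem {ζ Y : ℝ} {p : ℕ} (hp : p ∈ pr ζ (Real.exp Y)) :
    0 < (p : ℝ) ∧ 0 < Real.log p ∧ Real.log p ≤ Y := by
  unfold pr at hp
  rw [Finset.mem_filter, Finset.mem_Icc, Nat.le_floor_iff (Real.exp_pos Y).le] at hp
  have h1 : p.Prime := hp.2.1
  have h3 : (p : ℝ) ≤ Real.exp Y := hp.1.2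
  have h2 : (1 : ℝ) < p := by exact_mod_cast h1.one_lt
  refine ⟨by linarith, Real.log_pos h2, ?_⟩
  rw [Real.log_le_iff_le_exp (by linarith)]
  exact h3

theorem sum_le {s : Finset ℕ} {W : ℕ → ℝ} {a b c d : ℝ}
    (h : ∀ p ∈ s, W p ≤ a * (1 / ((p : ℝ) * Real.log p)) + b * (Real.log p / p) +
      c * (Real.log p ^ 2 / p) + d * (eta p / p)) :
    ∑ p ∈ s, W p ≤ a * ∑ p ∈ s, 1 / ((p : ℝ) * Real.log p) + b * ∑ p ∈ s, Real.log p / p +
      c * ∑ p ∈ s, Real.log p ^ 2 / p + d * ∑ p ∈ s, eta p / p := by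
  simp only [Finset.mul_sum, ← Finset.sum_add_distrib]
  exact Finset.sum_le_sum h

theorem kterm {K y t e p : ℝ} (hK : 0 < K) (ht : 0 < t) (hty : t ≤ y) (he : 0 < e) (hp : 0 < p) :
    K * (y + t) ^ 2 * e / p ≤ 4 * K * y ^ 2 * (e / p) := by
  have h1 : (y + t) ^ 2 ≤ 4 * y ^ 2 := by nlinarith
  have h2 : K * (y + t) ^ 2 * e / p = K * (y + t) ^ 2 * (e / p) := by ring
  rw [h2]
  refine mul_le_mul_of_nonneg_right ?_ (by positivity)
  nlinarith

end KerAux

theorem kerOK : PS3Stmt → EtaStmt → KerStmt := by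
  rintro ⟨C, hC, hPS⟩ ⟨he0, he1, -⟩
  refine ⟨10 * C, by positivity, fun L y ζ hζ hy hyL => ?_⟩
  have hL : 0 < L := by linarith
  have hζ0 : 0 < ζ := by linarith
  have hτ : 0.69 ≤ Real.log ζ :=
    le_trans (by linarith [Real.log_two_gt_d9]) (Real.log_le_log two_pos hζ)
  have hτ0 : 0 < Real.log ζ := by linarith
  set u : ℝ := 1 / L with hu
  have hu0 : 0 < u := by positivity
  have hyu : y * u ≤ 1 / 4 := by
    rw [hu, mul_one_div, div_le_iff₀ hL]
    linarith
  have hyu0 : 0 < y * u := by positivity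
  have hA : 0 ≤ y ^ 2 - y ^ 3 * u := by nlinarith [sq_nonneg y]
  have hA2 : y ^ 2 - y ^ 3 * u ≤ y ^ 2 := by nlinarith [sq_nonneg y]
  have hη := he0 ζ
  have hCη : 0 < C * eta ζ := by positivity
  constructor
  · intro h1
    have hY : ζ ≤ Real.exp y := (Real.log_le_iff_le_exp hζ0).1 h1
    obtain ⟨p1, p2, p3⟩ := hPS ζ _ hζ hY
    rw [Real.log_exp] at p1 p2 p3
    have p4 := he1 ζ (Real.exp y) hζ0.le
    refine (KerAux.sum_le (a := y ^ 2 - y ^ 3 * u) (b := -(1 - y * u)) (c := u)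
      (d := 4 * (10 * C) * y ^ 2) fun p hp => ?_).trans ?_
    · obtain ⟨q0, q1, q2⟩ := KerAux.log_mem hp
      have := KerAux.kterm (K := 10 * C) (by positivity) q1 q2 (he0 p) q0
      refine le_trans (le_of_eq ?_) (add_le_add le_rfl this)
      unfold Wc psi
      rw [hu]
      field_simp
      ring
    · have b1 := mul_le_mul_of_nonneg_left p1 hA
      have b2 := mul_le_mul_of_nonneg_left (abs_le.1 p2).1 (show 0 ≤ 1 - y * u by linarith)
      have b3 := mul_le_mul_of_nonneg_left p3 hu0.le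
      have b4 := mul_le_mul_of_nonneg_left p4
        (show 0 ≤ 4 * (10 * C) * y ^ 2 by positivity)
      have e : Wf L (10 * C) y ζ = (y ^ 2 - y ^ 3 * u) * (1 / Real.log ζ - 1 / y) -
          (1 - y * u) * (y - Real.log ζ) + u * ((y ^ 2 - Real.log ζ ^ 2) / 2) +
          u * (y ^ 2 / 2 - y * Real.log ζ + 3 / 2 * Real.log ζ ^ 2) +
          10 * (y ^ 2 * (C * eta ζ)) := by
        unfold Wf psi
        rw [hu]
        field_simp
        ring
      have g1 : 0 ≤ u * (y ^ 2 / 2 - y * Real.log ζ + 3 / 2 * Real.log ζ ^ 2) :=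
        mul_nonneg hu0.le (by nlinarith [sq_nonneg (y - Real.log ζ), sq_nonneg (Real.log ζ)])
      have g2 := mul_le_mul_of_nonneg_right hA2 hCη.le
      have g3 : C * eta ζ ≤ 3 * (y ^ 2 * (C * eta ζ)) := by
        have : 1 ≤ 3 * y ^ 2 := by nlinarith
        nlinarith
      have g4 : 0 ≤ y ^ 2 * (C * eta ζ) := by positivity
      rw [e]
      nlinarith
  · intro h1
    have hY : ζ ≤ Real.exp (y / 2) := (Real.log_le_iff_le_exp hζ0).1 (by linarith)
    obtain ⟨p1, p2, p3⟩ := hPS ζ _ hζ hY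
    rw [Real.log_exp] at p1 p2 p3
    have p4 := he1 ζ (Real.exp (y / 2)) hζ0.le
    refine (KerAux.sum_le (a := y ^ 2 - y ^ 3 * u) (b := y * u) (c := u)
      (d := 4 * (10 * C) * y ^ 2) fun p hp => ?_).trans ?_
    · obtain ⟨q0, q1, q2⟩ := KerAux.log_mem hp
      have := KerAux.kterm (K := 10 * C) (y := y) (by positivity) q1 (by linarith) (he0 p) q0
      refine le_trans (le_of_eq ?_) (add_le_add le_rfl this)
      unfold Wf psi
      rw [hu]
      field_simp
      ring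
    · have b1 := mul_le_mul_of_nonneg_left p1 hA
      have b2 := mul_le_mul_of_nonneg_left (abs_le.1 p2).2 hyu0.le
      have b3 := mul_le_mul_of_nonneg_left p3 hu0.le
      have b4 := mul_le_mul_of_nonneg_left p4
        (show 0 ≤ 4 * (10 * C) * y ^ 2 by positivity)
      have e : Wc L (10 * C) y ζ = (y ^ 2 - y ^ 3 * u) * (1 / Real.log ζ - 1 / (y / 2)) +
          y * u * (y / 2 - Real.log ζ) + u * (((y / 2) ^ 2 - Real.log ζ ^ 2) / 2) +
          u * (3 / 8 * y ^ 2 - y * Real.log ζ + 3 / 2 * Real.log ζ ^ 2) +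
          10 * (y ^ 2 * (C * eta ζ)) := by
        unfold Wc psi
        rw [hu]
        field_simp
        ring
      have g1 : 0 ≤ u * (3 / 8 * y ^ 2 - y * Real.log ζ + 3 / 2 * Real.log ζ ^ 2) :=
        mul_nonneg hu0.le (by nlinarith [sq_nonneg (y - 2 * Real.log ζ), sq_nonneg y])
      have g2 := mul_le_mul_of_nonneg_right hA2 hCη.le
      have g3 : C * eta ζ ≤ 3 * (y ^ 2 * (C * eta ζ)) := by
        have : 1 ≤ 3 * y ^ 2 := by nlinarith
        nlinarith
      have g4 : 0 ≤ y ^ 2 * (C * eta ζ) := by positivity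
      have g5 := mul_le_mul_of_nonneg_right hyu hCη.le
      rw [e]
      nlinarith

end Crest.Agent.R1s
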