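import Crest.Agent.R1s.Ev

/-! Row 1: lattice cosets and lines. -/

set_option autoImplicit false

namespace Crest.Agent.R1s

open Finset Filter
open Crest.Agent.R5 (pr pd ee)

namespace LatAux

theorem dvd_of_mod {N : ℤ} {g p : ℕ} {w : ℤ} (h : Xg N g % p = w) :
    (p : ℤ) ∣ N + ig N g - g * w := by
  rw [← mul_Xg, ← mul_sub, ← h]
  exact Dvd.dvd.mul_left (Int.dvd_self_sub_emod) _

theorem det_zero {N : ℤ} {D P : ℕ} {U : Finset ℕ} (hU : ∀ p ∈ U, p.Prime ∧ P ≤ p)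
    (hD : 2 * D ^ 2 < P ^ U.card) (w : ∀ p ∈ U, ℤ) {a b c : ℕ}
    (ha : 1 ≤ a ∧ a ≤ D) (hb : 1 ≤ b ∧ b ≤ D) (hc : 1 ≤ c ∧ c ≤ D)
    (wa : ∀ p (h : p ∈ U), Xg N a % (p : ℕ) = w p h)
    (wb : ∀ p (h : p ∈ U), Xg N b % (p : ℕ) = w p h)
    (wc : ∀ p (h : p ∈ U), Xg N c % (p : ℕ) = w p h) :
    ((b : ℤ) - a) * (ig N c - ig N a) - ((c : ℤ) - a) * (ig N b - ig N a) = 0 := by
  have hdvd : (pd U : ℤ) ∣
      ((b : ℤ) - a) * (ig N c - ig N a) - ((c : ℤ) - a) * (ig N b - ig N a) := by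
    rw [pd_dvd_iff_int (fun p hp => (hU p hp).1)]
    intro p hp
    have e1 := dvd_of_mod (wa p hp)
    have e2 := dvd_of_mod (wb p hp)
    have e3 := dvd_of_mod (wc p hp)
    have e : ((b : ℤ) - a) * (ig N c - ig N a) - ((c : ℤ) - a) * (ig N b - ig N a) =
        ((b : ℤ) - a) * ((N + ig N c - c * w p hp) - (N + ig N a - a * w p hp)) -
          ((c : ℤ) - a) * ((N + ig N b - b * w p hp) - (N + ig N a - a * w p hp)) := by ring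
    rw [e]
    exact dvd_sub (Dvd.dvd.mul_left (dvd_sub e3 e1) _) (Dvd.dvd.mul_left (dvd_sub e2 e1) _)
  refine Int.eq_zero_of_abs_lt_dvd hdvd ?_
  have h1 : P ^ U.card ≤ pd U := pow_card_le_prod U (fun q => q) P (fun p hp => (hU p hp).2)
  have h2 : 2 * (D : ℤ) ^ 2 < pd U := by exact_mod_cast lt_of_lt_of_le hD h1
  have ia := ig_nonneg N ha.1
  have ib := ig_nonneg N hb.1
  have ic := ig_nonneg N hc.1
  have ja := ig_lt N ha.1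
  have jb := ig_lt N hb.1
  have jc := ig_lt N hc.1
  have ka : (a : ℤ) ≤ D := by exact_mod_cast ha.2
  have kb : (b : ℤ) ≤ D := by exact_mod_cast hb.2
  have kc : (c : ℤ) ≤ D := by exact_mod_cast hc.2
  have l1 : |(b : ℤ) - a| ≤ D := abs_le.2 ⟨by omega, by omega⟩
  have l2 : |(c : ℤ) - a| ≤ D := abs_le.2 ⟨by omega, by omega⟩
  have l3 : |ig N c - ig N a| ≤ D := abs_le.2 ⟨by omega, by omega⟩
  have l4 : |ig N b - ig N a| ≤ D := abs_le.2 ⟨by omega, by omega⟩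
  have m1 : |((b : ℤ) - a) * (ig N c - ig N a)| ≤ D * D := by
    rw [abs_mul]
    exact mul_le_mul l1 l3 (abs_nonneg _) (by positivity)
  have m2 : |((c : ℤ) - a) * (ig N b - ig N a)| ≤ D * D := by
    rw [abs_mul]
    exact mul_le_mul l2 l4 (abs_nonneg _) (by positivity)
  have m3 := abs_sub (((b : ℤ) - a) * (ig N c - ig N a)) (((c : ℤ) - a) * (ig N b - ig N a))
  nlinarith

theorem cls {N : ℤ} {D P : ℕ} {𝒢 U : Finset ℕ} {μ : ℝ} (hμ : 1 ≤ μ) (hL : Lines N 𝒢 μ)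
    (hG : ∀ g ∈ 𝒢, 1 ≤ g ∧ g ≤ D) (hU : ∀ p ∈ U, p.Prime ∧ P ≤ p)
    (hD : 2 * D ^ 2 < P ^ U.card) (w : ∀ p ∈ U, ℤ) (C : Finset ℕ) (hC : C ⊆ 𝒢)
    (hw : ∀ g ∈ C, ∀ p (h : p ∈ U), Xg N g % (p : ℕ) = w p h) : (C.card : ℝ) ≤ μ := by
  by_cases h1 : C.card ≤ 1
  · have : (C.card : ℝ) ≤ 1 := by exact_mod_cast h1
    linarith
  · obtain ⟨a, ha, b, hb, hab⟩ := one_lt_card.1 (not_le.1 h1)
    have hβ : -((b : ℤ) - a) ≠ 0 := by omega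
    refine le_trans ?_ (hL (ig N b - ig N a) (-((b : ℤ) - a))
      ((ig N b - ig N a) * a + -((b : ℤ) - a) * ig N a) (Or.inr hβ))
    refine Nat.cast_le.2 (card_le_card fun c hc => mem_filter.2 ⟨hC hc, ?_⟩)
    have := det_zero hU hD w (hG a (hC ha)) (hG b (hC hb)) (hG c (hC hc)) (hw a ha) (hw b hb)
      (hw c hc)
    linear_combination -this

theorem fib {N : ℤ} {D P : ℕ} {𝒢 U : Finset ℕ} {μ Γ : ℝ} (hμ : 1 ≤ μ) (hL : Lines N 𝒢 μ)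
    (hG : ∀ g ∈ 𝒢, 1 ≤ g ∧ g ≤ D) (hU : ∀ p ∈ U, p.Prime ∧ P ≤ p)
    (hD : 2 * D ^ 2 < P ^ U.card) (G : ℕ → Finset ℤ) (hΓ : ∀ p ∈ U, ((G p).card : ℝ) ≤ Γ) :
    ((𝒢.filter (fun g => ∀ p ∈ U, Xg N g % (p : ℕ) ∈ G p)).card : ℝ) ≤ Γ ^ U.card * μ := by
  classical
  have hs : 𝒢.filter (fun g => ∀ p ∈ U, Xg N g % (p : ℕ) ∈ G p) ⊆
      (U.pi G).biUnion (fun w => 𝒢.filter (fun g => ∀ p (h : p ∈ U), Xg N g % (p : ℕ) = w p h)) := by
    intro g hg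
    rw [mem_filter] at hg
    refine mem_biUnion.2 ⟨fun p _ => Xg N g % (p : ℕ), mem_pi.2 fun p hp => hg.2 p hp, ?_⟩
    exact mem_filter.2 ⟨hg.1, fun _ _ => rfl⟩
  have h1 := (card_le_card hs).trans card_biUnion_le
  have h2 : ((𝒢.filter (fun g => ∀ p ∈ U, Xg N g % (p : ℕ) ∈ G p)).card : ℝ) ≤
      ∑ w ∈ U.pi G,
        ((𝒢.filter (fun g => ∀ p (h : p ∈ U), Xg N g % (p : ℕ) = w p h)).card : ℝ) := by
    exact_mod_cast h1
  refine h2.trans ?_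
  refine (sum_le_card_nsmul _ _ μ fun w _ => cls hμ hL hG hU hD w _ (filter_subset _ _)
    fun g hg => (mem_filter.1 hg).2).trans ?_
  rw [nsmul_eq_mul, card_pi]
  refine mul_le_mul_of_nonneg_right ?_ (by linarith)
  push_cast
  rw [← prod_const]
  exact prod_le_prod (fun _ _ => Nat.cast_nonneg _) hΓ

end LatAux

theorem latOK : LatStmt := by
  classical
  intro N D P n₁ 𝒢 𝔅 μ Γ rp G hμ hΓ hL hG hB hD hc
  have hs : 𝒢.filter (fun g => n₁ ≤ (𝔅.filter (fun p : ℕ => Xg N g % p ∈ G (rp g) p)).card) ⊆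
      (𝒢.image rp ×ˢ powersetCard n₁ 𝔅).biUnion
        (fun x => 𝒢.filter (fun g => ∀ p ∈ x.2, Xg N g % (p : ℕ) ∈ G x.1 p)) := by
    intro g hg
    rw [mem_filter] at hg
    obtain ⟨U, hU1, hU2⟩ := exists_subset_card_eq hg.2
    refine mem_biUnion.2 ⟨(rp g, U), mem_product.2 ⟨mem_image_of_mem _ hg.1,
      mem_powersetCard.2 ⟨hU1.trans (filter_subset _ _), hU2⟩⟩, ?_⟩
    exact mem_filter.2 ⟨hg.1, fun p hp => (mem_filter.1 (hU1 hp)).2⟩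
  have h1 := (card_le_card hs).trans card_biUnion_le
  have h2 : ((𝒢.filter
      (fun g => n₁ ≤ (𝔅.filter (fun p : ℕ => Xg N g % p ∈ G (rp g) p)).card)).card : ℝ) ≤
      ∑ x ∈ 𝒢.image rp ×ˢ powersetCard n₁ 𝔅,
        ((𝒢.filter (fun g => ∀ p ∈ x.2, Xg N g % (p : ℕ) ∈ G x.1 p)).card : ℝ) := by
    exact_mod_cast h1
  refine h2.trans ?_
  refine (sum_le_card_nsmul _ _ (Γ ^ n₁ * μ) fun x hx => ?_).trans ?_
  · obtain ⟨hU1, hU2⟩ := mem_powersetCard.1 (mem_product.1 hx).2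
    rw [← hU2]
    exact LatAux.fib hμ hL hG (fun p hp => hB p (hU1 hp)) (hU2 ▸ hD) (G x.1)
      (fun p hp => hc _ p (hU1 hp))
  · rw [nsmul_eq_mul, card_product, card_powersetCard]
    have h3 : ((𝔅.card.choose n₁ : ℕ) : ℝ) ≤ (𝔅.card : ℝ) ^ n₁ := by
      exact_mod_cast Nat.choose_le_pow 𝔅.card n₁
    have h4 : 0 ≤ Γ ^ n₁ * μ := by positivity
    push_cast
    calc ((𝒢.image rp).card : ℝ) * (𝔅.card.choose n₁ : ℕ) * (Γ ^ n₁ * μ)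
        ≤ ((𝒢.image rp).card : ℝ) * (𝔅.card : ℝ) ^ n₁ * (Γ ^ n₁ * μ) :=
          mul_le_mul_of_nonneg_right (mul_le_mul_of_nonneg_left h3 (Nat.cast_nonneg _)) h4
      _ = _ := by ring

end Crest.Agent.R1s
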