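import Crest.Agent.R1s.Ev

/-! Row 1: a rich line gives a rational number. -/

set_option autoImplicit false

namespace Crest.Agent.R1s

open Finset Filter
open Crest.Agent.R5 (pr pd ee)

namespace LineAux

theorem spaced {S : Finset ℕ} {f : ℕ → ℤ} {q D : ℤ} (hq : 0 < q) (hD : 0 ≤ D)
    (hinj : ∀ a ∈ S, ∀ b ∈ S, f a = f b → a = b) (hf : ∀ a ∈ S, 0 ≤ f a ∧ f a ≤ D)
    (hd : ∀ a ∈ S, ∀ b ∈ S, q ∣ f a - f b) : ((S.card : ℤ) - 1) * q ≤ D := by
  have h1 : S.card ≤ (Icc (0 : ℤ) (D / q)).card := by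
    refine card_le_card_of_injOn (fun a => f a / q) ?_ ?_
    · intro a ha
      have := hf a (mem_coe.1 ha)
      exact mem_coe.2 (mem_Icc.2 ⟨Int.ediv_nonneg this.1 hq.le, Int.ediv_le_ediv hq this.2⟩)
    · intro a ha b hb hab
      refine hinj a (mem_coe.1 ha) b (mem_coe.1 hb) ?_
      have h2 : f a % q = f b % q :=
        Int.emod_eq_emod_iff_emod_sub_eq_zero.2
          (Int.emod_eq_zero_of_dvd (hd a (mem_coe.1 ha) b (mem_coe.1 hb)))
      have h3 := Int.emod_add_mul_ediv (f a) q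
      have h4 := Int.emod_add_mul_ediv (f b) q
      simp only at hab
      rw [← h3, ← h4, h2, hab]
  rw [Int.card_Icc] at h1
  have h5 : 0 ≤ D / q := Int.ediv_nonneg hD hq.le
  have h6 : (S.card : ℤ) ≤ D / q + 1 := by omega
  have h7 : D / q * q ≤ D := Int.ediv_mul_le D hq.ne'
  nlinarith

theorem normal {α β γ : ℤ} (hβ : β ≠ 0) {S : Finset ℕ} {i : ℕ → ℤ} (hS : S.Nonempty)
    (h : ∀ g ∈ S, α * g + β * i g = γ) :
    ∃ q b c : ℤ, 0 < q ∧ IsCoprime q b ∧ ∀ g ∈ S, q * i g - b * g = c := by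
  have hg : 0 < Int.gcd α β := Int.gcd_pos_of_ne_zero_right α hβ
  obtain ⟨α', β', hc, h1, h2⟩ := Int.exists_gcd_one hg
  obtain ⟨g₀, hg₀⟩ := hS
  have hc' : IsCoprime α' β' := Int.isCoprime_iff_gcd_eq_one.2 hc
  have hk : ((Int.gcd α β : ℕ) : ℤ) ≠ 0 := by exact_mod_cast hg.ne'
  have key : ∀ g ∈ S, α' * g + β' * i g = α' * g₀ + β' * i g₀ := by
    intro g hgS
    have e1 := h g hgS
    have e2 := h g₀ hg₀
    generalize ((Int.gcd α β : ℕ) : ℤ) = k at *
    subst h1 h2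
    refine mul_left_cancel₀ hk ?_
    linarith
  have hβ' : β' ≠ 0 := by
    rintro rfl
    exact hβ (by simpa using h2)
  rcases lt_or_gt_of_ne hβ' with hn | hp
  · refine ⟨-β', α', -(α' * g₀ + β' * i g₀), by omega, hc'.symm.neg_left, fun g hgS => ?_⟩
    have := key g hgS
    linarith
  · refine ⟨β', -α', α' * g₀ + β' * i g₀, hp, hc'.symm.neg_right, fun g hgS => ?_⟩
    have := key g hgS
    linarith

end LineAux

open LineAux in
theorem lineOK : LineStmt := by
  intro N α β γ D 𝒢 μ hμ hαβ hG hcard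
  have hμ0 : 0 < μ := by linarith
  have hc2 : 2 ≤ 𝒢.card := by
    have : (1 : ℝ) < 𝒢.card := lt_of_le_of_lt hμ hcard
    exact_mod_cast this
  have hne : 𝒢.Nonempty := card_pos.1 (by omega)
  have hβ : β ≠ 0 := by
    rintro rfl
    have hα : α ≠ 0 := by simpa using hαβ
    obtain ⟨a, ha, b, hb, hab⟩ := one_lt_card.1 hc2
    have h1 := (hG a ha).2.2
    have h2 := (hG b hb).2.2
    have h3 : α * a = α * b := by linarith
    exact hab (by exact_mod_cast mul_left_cancel₀ hα h3)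
  obtain ⟨q, b, c, hq, hcop, hl⟩ := normal hβ hne (i := ig N) (fun g hg => (hG g hg).2.2)
  have hcast : ∀ t : ℤ, 0 ≤ t → ((𝒢.card : ℤ) - 1) * t ≤ D → (t : ℝ) ≤ 2 * D / μ := by
    intro t ht h
    have h1 : ((𝒢.card : ℝ) - 1) * t ≤ D := by exact_mod_cast h
    have h2 : (2 : ℝ) ≤ 𝒢.card := by exact_mod_cast hc2
    have h3 : (0 : ℝ) ≤ t := by exact_mod_cast ht
    rw [le_div_iff₀ hμ0]
    nlinarith
  have hqle : (q : ℝ) ≤ 2 * D / μ := by
    refine hcast q hq.le (spaced (f := fun g => (g : ℤ)) hq (by positivity)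
      (fun a _ b _ h => by exact_mod_cast h)
      (fun a ha => ⟨by positivity, by exact_mod_cast (hG a ha).2.1⟩) (fun a ha a' ha' => ?_))
    refine hcop.dvd_of_dvd_mul_left ⟨ig N a - ig N a', ?_⟩
    have h1 := hl a ha
    have h2 := hl a' ha'
    linarith
  have hig : ∀ g ∈ 𝒢, 0 ≤ ig N g ∧ ig N g ≤ D := by
    intro g hg
    have h1 := ig_lt N (hG g hg).1
    have h2 : (g : ℤ) ≤ D := by exact_mod_cast (hG g hg).2.1
    exact ⟨ig_nonneg N (hG g hg).1, by linarith⟩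
  have hble : ((|b| : ℤ) : ℝ) ≤ 2 * D / μ := by
    rcases eq_or_ne b 0 with rfl | hb
    · simp only [abs_zero, Int.cast_zero]; positivity
    · refine hcast |b| (abs_nonneg b) (spaced (f := ig N) (abs_pos.2 hb) (by positivity)
        (fun a ha a' ha' h => ?_) hig (fun a ha a' ha' => ?_))
      · have h1 := hl a ha
        have h2 := hl a' ha'
        rw [h] at h1
        have h3 : b * a = b * a' := by linarith
        exact_mod_cast mul_left_cancel₀ hb h3
      · rw [abs_dvd]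
        refine hcop.symm.dvd_of_dvd_mul_left ⟨(a : ℤ) - a', ?_⟩
        have h1 := hl a ha
        have h2 := hl a' ha'
        linarith
  have hcle : ((|c| : ℤ) : ℝ) ≤ 4 * (D : ℝ) ^ 2 / μ := by
    obtain ⟨g, hg⟩ := hne
    have h1 := hl g hg
    have h2 := hig g hg
    have h3 : (g : ℤ) ≤ D := by exact_mod_cast (hG g hg).2.1
    have h4 : |c| ≤ q * D + |b| * D := by
      rw [← h1]
      calc |q * ig N g - b * g| ≤ |q * ig N g| + |b * g| := abs_sub _ _
        _ = q * ig N g + |b| * g := by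
            rw [abs_mul, abs_mul, abs_of_pos hq, abs_of_nonneg h2.1, Nat.abs_cast]
        _ ≤ q * D + |b| * D := by
            gcongr
            exact h2.2
    have h5 : ((|c| : ℤ) : ℝ) ≤ q * D + ((|b| : ℤ) : ℝ) * D := by exact_mod_cast h4
    calc ((|c| : ℤ) : ℝ) ≤ q * D + ((|b| : ℤ) : ℝ) * D := h5
      _ ≤ 2 * D / μ * D + 2 * D / μ * D := by gcongr
      _ = 4 * (D : ℝ) ^ 2 / μ := by ring
  have hk : 0 < Int.gcd c q := Int.gcd_pos_of_ne_zero_right c hq.ne'
  obtain ⟨a', q', hc1, h1, h2⟩ := Int.exists_gcd_one hk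
  generalize hkk : ((Int.gcd c q : ℕ) : ℤ) = k at h1 h2
  have hk0 : 0 < k := by rw [← hkk]; exact_mod_cast hk
  have hq' : 0 < q' := by
    rw [h2] at hq
    exact (pos_iff_pos_of_mul_pos hq).2 hk0
  obtain ⟨Q, rfl⟩ := Int.eq_ofNat_of_zero_le hq'.le
  have hQ : 1 ≤ Q := by exact_mod_cast hq'
  have hQq : (Q : ℤ) ≤ q := by rw [h2]; nlinarith
  have hkq : k ≤ q := by rw [h2]; nlinarith
  refine ⟨Q, a', hQ, ?_, ?_, hc1, fun g hg p hp hpg hpb => ?_⟩
  · have : ((Q : ℤ) : ℝ) ≤ q := by exact_mod_cast hQq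
    exact le_trans (by exact_mod_cast this) hqle
  · have h3 : |a'| ≤ |c| := by
      rw [h1, abs_mul, abs_of_pos hk0]
      nlinarith [abs_nonneg a']
    have h4 : ((|a'| : ℤ) : ℝ) ≤ ((|c| : ℤ) : ℝ) := by exact_mod_cast h3
    rw [← Int.cast_abs]
    exact h4.trans hcle
  · have h3 : (g : ℤ) ∣ k * (Q * N + a') := by
      refine ⟨q * Xg N g - b, ?_⟩
      have e1 := mul_Xg N g
      have e2 := hl g hg
      calc k * (Q * N + a') = q * N + c := by rw [h1, h2]; ring
        _ = q * (N + ig N g) - b * g := by rw [← e2]; ring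
        _ = g * (q * Xg N g - b) := by rw [← e1]; ring
    have h4 : (p : ℤ) ∣ k * (Q * N + a') := (Int.natCast_dvd_natCast.2 hpg).trans h3
    rcases (Nat.prime_iff_prime_int.1 hp).dvd_or_dvd h4 with h5 | h5
    · exfalso
      have h6 : (p : ℤ) ≤ k := Int.le_of_dvd hk0 h5
      have h7 : ((p : ℤ) : ℝ) ≤ q := by exact_mod_cast h6.trans hkq
      have h8 : (p : ℝ) ≤ q := by exact_mod_cast h7
      linarith
    · exact h5

end Crest.Agent.R1s
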