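import Crest.Agent.R1s.Ev

/-! Row 1: the smooth factor is Lipschitz. -/

set_option autoImplicit false

namespace Crest.Agent.R1s

open Finset Filter
open Crest.Agent.R5 (pr pd ee)

namespace LipAux

theorem gam_eq (M g : ℕ) (i h : ℤ) (f : ℕ) :
    gam M g i h f = (∑ x ∈ range M ×ˢ range M,
      ee ((((x.1 : ℝ) + x.2) - i) * h / (g * f))) / ((M : ℂ) * M) := by
  unfold gam wh
  rw [sq, sum_mul_sum, ← sum_product', div_mul_eq_mul_div, div_div, sum_mul]
  congr 1
  refine sum_congr rfl fun x _ => ?_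
  rw [← ee_add, ← ee_add]
  congr 1
  ring

theorem avg_le {M : ℕ} (hM : 1 ≤ M) (F : ℕ × ℕ → ℂ) {b : ℝ}
    (hF : ∀ x ∈ range M ×ˢ range M, ‖F x‖ ≤ b) :
    ‖(∑ x ∈ range M ×ˢ range M, F x) / ((M : ℂ) * M)‖ ≤ b := by
  have hM0 : (0 : ℝ) < M := by exact_mod_cast hM
  rw [norm_div, norm_mul, Complex.norm_natCast, div_le_iff₀ (by positivity)]
  refine (norm_sum_le _ _).trans ((sum_le_card_nsmul _ _ b hF).trans_eq ?_)
  rw [card_product, card_range, nsmul_eq_mul]
  push_cast
  ring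

end LipAux

theorem lipOK : LipStmt := by
  intro M g g' f i i' h hM hg hg' hf
  have hg0 : (0 : ℝ) < g := by exact_mod_cast hg
  have hg0' : (0 : ℝ) < g' := by exact_mod_cast hg'
  have hf0 : (0 : ℝ) < f := by exact_mod_cast hf
  constructor
  · rw [LipAux.gam_eq]
    exact LipAux.avg_le hM _ fun x _ => (norm_ee _).le
  · rw [LipAux.gam_eq, LipAux.gam_eq, ← sub_div, ← sum_sub_distrib]
    refine LipAux.avg_le hM _ fun x hx => (norm_ee_sub _ _).trans ?_
    obtain ⟨h1, h2⟩ := mem_product.1 hx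
    have h1' : (x.1 : ℝ) ≤ M := by exact_mod_cast (mem_range.1 h1).le
    have h2' : (x.2 : ℝ) ≤ M := by exact_mod_cast (mem_range.1 h2).le
    set w : ℝ := (x.1 : ℝ) + x.2 with hw
    have hw0 : 0 ≤ w := by positivity
    have e : (w - i) * h / (g * f) - (w - i') * h / (g' * f) =
        h * (((i' : ℝ) - i) / (g * f) + (w - i') * (g' - g) / (g * g' * f)) := by
      field_simp
      ring
    rw [e, abs_mul, mul_assoc (2 * Real.pi)]
    have hb : |w - i'| ≤ 2 * M + |(i' : ℝ)| := by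
      refine (abs_sub _ _).trans ?_
      rw [abs_of_nonneg hw0]
      linarith
    have hpi := Real.pi_pos
    gcongr
    refine (abs_add_le _ _).trans ?_
    rw [abs_div, abs_div, abs_of_pos (by positivity : (0 : ℝ) < g * f),
      abs_of_pos (by positivity : (0 : ℝ) < g * g' * f), abs_mul, abs_sub_comm (i' : ℝ),
      abs_sub_comm (g' : ℝ)]
    gcongr

end Crest.Agent.R1s
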