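import Crest.Agent.R1s.Ev

/-! Row 1: the moment bound. -/

set_option autoImplicit false

namespace Crest.Agent.R1s

open Finset Filter
open Crest.Agent.R5 (pr pd ee)

namespace MomAux

theorem map_sum' {R ι : Type*} [AddCommMonoid R] (ψ : AddChar R ℂ) (s : Finset ι) (y : ι → R) :
    ψ (∑ i ∈ s, y i) = ∏ i ∈ s, ψ (y i) := by
  classical
  induction s using Finset.induction_on with
  | empty => simp
  | insert a s ha ih => rw [sum_insert ha, prod_insert ha, AddChar.map_add_eq_mul, ih]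

/-- the second moment of an exponential sum -/
theorem l2 {R ι : Type*} [CommRing R] [Fintype R] [DecidableEq R] (ψ : AddChar R ℂ)
    (hψ : ψ.IsPrimitive) (X : Finset ι) (c : ι → ℂ) (hc : ∀ x, ‖c x‖ ≤ 1) (y : ι → R) :
    ∑ w : R, ‖∑ x ∈ X, c x * ψ (w * y x)‖ ^ 2 ≤
      Fintype.card R * (((X ×ˢ X).filter (fun x => y x.1 = y x.2)).card : ℝ) := by
  have h1 : ∀ w : R, ((‖∑ x ∈ X, c x * ψ (w * y x)‖ ^ 2 : ℝ) : ℂ) =
      ∑ x ∈ X ×ˢ X, c x.1 * (starRingEnd ℂ) (c x.2) * ψ (w * (y x.1 - y x.2)) := by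
    intro w
    rw [Complex.ofReal_pow, ← Complex.mul_conj', map_sum, sum_mul_sum, sum_product]
    refine sum_congr rfl fun x _ => sum_congr rfl fun x' _ => ?_
    rw [map_mul (starRingEnd ℂ), ← AddChar.map_neg_eq_conj, mul_sub, sub_eq_add_neg, AddChar.map_add_eq_mul]
    ring
  have h2 : ((∑ w : R, ‖∑ x ∈ X, c x * ψ (w * y x)‖ ^ 2 : ℝ) : ℂ) =
      ∑ x ∈ X ×ˢ X, c x.1 * (starRingEnd ℂ) (c x.2) *
        (if y x.1 = y x.2 then (Fintype.card R : ℂ) else 0) := by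
    rw [Complex.ofReal_sum]
    simp only [h1]
    rw [sum_comm]
    refine sum_congr rfl fun x _ => ?_
    rw [← mul_sum, AddChar.sum_mulShift _ hψ]
    simp only [sub_eq_zero]
    split_ifs <;> simp
  have h3 : (∑ w : R, ‖∑ x ∈ X, c x * ψ (w * y x)‖ ^ 2 : ℝ) ≤
      ‖((∑ w : R, ‖∑ x ∈ X, c x * ψ (w * y x)‖ ^ 2 : ℝ) : ℂ)‖ := by
    rw [Complex.norm_real]
    exact le_abs_self _
  refine h3.trans ?_
  rw [h2]
  refine (norm_sum_le _ _).trans ?_
  have h4 : ∀ x ∈ X ×ˢ X, ‖c x.1 * (starRingEnd ℂ) (c x.2) *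
      (if y x.1 = y x.2 then (Fintype.card R : ℂ) else 0)‖ ≤
      Fintype.card R * (if y x.1 = y x.2 then (1 : ℝ) else 0) := by
    intro x _
    split_ifs
    · rw [norm_mul, norm_mul, Complex.norm_conj, Complex.norm_natCast, mul_one]
      have h5 : ‖c x.1‖ * ‖c x.2‖ ≤ 1 := mul_le_one₀ (hc _) (norm_nonneg _) (hc _)
      exact mul_le_of_le_one_left (Nat.cast_nonneg _) h5
    · simp
  refine (sum_le_sum h4).trans ?_
  rw [← mul_sum, sum_boole]

end MomAux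

theorem momOK : MomStmt := by
  intro p r k _ 𝔅 a θ hθ ha
  set S : ZMod p → ℂ := fun w => ∑ s ∈ Fintype.piFinset 𝔅,
    a s * ZMod.stdAddChar (w * ((ps s : ℕ) : ZMod p)⁻¹) with hS
  have h1 : ∀ w, ‖S w‖ ^ (2 * k) = ‖∑ x ∈ ktup k 𝔅, (∏ i, a (x i)) *
      ZMod.stdAddChar (w * ∑ i, ((ps (x i) : ℕ) : ZMod p)⁻¹)‖ ^ 2 := by
    intro w
    rw [mul_comm 2 k, pow_mul, ← norm_pow]
    congr 2
    simp only [hS]
    rw [sum_pow']
    refine sum_congr rfl fun x _ => ?_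
    rw [prod_mul_distrib, mul_sum, MomAux.map_sum']
  have h2 := MomAux.l2 (ZMod.stdAddChar (N := p)) (ZMod.isPrimitive_stdAddChar p) (ktup k 𝔅)
    (fun x => ∏ i, a (x i)) (fun x => by
      rw [norm_prod]
      exact prod_le_one (fun i _ => norm_nonneg _) (fun i _ => ha _))
    (fun x => ∑ i, ((ps (x i) : ℕ) : ZMod p)⁻¹)
  rw [ZMod.card] at h2
  refine le_trans ?_ h2
  simp only [← h1]
  calc _ = ∑ w ∈ (univ : Finset (ZMod p)).filter (fun w => θ < ‖S w‖), θ ^ (2 * k) := by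
        rw [sum_const, nsmul_eq_mul]
    _ ≤ ∑ w ∈ (univ : Finset (ZMod p)).filter (fun w => θ < ‖S w‖), ‖S w‖ ^ (2 * k) :=
        sum_le_sum fun w hw => pow_le_pow_left₀ hθ.le (mem_filter.1 hw).2.le _
    _ ≤ _ := sum_le_sum_of_subset_of_nonneg (filter_subset _ _) fun w _ _ => by positivity

end Crest.Agent.R1s
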