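import Crest.Agent.R1s.Ev

/-! Row 1: no rich lines. -/

set_option autoImplicit false

namespace Crest.Agent.R1s

open Finset Filter
open Crest.Agent.R5 (pr pd ee)

namespace NoLineAux

theorem card_le (G P : Finset ℕ) (D : ℕ) (h : ∀ g ∈ G, 1 ≤ g ∧ g ≤ D ∧ ∃ p ∈ P, p ∣ g) :
    (G.card : ℝ) ≤ D * ∑ p ∈ P, 1 / (p : ℝ) := by
  have h1 : G ⊆ P.biUnion (fun p => (Ioc 0 D).filter (fun g => p ∣ g)) := by
    intro g hg
    obtain ⟨a, b, p, hp, hpg⟩ := h g hg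
    exact mem_biUnion.2 ⟨p, hp, mem_filter.2 ⟨mem_Ioc.2 ⟨a, b⟩, hpg⟩⟩
  have h2 := (card_le_card h1).trans card_biUnion_le
  have h3 : (G.card : ℝ) ≤ ∑ p ∈ P, (((Ioc 0 D).filter (fun g => p ∣ g)).card : ℝ) := by
    exact_mod_cast h2
  refine h3.trans ?_
  rw [mul_sum]
  refine sum_le_sum fun p _ => ?_
  rw [Nat.Ioc_filter_dvd_card_eq_div, mul_one_div]
  exact Nat.cast_div_le

end NoLineAux

theorem noLine : LineStmt → NoLineStmt := by
  intro hLine η B hη hη'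
  have hη4 : 0 < η / 4 := by positivity
  filter_upwards [ev_DD B, ev_rpow 3 (show 0 < 3 * η / 4 by positivity), eventually_ge_atTop 1]
    with m hDD h3 hm1 N Q hQ hSep 𝒢 h𝒢 α β γ hαβ
  have hm1' : (1 : ℝ) ≤ m := by exact_mod_cast hm1
  have hm0 : (0 : ℝ) < m := by linarith
  set D := DD B m with hD
  set y := (m : ℝ) ^ (η / 4) with hy
  have hy0 : 0 < y := by positivity
  have hmD : (m : ℝ) ≤ D := by exact_mod_cast hDD.1
  have hD0 : (0 : ℝ) < D := by linarith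
  have hym : y ≤ m := by
    calc y ≤ (m : ℝ) ^ (1 : ℝ) := Real.rpow_le_rpow_of_exponent_le hm1' (by linarith)
      _ = m := Real.rpow_one _
  have hμ : 1 ≤ (D : ℝ) / y := by
    rw [le_div_iff₀ hy0]; linarith
  have e1 : 2 * (D : ℝ) / (D / y) = 2 * y := by field_simp
  have e2 : 4 * (D : ℝ) ^ 2 / (D / y) = 4 * D * y := by field_simp
  have hlt : 2 * y < (m : ℝ) ^ η := by
    have : (m : ℝ) ^ η = (m : ℝ) ^ (3 * η / 4) * y := by
      rw [hy, ← Real.rpow_add hm0]; congr 1; ring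
    rw [this]
    nlinarith
  have hlt2 : (m : ℝ) ^ η ≤ (m : ℝ) ^ (2 * η) :=
    Real.rpow_le_rpow_of_exponent_le hm1' (by linarith)
  by_contra hcon
  rw [not_le] at hcon
  set G := 𝒢.filter (fun g : ℕ => α * g + β * ig N g = γ) with hG
  obtain ⟨q, a, hq1, hq2, ha, hgcd, hdiv⟩ := hLine N α β γ D G (D / y) hμ hαβ (fun g hg => by
    obtain ⟨h1, h2⟩ := mem_filter.1 hg
    exact ⟨(h𝒢 g h1).1, (h𝒢 g h1).2.1, h2⟩) hcon
  rw [e1] at hq2 hdiv
  rw [e2] at ha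
  have key : ∀ g ∈ G, ∃ π ∈ Q, π.2 ∣ g ∧ (π.1 : ℤ) ∣ q * N + a ∧ (π.2 : ℤ) ∣ q * N + a := by
    intro g hg
    obtain ⟨-, -, π, hπ, d1, d2⟩ := h𝒢 g (mem_filter.1 hg).1
    obtain ⟨m1, m2⟩ := mem_product.1 (hQ hπ)
    have m1' := mem_pr.1 m1
    have m2' := mem_pr.1 m2
    exact ⟨π, hπ, d2, hdiv g hg _ m1'.1 d1 (by linarith [m1'.2.1]),
      hdiv g hg _ m2'.1 d2 (by linarith [m2'.2.1])⟩
  have hc := NoLineAux.card_le G ((Lo η m).filter (fun p : ℕ => (p : ℤ) ∣ q * N + a)) D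
    (fun g hg => by
      obtain ⟨π, hπ, d2, -, d3⟩ := key g hg
      have h1 := h𝒢 g (mem_filter.1 hg).1
      exact ⟨h1.1, h1.2.1, π.2, mem_filter.2 ⟨(mem_product.1 (hQ hπ)).2, d3⟩, d2⟩)
  have hs : (m : ℝ) ^ (-(η / 4)) ≤
      ∑ p ∈ (Lo η m).filter (fun p : ℕ => (p : ℤ) ∣ q * N + a), 1 / (p : ℝ) := by
    rw [Real.rpow_neg hm0.le, ← hy]
    have := hcon.le.trans hc
    rw [div_eq_mul_inv] at this
    exact le_of_mul_le_mul_left this hD0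
  have hne : G.Nonempty := by
    rw [← card_pos]
    have : (0 : ℝ) < G.card := by linarith
    exact_mod_cast this
  obtain ⟨g, hg⟩ := hne
  obtain ⟨π, hπ, -, d⟩ := key g hg
  exact hSep q a hq1 hq2 ha hgcd hs π hπ d

end Crest.Agent.R1s
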