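import Crest.Agent.R1s.Ev
import Crest.Agent.R8.Lam

/-! Row 1: odd numbers with a given parity of Omega. -/

set_option autoImplicit false

namespace Crest.Agent.R1s

open Finset Filter
open Crest.Agent.R5 (pr pd ee)

namespace OddAux

theorem card_odd (X : ℕ) :
    ((Icc 1 X).filter (fun m => m ≡ 1 [MOD 2])).card = (X + 1) / 2 := by
  induction X with
  | zero => simp
  | succ n ih =>
    rw [← Finset.insert_Icc_right_eq_Icc_add_one (by omega), filter_insert]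
    split_ifs with h
    · rw [card_insert_of_notMem (by simp), ih]
      unfold Nat.ModEq at h
      omega
    · rw [ih]
      unfold Nat.ModEq at h
      omega

theorem card_eq {σ : ℕ} (hσ : σ ≤ 1) (X : ℕ) :
    ((AA σ X).card : ℝ) = (((X + 1) / 2 : ℕ) + (-1) ^ σ *
      ∑ m ∈ (Icc 1 X).filter (fun m => m ≡ 1 [MOD 2]), R8.lam m) / 2 := by
  have e : AA σ X = ((Icc 1 X).filter (fun m => m ≡ 1 [MOD 2])).filter
      (fun n => ArithmeticFunction.cardFactors n % 2 = σ) := by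
    unfold AA
    rw [filter_filter]
    rfl
  rw [e, ← card_odd, card_eq_sum_ones ((Icc 1 X).filter (fun m => m ≡ 1 [MOD 2])), card_filter,
    mul_sum]
  push_cast
  rw [← sum_add_distrib, sum_div]
  refine sum_congr rfl fun n hn => ?_
  have hn0 : n ≠ 0 := by
    have := (mem_Icc.1 (mem_filter.1 hn).1).1
    omega
  unfold R8.lam
  rw [ArithmeticFunction.liouville_apply hn0]
  push_cast
  rw [← pow_add]
  split_ifs with h
  · have : Even (σ + ArithmeticFunction.cardFactors n) := by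
      rw [Nat.even_iff]
      omega
    rw [this.neg_one_pow]
    norm_num
  · have : Odd (σ + ArithmeticFunction.cardFactors n) := by
      rw [Nat.odd_iff]
      omega
    rw [this.neg_one_pow]
    norm_num

end OddAux

theorem oddOK : R8.LamStmt → OddStmt := by
  rintro ⟨δ, C, hδ, hC, h⟩
  refine ⟨min δ 1, C + 1, lt_min hδ one_pos, min_le_right _ _, by positivity, fun σ hσ x hx => ?_⟩
  have hx0 : 0 ≤ x := by linarith
  have hX1 : (1 : ℝ) ≤ (⌊x⌋₊ : ℝ) := by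
    have : 1 ≤ ⌊x⌋₊ := Nat.le_floor (by simpa using hx)
    exact_mod_cast this
  have hXx : (⌊x⌋₊ : ℝ) ≤ x := Nat.floor_le hx0
  have hXx' : x < ⌊x⌋₊ + 1 := Nat.lt_floor_add_one x
  have h1 := h 2 1 ⌊x⌋₊ (by norm_num)
  have hm : 0 ≤ 1 - min δ 1 := sub_nonneg.2 (min_le_right _ _)
  have h2 : (⌊x⌋₊ : ℝ) ^ (1 - δ) ≤ x ^ (1 - min δ 1) :=
    (Real.rpow_le_rpow_of_exponent_le hX1 (by linarith [min_le_left δ 1])).trans
      (Real.rpow_le_rpow (by linarith) hXx hm)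
  have h3 : 1 ≤ x ^ (1 - min δ 1) := Real.one_le_rpow hx hm
  have h4 : 2 * ((⌊x⌋₊ + 1) / 2) ≤ ⌊x⌋₊ + 1 := by omega
  have h5 : ⌊x⌋₊ ≤ 2 * ((⌊x⌋₊ + 1) / 2) := by omega
  have h4' : 2 * (((⌊x⌋₊ + 1) / 2 : ℕ) : ℝ) ≤ ⌊x⌋₊ + 1 := by exact_mod_cast h4
  have h5' : (⌊x⌋₊ : ℝ) ≤ 2 * (((⌊x⌋₊ + 1) / 2 : ℕ) : ℝ) := by exact_mod_cast h5
  rw [OddAux.card_eq hσ]
  set S := ∑ m ∈ (Icc 1 ⌊x⌋₊).filter (fun m => m ≡ 1 [MOD 2]), R8.lam m
  have h6 : |(-1 : ℝ) ^ σ * S| ≤ 2 * (C * x ^ (1 - min δ 1)) := by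
    rw [abs_mul, abs_pow, abs_neg, abs_one, one_pow, one_mul]
    refine h1.trans ?_
    have := mul_le_mul_of_nonneg_left h2 hC.le
    push_cast
    linarith
  obtain ⟨h7, h8⟩ := abs_le.1 h6
  rw [abs_le]
  constructor <;> nlinarith

end Crest.Agent.R1s
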