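import Crest.Agent.R1s.Ev

/-! Row 1: Mertens with a power saving. -/

set_option autoImplicit false

namespace Crest.Agent.R1s

open Finset Filter
open Crest.Agent.R5 (pr pd ee)

namespace PS1Aux

theorem tele {δ : ℝ} (h0 : 0 < δ) (h1 : δ ≤ 1) {B : ℝ} (hB : 0 < B) :
    δ * B ^ (-δ) / (B + 1) ≤ B ^ (-δ) - (B + 1) ^ (-δ) := by
  have hB1 : 0 < B + 1 := by linarith
  have e1 : (B + 1) ^ (-δ) = B ^ (-δ) * (1 + -(1 / (B + 1))) ^ δ := by
    have : 1 + -(1 / (B + 1)) = B / (B + 1) := by field_simp; ring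
    rw [this, Real.div_rpow hB.le hB1.le, Real.rpow_neg hB.le, Real.rpow_neg hB1.le]
    have := Real.rpow_pos_of_pos hB δ
    field_simp
  have e2 := rpow_one_add_le_one_add_mul_self (s := -(1 / (B + 1))) (p := δ)
    (by rw [neg_le_neg_iff, div_le_one hB1]; linarith) h0.le h1
  have e3 := mul_le_mul_of_nonneg_left e2 (Real.rpow_pos_of_pos hB (-δ)).le
  rw [e1]
  have : δ * B ^ (-δ) / (B + 1) = B ^ (-δ) - B ^ (-δ) * (1 + δ * -(1 / (B + 1))) := by
    field_simp; ring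
  linarith

theorem log_step {B : ℝ} (hB : 0 < B) :
    |1 / (B + 1) - (Real.log (B + 1) - Real.log B)| ≤ 1 / B - 1 / (B + 1) := by
  have hB1 : 0 < B + 1 := by linarith
  have a1 := Real.log_le_sub_one_of_pos (div_pos hB1 hB)
  have a2 := Real.log_le_sub_one_of_pos (div_pos hB hB1)
  rw [Real.log_div hB1.ne' hB.ne'] at a1
  rw [Real.log_div hB.ne' hB1.ne'] at a2
  have e1 : (B + 1) / B - 1 = 1 / B := by field_simp; ring
  have e2 : B / (B + 1) - 1 = -(1 / (B + 1)) := by field_simp; ring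
  have e3 : 1 / (B + 1) ≤ 1 / B := one_div_le_one_div_of_le hB (by linarith)
  rw [abs_le]; constructor <;> linarith

theorem abel (c e : ℕ → ℝ) (he : ∀ n, e (n + 1) = e n + c (n + 1) - 1) {δ C : ℝ} (h0 : 0 < δ)
    (h1 : δ ≤ 1) (hb : ∀ n : ℕ, |e n| ≤ C * (n : ℝ) ^ (1 - δ)) {A : ℕ} (hA : 1 ≤ A) (B : ℕ)
    (hAB : A ≤ B) :
    |∑ n ∈ Ioc A B, c n / n - e B / B + e A / A - (Real.log B - Real.log A)| ≤
      (1 / (A : ℝ) - 1 / B) + C / δ * ((A : ℝ) ^ (-δ) - (B : ℝ) ^ (-δ)) := by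
  induction B, hAB using Nat.le_induction with
  | base => simp
  | succ B hAB ih =>
    have hB : (0 : ℝ) < B := by exact_mod_cast (show 0 < B by omega)
    have hC : 0 ≤ C := by
      have := (abs_nonneg _).trans (hb 1)
      simpa using this
    rw [sum_Ioc_succ_top hAB, he]
    push_cast
    have t1 := tele h0 h1 hB
    have t2 := log_step hB
    have t3 : |e B * (1 / B - 1 / (B + 1))| ≤ C / δ * ((B : ℝ) ^ (-δ) - ((B : ℝ) + 1) ^ (-δ)) := by
      have e1 : (1 / (B : ℝ) - 1 / (B + 1)) = 1 / (B * (B + 1)) := by field_simp; ring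
      rw [e1, abs_mul, abs_of_pos (show (0:ℝ) < 1 / (B * (B + 1)) by positivity)]
      refine (mul_le_mul_of_nonneg_right (hb B) (by positivity)).trans ?_
      refine le_trans (le_of_eq ?_) (mul_le_mul_of_nonneg_left t1 (by positivity))
      rw [sub_eq_add_neg, Real.rpow_add hB, Real.rpow_one]
      field_simp
    have key : ∑ n ∈ Ioc A B, c n / n + c (B + 1) / (B + 1) - (e B + c (B + 1) - 1) / (B + 1)
        + e A / A - (Real.log (B + 1) - Real.log A)
        = (∑ n ∈ Ioc A B, c n / n - e B / B + e A / A - (Real.log B - Real.log A))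
          + (1 / (B + 1) - (Real.log (B + 1) - Real.log B)) + e B * (1 / B - 1 / (B + 1)) := by
      ring
    rw [key]
    refine (abs_add_three _ _ _).trans ?_
    have : C / δ * ((A : ℝ) ^ (-δ) - ((B : ℝ) + 1) ^ (-δ))
        = C / δ * ((A : ℝ) ^ (-δ) - (B : ℝ) ^ (-δ))
          + C / δ * ((B : ℝ) ^ (-δ) - ((B : ℝ) + 1) ^ (-δ)) := by ring
    linarith

theorem log_floor {x : ℝ} (hx : 1 ≤ x) : |Real.log x - Real.log ⌊x⌋₊| ≤ 1 / (⌊x⌋₊ : ℝ) := by
  have h1 : 1 ≤ ⌊x⌋₊ := Nat.le_floor (by simpa using hx)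
  have hp : (0 : ℝ) < ⌊x⌋₊ := by exact_mod_cast h1
  have h2 := Nat.floor_le (show 0 ≤ x by linarith)
  have h3 := Nat.lt_floor_add_one x
  have a1 := Real.log_le_sub_one_of_pos (div_pos (show 0 < x by linarith) hp)
  rw [Real.log_div (by linarith) hp.ne'] at a1
  rw [abs_of_nonneg (sub_nonneg.2 (Real.log_le_log hp h2))]
  refine a1.trans ?_
  rw [div_sub_one hp.ne']
  exact div_le_div_of_nonneg_right (by linarith) hp.le

end PS1Aux

open PS1Aux in
theorem ps1 : ThetaStmt → PS1Stmt := by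
  rintro ⟨δ, C, h0, h1, hC, h⟩
  have h1' : δ ≤ 1 := by linarith
  set c : ℕ → ℝ := fun n => if n.Prime then Real.log n else 0 with hc
  set e : ℕ → ℝ := fun N => ∑ n ∈ Ioc 0 N, c n - N with he
  have hb : ∀ n : ℕ, |e n| ≤ C * (n : ℝ) ^ (1 - δ) := by
    intro n
    have := h 1 0 n le_rfl (by simp)
    simp only [Nat.modEq_one, and_true, Nat.totient_one, Nat.cast_one, div_one, mul_one] at this
    refine this.trans ?_
    have l2 : Real.log 2 ≤ 1 := by linarith [Real.log_two_lt_d9]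
    exact mul_le_of_le_one_right (by positivity) l2
  have hs : ∀ n, e (n + 1) = e n + c (n + 1) - 1 := by
    intro n
    simp only [he]
    rw [sum_Ioc_succ_top (Nat.zero_le n)]
    push_cast; ring
  refine ⟨δ, 2 * (3 + C / δ + 2 * C), h0, by positivity, fun ζ Y h2 hY => ?_⟩
  set A := ⌊ζ⌋₊ with hA
  set B := ⌊Y⌋₊ with hB
  have hA1 : 1 ≤ A := Nat.le_floor (by push_cast; linarith)
  have hAB : A ≤ B := Nat.floor_le_floor hY
  have hA0 : (1 : ℝ) ≤ A := by exact_mod_cast hA1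
  have hAB' : (A : ℝ) ≤ B := by exact_mod_cast hAB
  have hsum : ∑ p ∈ pr ζ Y, Real.log p / p = ∑ n ∈ Ioc A B, c n / n := by
    have : pr ζ Y = (Ioc A B).filter Nat.Prime := by
      ext p
      simp only [pr, mem_filter, mem_Icc, mem_Ioc, hA, hB,
        Nat.floor_lt (show 0 ≤ ζ by linarith)]
      exact ⟨fun h => ⟨⟨h.2.2, h.1.2⟩, h.2.1⟩, fun h => ⟨⟨h.2.one_le, h.1.2⟩, h.2, h.1.1⟩⟩
    rw [this, sum_filter]
    refine sum_congr rfl fun n _ => ?_
    simp only [hc]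
    split_ifs <;> simp
  have m1 := abel c e hs h0 h1' hb hA1 B hAB
  have m2 := log_floor (x := ζ) (by linarith)
  have m3 := log_floor (x := Y) (by linarith)
  rw [← hA] at m2
  rw [← hB] at m3
  set a := (A : ℝ) ^ (-δ) with ha
  have ha0 : 0 < a := Real.rpow_pos_of_pos (by linarith) _
  have hBa : (B : ℝ) ^ (-δ) ≤ a := Real.rpow_le_rpow_of_nonpos (by linarith) hAB' (by linarith)
  have hB0 : 0 < (B : ℝ) ^ (-δ) := Real.rpow_pos_of_pos (by linarith) _
  have i1 : 1 / (A : ℝ) ≤ a := by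
    rw [one_div, ← Real.rpow_neg_one]
    exact Real.rpow_le_rpow_of_exponent_le hA0 (by linarith)
  have i2 : 1 / (B : ℝ) ≤ 1 / (A : ℝ) := one_div_le_one_div_of_le (by linarith) hAB'
  have i3 : (0 : ℝ) < 1 / B := by have : (0:ℝ) < B := by linarith
                                  positivity
  have ee : ∀ n : ℕ, (1 : ℝ) ≤ n → |e n / n| ≤ C * (n : ℝ) ^ (-δ) := by
    intro n hn
    have hn0 : (0 : ℝ) < n := by linarith
    rw [abs_div, abs_of_pos hn0, div_le_iff₀ hn0]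
    refine (hb n).trans (le_of_eq ?_)
    rw [sub_eq_add_neg, Real.rpow_add hn0, Real.rpow_one]; ring
  have j1 := ee A hA0
  have j2 := (ee B (by linarith)).trans (mul_le_mul_of_nonneg_left hBa hC.le)
  have j3 : a ≤ 2 * ζ ^ (-δ) := by
    have f1 : ζ / 2 ≤ A := by have := Nat.lt_floor_add_one ζ; rw [← hA] at this; linarith
    have f2 : a ≤ (ζ / 2) ^ (-δ) := Real.rpow_le_rpow_of_nonpos (by linarith) f1 (by linarith)
    refine f2.trans ?_
    rw [Real.div_rpow (by linarith) (by norm_num), Real.rpow_neg (show (0:ℝ) ≤ 2 by norm_num),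
      div_inv_eq_mul, mul_comm]
    refine mul_le_mul_of_nonneg_right ?_ (Real.rpow_pos_of_pos (by linarith) _).le
    calc (2:ℝ) ^ δ ≤ 2 ^ (1:ℝ) := Real.rpow_le_rpow_of_exponent_le (by norm_num) h1'
      _ = 2 := Real.rpow_one 2
  have k1 : C / δ * (a - (B : ℝ) ^ (-δ)) ≤ C / δ * a :=
    mul_le_mul_of_nonneg_left (by linarith) (by positivity)
  have k2 : (3 + C / δ + 2 * C) * a ≤ (3 + C / δ + 2 * C) * (2 * ζ ^ (-δ)) :=
    mul_le_mul_of_nonneg_left j3 (by positivity)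
  rw [hsum]
  rw [abs_le] at m1 m2 m3 j1 j2 ⊢
  constructor <;> linarith [m1.1, m1.2, m2.1, m2.2, m3.1, m3.2, j1.1, j1.2, j2.1, j2.2]

end Crest.Agent.R1s
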