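import Crest.Agent.R1s.Ev

/-! Row 1: three weighted prime sums. -/

set_option autoImplicit false

namespace Crest.Agent.R1s

open Finset Filter
open Crest.Agent.R5 (pr pd ee)

namespace PS3Aux

open MeasureTheory

theorem ind_int (τ t y : ℝ) (h1 : τ < t) (h2 : t ≤ y) (h : ℝ → ℝ) :
    ∫ s in τ..y, (Set.Ici t).indicator h s = ∫ s in t..y, h s := by
  rw [intervalIntegral.integral_of_le (h1.le.trans h2), intervalIntegral.integral_of_le h2,
    setIntegral_indicator measurableSet_Ici, ← integral_Icc_eq_integral_Ioc]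
  congr 2
  ext x
  simp only [Set.mem_inter_iff, Set.mem_Ioc, Set.mem_Ici, Set.mem_Icc]
  constructor
  · rintro ⟨⟨-, b⟩, c⟩; exact ⟨c, b⟩
  · rintro ⟨a, b⟩; exact ⟨⟨h1.trans_le a, b⟩, a⟩

theorem abel (S : Finset ℕ) (a t : ℕ → ℝ) (τ y : ℝ) (hτ : τ ≤ y)
    (ht : ∀ p ∈ S, τ < t p ∧ t p ≤ y) (h F : ℝ → ℝ) (hh : ContinuousOn h (Set.Icc τ y))
    (hF : ContinuousOn F (Set.Icc τ y))
    (hle : ∀ s ∈ Set.Icc τ y, (∑ p ∈ S.filter (fun p => t p ≤ s), a p) * h s ≤ F s) :
    ∑ p ∈ S, a p * ∫ s in t p..y, h s ≤ ∫ s in τ..y, F s := by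
  have hi : IntervalIntegrable h volume τ y := hh.intervalIntegrable_of_Icc hτ
  have hint : ∀ p ∈ S, IntervalIntegrable (fun s => a p * (Set.Ici (t p)).indicator h s)
      volume τ y := fun p _ =>
    IntervalIntegrable.const_mul
      (⟨hi.1.indicator measurableSet_Ici, hi.2.indicator measurableSet_Ici⟩ :
        IntervalIntegrable (fun s => (Set.Ici (t p)).indicator h s) volume τ y) _
  have e1 : ∑ p ∈ S, a p * ∫ s in t p..y, h s =
      ∫ s in τ..y, ∑ p ∈ S, a p * (Set.Ici (t p)).indicator h s := by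
    rw [intervalIntegral.integral_finsetSum hint]
    refine sum_congr rfl fun p hp => ?_
    rw [intervalIntegral.integral_const_mul, ind_int τ (t p) y (ht p hp).1 (ht p hp).2]
  rw [e1]
  refine intervalIntegral.integral_mono_on hτ ?_ (hF.intervalIntegrable_of_Icc hτ) ?_
  · have := IntervalIntegrable.sum S hint
    have e : (∑ i ∈ S, fun s => a i * (Set.Ici (t i)).indicator h s) =
        fun s => ∑ i ∈ S, a i * (Set.Ici (t i)).indicator h s := by
      funext s
      simp only [Finset.sum_apply]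
    rwa [e] at this
  · intro s hs
    refine le_of_eq_of_le ?_ (hle s hs)
    rw [sum_mul, sum_filter]
    refine sum_congr rfl fun p _ => ?_
    by_cases hp : t p ≤ s <;> simp [Set.indicator, hp]

theorem int1 (t y : ℝ) (ht : 0 < t) (hy : t ≤ y) :
    ∫ s in t..y, 2 / s ^ 3 = 1 / t ^ 2 - 1 / y ^ 2 := by
  have : ∫ s in t..y, 2 / s ^ 3 = (-1 / y ^ 2) - (-1 / t ^ 2) := by
    refine intervalIntegral.integral_eq_sub_of_hasDerivAt (f := fun s => -1 / s ^ 2) ?_ ?_
    · intro s hs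
      rw [Set.uIcc_of_le hy] at hs
      have hs0 : s ≠ 0 := (ht.trans_le hs.1).ne'
      have := (hasDerivAt_const s (-1 : ℝ)).div (hasDerivAt_pow 2 s) (pow_ne_zero 2 hs0)
      refine HasDerivAt.congr_deriv this ?_
      field_simp
      norm_num
      ring
    · refine ContinuousOn.intervalIntegrable_of_Icc hy ?_
      refine continuousOn_const.div (by fun_prop) fun s hs => pow_ne_zero 3 (ht.trans_le hs.1).ne'
  rw [this]; ring

theorem int2 (τ y c : ℝ) (ht : 0 < τ) (hy : τ ≤ y) :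
    ∫ s in τ..y, (s - c) * (2 / s ^ 3) = (-2 / y + c / y ^ 2) - (-2 / τ + c / τ ^ 2) := by
  refine intervalIntegral.integral_eq_sub_of_hasDerivAt (f := fun s => -2 / s + c / s ^ 2) ?_ ?_
  · intro s hs
    rw [Set.uIcc_of_le hy] at hs
    have hs0 : s ≠ 0 := (ht.trans_le hs.1).ne'
    have := ((hasDerivAt_const s (-2 : ℝ)).div (hasDerivAt_id s) hs0).add
      ((hasDerivAt_const s c).div (hasDerivAt_pow 2 s) (pow_ne_zero 2 hs0))
    refine HasDerivAt.congr_deriv this ?_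
    simp only [id]
    field_simp
    norm_num
    ring
  · refine ContinuousOn.intervalIntegrable_of_Icc hy ?_
    refine ContinuousOn.mul (by fun_prop) ?_
    refine continuousOn_const.div (by fun_prop) fun s hs => pow_ne_zero 3 (ht.trans_le hs.1).ne'

theorem int3 (τ y c : ℝ) :
    ∫ s in τ..y, (c - s) = (c * y - y ^ 2 / 2) - (c * τ - τ ^ 2 / 2) := by
  refine intervalIntegral.integral_eq_sub_of_hasDerivAt (f := fun s => c * s - s ^ 2 / 2) ?_ ?_
  · intro s _
    have := ((hasDerivAt_id s).const_mul c).sub ((hasDerivAt_pow 2 s).div_const 2)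
    refine HasDerivAt.congr_deriv this ?_
    norm_num
  · exact (by fun_prop : Continuous fun s : ℝ => c - s).intervalIntegrable _ _

theorem filt (ζ Y s : ℝ) (hζ : 0 < ζ) (hY : ζ ≤ Y) (hs : s ≤ Real.log Y) :
    (pr ζ Y).filter (fun p : ℕ => Real.log p ≤ s) = pr ζ (Real.exp s) := by
  ext p
  simp only [mem_filter, mem_pr]
  constructor
  · rintro ⟨⟨a, b, -⟩, d⟩
    exact ⟨a, b, (Real.log_le_iff_le_exp (hζ.trans b)).1 d⟩
  · rintro ⟨a, b, c⟩
    refine ⟨⟨a, b, c.trans ?_⟩, (Real.log_le_iff_le_exp (hζ.trans b)).2 c⟩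
    exact (Real.le_log_iff_exp_le (hζ.trans_le hY)).1 hs

theorem rp (δ ζ : ℝ) (hδ : 0 < δ) (hζ : 2 ≤ ζ) :
    ζ ^ (-δ) ≤ (8 / δ) ^ 8 * (1 / Real.log ζ ^ 8) := by
  have h0 : 0 < ζ := by linarith
  have hl : 0 < Real.log ζ := Real.log_pos (by linarith)
  have h1 : Real.log ζ ≤ ζ ^ (δ / 8) / (δ / 8) := Real.log_le_rpow_div h0.le (by positivity)
  have h2 : Real.log ζ ^ 8 ≤ (8 / δ) ^ 8 * ζ ^ δ := by
    calc Real.log ζ ^ 8 ≤ (ζ ^ (δ / 8) / (δ / 8)) ^ 8 := pow_le_pow_left₀ hl.le h1 8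
      _ = (8 / δ) ^ 8 * (ζ ^ (δ / 8)) ^ 8 := by field_simp
      _ = (8 / δ) ^ 8 * ζ ^ δ := by
        rw [← Real.rpow_natCast (ζ ^ (δ / 8)), ← Real.rpow_mul h0.le]
        norm_num
  rw [Real.rpow_neg h0.le, mul_one_div, le_div_iff₀ (by positivity), inv_mul_le_iff₀ (by positivity)]
  linarith

end PS3Aux

open PS3Aux in
theorem ps3 : PS1Stmt → EtaStmt → PS3Stmt := by
  rintro ⟨δ, C, hδ, hC, h1⟩ ⟨hη, -, C₂, hC₂, h2⟩
  refine ⟨4 * (C * ((8 / δ) ^ 8 * C₂)), by positivity, fun ζ Y hζ hY => ?_⟩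
  have h0 : 0 < ζ := by linarith
  set e := C * ζ ^ (-δ) with he
  have he0 : 0 ≤ e := by positivity
  have heη : e ≤ C * ((8 / δ) ^ 8 * C₂) * eta ζ := by
    have a := rp δ ζ hδ hζ
    have b := (h2 ζ hζ).2
    have c : (8 / δ) ^ 8 * (1 / Real.log ζ ^ 8) ≤ (8 / δ) ^ 8 * (C₂ * eta ζ) :=
      mul_le_mul_of_nonneg_left b (by positivity)
    calc e ≤ C * ((8 / δ) ^ 8 * (C₂ * eta ζ)) := mul_le_mul_of_nonneg_left (a.trans c) hC.le
      _ = _ := by ring
  set K := C * ((8 / δ) ^ 8 * C₂) with hK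
  set τ := Real.log ζ with hτ
  set y := Real.log Y with hy
  have hτ2 : 1 / 2 ≤ τ := by
    have := Real.log_le_log (by norm_num) hζ
    have := Real.log_two_gt_d9
    linarith
  have hτ0 : 0 < τ := by linarith
  have hτy : τ ≤ y := Real.log_le_log h0 hY
  have hy0 : 0 < y := by linarith
  have ht : ∀ p ∈ pr ζ Y, τ < Real.log p ∧ Real.log p ≤ y := fun p hp => by
    obtain ⟨-, b, c⟩ := mem_pr.1 hp
    exact ⟨Real.log_lt_log h0 b, Real.log_le_log (h0.trans b) c⟩
  have hA : ∀ s ∈ Set.Icc τ y,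
      |∑ p ∈ (pr ζ Y).filter (fun p : ℕ => Real.log p ≤ s), Real.log p / p - (s - τ)| ≤ e := by
    intro s hs
    rw [filt ζ Y s h0 hY hs.2]
    have := h1 ζ (Real.exp s) hζ ((Real.log_le_iff_le_exp h0).1 hs.1)
    rwa [Real.log_exp] at this
  have hAy := abs_le.1 (h1 ζ Y hζ hY)
  rw [← he, ← hτ, ← hy] at hAy
  have hKη : 0 ≤ K * eta ζ := he0.trans heη
  refine ⟨?_, ?_, ?_⟩
  · have a := abel (pr ζ Y) (fun p => Real.log p / p) (fun p => Real.log p) τ y hτy ht
      (fun s => 2 / s ^ 3) (fun s => (s - (τ - e)) * (2 / s ^ 3))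
      (continuousOn_const.div (by fun_prop) fun s hs => pow_ne_zero 3 (hτ0.trans_le hs.1).ne')
      (ContinuousOn.mul (by fun_prop)
        (continuousOn_const.div (by fun_prop) fun s hs => pow_ne_zero 3 (hτ0.trans_le hs.1).ne'))
      (fun s hs => by
        have hs0 : 0 < s := hτ0.trans_le hs.1
        refine mul_le_mul_of_nonneg_right ?_ (by positivity)
        have := (abs_le.1 (hA s hs)).2
        linarith)
    rw [int2 τ y _ hτ0 hτy] at a
    have b : ∑ p ∈ pr ζ Y, 1 / ((p : ℝ) * Real.log p) =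
        (∑ p ∈ pr ζ Y, Real.log p / p) * (1 / y ^ 2) +
          ∑ p ∈ pr ζ Y, Real.log p / p * ∫ s in Real.log p..y, 2 / s ^ 3 := by
      rw [sum_mul, ← sum_add_distrib]
      refine sum_congr rfl fun p hp => ?_
      have hp0 : 0 < Real.log p := hτ0.trans (ht p hp).1
      have hp1 : (0 : ℝ) < p := h0.trans (mem_pr.1 hp).2.1
      rw [int1 _ _ hp0 (ht p hp).2]
      field_simp
      ring
    have c : (∑ p ∈ pr ζ Y, Real.log p / p) * (1 / y ^ 2) ≤ (y - τ + e) * (1 / y ^ 2) :=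
      mul_le_mul_of_nonneg_right (by linarith [hAy.2]) (by positivity)
    have d : (y - τ + e) * (1 / y ^ 2) +
        ((-2 / y + (τ - e) / y ^ 2) - (-2 / τ + (τ - e) / τ ^ 2)) =
        1 / τ - 1 / y + e / τ ^ 2 := by
      field_simp
      ring
    have f : e / τ ^ 2 ≤ 4 * e := by
      rw [div_le_iff₀ (by positivity)]
      have : 1 ≤ 4 * τ ^ 2 := by nlinarith
      nlinarith
    rw [b]
    linarith
  · rw [abs_le]
    constructor <;> linarith [hAy.1, hAy.2]
  · have a := abel (pr ζ Y) (fun p => Real.log p / p) (fun p => Real.log p) τ y hτy ht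
      (fun _ => -1) (fun s => (τ + e) - s) continuousOn_const (by fun_prop)
      (fun s hs => by
        have := (abs_le.1 (hA s hs)).1
        linarith)
    rw [int3] at a
    have b : ∑ p ∈ pr ζ Y, Real.log p ^ 2 / p =
        (∑ p ∈ pr ζ Y, Real.log p / p) * y +
          ∑ p ∈ pr ζ Y, Real.log p / p * ∫ _ in Real.log p..y, (-1 : ℝ) := by
      rw [sum_mul, ← sum_add_distrib]
      refine sum_congr rfl fun p _ => ?_
      rw [intervalIntegral.integral_const]
      simp only [smul_eq_mul]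
      ring
    have c : (∑ p ∈ pr ζ Y, Real.log p / p) * y ≤ (y - τ + e) * y :=
      mul_le_mul_of_nonneg_right (by linarith [hAy.2]) hy0.le
    have d : y * e ≤ y * (K * eta ζ) := mul_le_mul_of_nonneg_left heη hy0.le
    have f : 0 ≤ e * τ := by positivity
    have g : 0 ≤ y * e := by positivity
    rw [b]
    nlinarith

end Crest.Agent.R1s
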