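import Crest.Agent.R1s.Ev

/-! Row 1: numerics: the typical part. -/

set_option autoImplicit false

namespace Crest.Agent.R1s

open Finset Filter
open Crest.Agent.R5 (pr pd ee)

namespace ParAAux

theorem n1_le {D P : ℕ} {L : ℝ} (hD : 1 ≤ D) (hL : 2 ≤ L) (hlD : Real.log D ≤ 2 * L - 1)
    (hP : 8 ≤ Real.log P) : (n1 D P : ℝ) ≤ L := by
  have hP0 : (0 : ℝ) < P := by
    rcases Nat.eq_zero_or_pos P with h | h
    · subst h; simp at hP; linarith
    · exact_mod_cast h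
  have hD0 : (0 : ℝ) < D := by exact_mod_cast hD
  have h1 : P ^ Nat.log P (2 * D ^ 2) ≤ 2 * D ^ 2 := Nat.pow_log_le_self P (by positivity)
  have h2 : (P : ℝ) ^ Nat.log P (2 * D ^ 2) ≤ 2 * (D : ℝ) ^ 2 := by exact_mod_cast h1
  have h3 := Real.log_le_log (by positivity) h2
  rw [Real.log_pow, Real.log_mul (by norm_num) (by positivity), Real.log_pow] at h3
  have h4 : Real.log 2 ≤ 1 := by
    have := Real.log_two_lt_d9; linarith
  have h5 : (0 : ℝ) ≤ (Nat.log P (2 * D ^ 2) : ℕ) := Nat.cast_nonneg _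
  have h6 : ((Nat.log P (2 * D ^ 2) : ℕ) : ℝ) * 8 ≤ 4 * L := by
    push_cast at h3
    nlinarith
  unfold n1
  push_cast
  linarith

theorem div_ge {D V : ℕ} (hV : 1 ≤ V) (h : V ≤ D) : (D : ℝ) / (2 * V) ≤ ((D / V : ℕ) : ℝ) := by
  have hV0 : (0 : ℝ) < V := by exact_mod_cast hV
  have h1 : 1 ≤ D / V := (Nat.le_div_iff_mul_le hV).2 (by simpa using h)
  have h2 : D < V * (D / V + 1) := Nat.lt_mul_div_succ D hV
  have h3 : (D : ℝ) < V * (((D / V : ℕ) : ℝ) + 1) := by exact_mod_cast h2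
  have h4 : (1 : ℝ) ≤ ((D / V : ℕ) : ℝ) := by exact_mod_cast h1
  rw [div_le_iff₀ (by positivity)]
  nlinarith

theorem err2 {D D₀ V A B : ℕ} {L : ℝ} (hL : 1 ≤ L) (hV : 1 ≤ V) (h : V ≤ D₀)
    (hD : (D : ℝ) ≤ 2 * L ^ (B + 2) * D₀) (hVL : 104 * L ^ (2 * A + B + 5) ≤ V) :
    26 * L ^ A * D * ((D₀ / V ^ 2 : ℕ) : ℝ) / (((D₀ / V : ℕ) : ℝ) * D₀) ≤ 1 / L ^ (A + 3) := by
  have hV0 : (0 : ℝ) < V := by exact_mod_cast hV
  have hD0 : (0 : ℝ) < D₀ := by exact_mod_cast (hV.trans h)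
  have hL0 : 0 < L := by linarith
  have h1 := div_ge hV h
  have h2 : ((D₀ / V ^ 2 : ℕ) : ℝ) ≤ D₀ / (V : ℝ) ^ 2 := by
    have := @Nat.cast_div_le ℝ _ _ _ D₀ (V ^ 2)
    push_cast at this
    exact this
  calc 26 * L ^ A * D * ((D₀ / V ^ 2 : ℕ) : ℝ) / (((D₀ / V : ℕ) : ℝ) * D₀)
      ≤ 26 * L ^ A * (2 * L ^ (B + 2) * D₀) * (D₀ / (V : ℝ) ^ 2) / ((D₀ : ℝ) / (2 * V) * D₀) := by
        gcongr
    _ = 104 * L ^ (A + B + 2) / V := by
        field_simp
        ring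
    _ ≤ 1 / L ^ (A + 3) := by
        rw [div_le_div_iff₀ hV0 (by positivity)]
        calc 104 * L ^ (A + B + 2) * L ^ (A + 3) = 104 * L ^ (2 * A + B + 5) := by ring
          _ ≤ V := hVL
          _ = 1 * V := by ring

end ParAAux

open ParAAux in
theorem parA : ParAStmt := by
  intro B A r κ hκ hκ2 hr
  filter_upwards [ev_log 100, ev_loglog 1, ev_log_rpow 9 (c := 0) (c' := 1 / 20) (by norm_num),
    ev_exp 1 (A + 4) (a := κ / 40) (c := 1 / 20) (by positivity) (by norm_num),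
    ev_exp 4 (A + 4) (a := 1) (c := 1 / 20) (by norm_num) (by norm_num),
    ev_log_rpow (10 * ((r : ℝ) + 1)) (c := 1 / 10) (c' := 1) (by norm_num),
    ev_VV_pow 104 (2 * A + B + 5) (c := 1) one_pos, ev_VV_pow 1 1 (c := 1 / 2) (by norm_num),
    ev_log_pow 2 2 (c := 1 / 2) (by norm_num), ev_D0, ev_DD B, ev_VV, eventually_ge_atTop 3]
    with m hL hl h9 hκe h4e h10 hV1 hV2 hL2 hD0 hDD hVV hm3
  intro P hP
  set L := Real.log m with hLdef
  have hL0 : 0 < L := by linarith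
  have hL1 : 1 ≤ L := by linarith
  have hm0 : (0 : ℝ) < m := by exact_mod_cast (by omega : 0 < m)
  rw [Real.rpow_zero, mul_one] at h9
  rw [one_mul] at hκe h4e
  rw [Real.rpow_one] at h10
  have hE : Real.exp (L ^ (1 / 20 : ℝ)) ≤ 2 * P := (ZZ_ge hm3 r).trans hP.1
  have hP0 : (0 : ℝ) < P := by
    have := Real.exp_pos (L ^ (1 / 20 : ℝ)); linarith
  have hlog2 : Real.log 2 ≤ 1 := by
    have := Real.log_two_lt_d9; linarith
  have hlP : L ^ (1 / 20 : ℝ) - 1 ≤ Real.log P := by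
    have h1 := Real.log_le_log (Real.exp_pos _) hE
    rw [Real.log_exp, Real.log_mul (by norm_num) hP0.ne'] at h1
    linarith
  have hlP8 : 8 ≤ Real.log P := by linarith
  have hlP' : Real.log P ≤ L ^ (1 / 10 : ℝ) := by
    have h1 := hP.2
    rw [ZZ_top] at h1
    have h2 := Real.log_le_log hP0 h1
    rwa [Real.log_exp] at h2
  have hX : 0 < L ^ (A + 3) := by positivity
  -- first term
  have hkk : (kk r m P : ℝ) ≤ 5 * L ^ (1 / 10 : ℝ) := by
    have hr1 : (1 : ℝ) ≤ r := by exact_mod_cast hr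
    have h2P : Real.log (2 * P) ≤ 1 + L ^ (1 / 10 : ℝ) := by
      rw [Real.log_mul (by norm_num) hP0.ne']; linarith
    have h2P0 : 0 ≤ Real.log (2 * P) := by
      rw [Real.log_mul (by norm_num) hP0.ne']
      have := Real.log_nonneg (by norm_num : (1 : ℝ) ≤ 2); linarith
    have hden : 1 ≤ (r : ℝ) * Real.log L := by nlinarith
    have h1 : 2 * Real.log (2 * P) / (r * Real.log L) ≤ 2 * Real.log (2 * P) :=
      div_le_self (by positivity) hden
    have h2 : (kk r m P : ℝ) < 2 * Real.log (2 * P) / (r * Real.log L) + 1 :=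
      Nat.ceil_lt_add_one (by positivity)
    linarith
  have hPκ : L ^ (A + 4) ≤ (P : ℝ) ^ (κ / 20) := by
    rw [Real.rpow_def_of_pos hP0]
    refine hκe.trans (Real.exp_le_exp.2 ?_)
    nlinarith
  have t1 : 2 * (kk r m P : ℝ) * (r + 1) / (P : ℝ) ^ (κ / 20 - 1) ≤ P / L ^ (A + 3) := by
    have hnum : 2 * (kk r m P : ℝ) * (r + 1) ≤ L := by
      have : (0 : ℝ) ≤ (r : ℝ) + 1 := by positivity
      nlinarith
    rw [Real.rpow_sub_one hP0.ne', div_div_eq_mul_div]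
    calc 2 * (kk r m P : ℝ) * (r + 1) * P / (P : ℝ) ^ (κ / 20) ≤ L * P / L ^ (A + 4) := by
          gcongr
      _ = P / L ^ (A + 3) := by
          field_simp
          ring
  -- second term
  have hVD : VV m ≤ D0 m := by
    have h1 : (VV m : ℝ) ≤ (m : ℝ) ^ (1 / 2 : ℝ) := by simpa using hV2.2
    have h2 : (m : ℝ) ^ (1 / 2 : ℝ) * (m : ℝ) ^ (1 / 2 : ℝ) = m := by
      rw [← Real.rpow_add hm0]; norm_num
    have h3 : (VV m : ℝ) ≤ m / (2 * L ^ 2) := by
      rw [le_div_iff₀ (by positivity)]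
      calc (VV m : ℝ) * (2 * L ^ 2) ≤ (m : ℝ) ^ (1 / 2 : ℝ) * (m : ℝ) ^ (1 / 2 : ℝ) := by gcongr
        _ = m := h2
    exact_mod_cast h3.trans hD0.1
  have t2 : (P : ℝ) * (th A m + 26 * L ^ A * DD B m * dl m / ((D0 m / VV m : ℕ) * D0 m)) ≤
      2 * (P / L ^ (A + 3)) := by
    have h1 := err2 (D := DD B m) (A := A) (B := B) hL1 (by omega : 1 ≤ VV m) hVD hDD.2.2.2.1 hV1.1
    have h2 : th A m = 1 / L ^ (A + 3) := rfl
    calc (P : ℝ) * (th A m + 26 * L ^ A * DD B m * dl m / ((D0 m / VV m : ℕ) * D0 m))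
        ≤ P * (1 / L ^ (A + 3) + 1 / L ^ (A + 3)) := by
          rw [h2]
          exact mul_le_mul_of_nonneg_left (add_le_add le_rfl h1) hP0.le
      _ = 2 * (P / L ^ (A + 3)) := by ring
  -- third term
  have hn1 : (n1 (DD B m) P : ℝ) ≤ L :=
    n1_le (by have := hDD.1; omega) (by linarith) hDD.2.2.2.2 hlP8
  have hn2 : L ^ (A + 4) ≤ (n2 A m : ℝ) := Nat.le_ceil _
  have t3 : ((P : ℝ) / n2 A m + 2) * n1 (DD B m) P ≤ 2 * (P / L ^ (A + 3)) := by
    have h1 : (P : ℝ) / n2 A m ≤ P / L ^ (A + 4) := by gcongr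
    have h2 : (2 : ℝ) ≤ P / L ^ (A + 4) := by
      rw [le_div_iff₀ (by positivity)]; linarith
    calc ((P : ℝ) / n2 A m + 2) * n1 (DD B m) P ≤ (P / L ^ (A + 4) + P / L ^ (A + 4)) * L := by
          gcongr
      _ = 2 * (P / L ^ (A + 3)) := by
          field_simp
          ring
  have hlD : 1 + Real.log (DD B m) ≤ 2 * L := by linarith [hDD.2.2.2.2]
  have hlD0 : 0 ≤ 1 + Real.log (DD B m) := by
    have := Real.log_natCast_nonneg (DD B m); linarith
  calc (1 + Real.log (DD B m)) * (2 * kk r m P * (r + 1) / (P : ℝ) ^ (κ / 20 - 1) +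
      P * (th A m + 26 * L ^ A * DD B m * dl m / ((D0 m / VV m : ℕ) * D0 m)) +
      ((P : ℝ) / n2 A m + 2) * n1 (DD B m) P)
      ≤ (1 + Real.log (DD B m)) * (5 * (P / L ^ (A + 3))) :=
        mul_le_mul_of_nonneg_left (by linarith) hlD0
    _ ≤ 2 * L * (5 * (P / L ^ (A + 3))) := by gcongr
    _ = P / (2 * L ^ A) * (20 / L ^ 2) := by
        field_simp
        ring
    _ ≤ P / (2 * L ^ A) * 1 := by
        gcongr
        rw [div_le_one (by positivity)]
        nlinarith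
    _ = P / (2 * L ^ A) := mul_one _

end Crest.Agent.R1s
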