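import Crest.Agent.R1s.Ev

/-! Row 1: numerics: the structured classes. -/

set_option autoImplicit false

namespace Crest.Agent.R1s

open Finset Filter
open Crest.Agent.R5 (pr pd ee)

namespace ParBAux

theorem natdiv {a b : ℕ} (hb : 0 < b) (h : b ≤ a) : (a : ℝ) ≤ 2 * b * (a / b : ℕ) := by
  have h1 : 1 ≤ a / b := (Nat.le_div_iff_mul_le hb).2 (by omega)
  have h2 := Nat.div_add_mod a b
  have h3 := Nat.mod_lt a hb
  have h4 : b ≤ b * (a / b) := Nat.le_mul_of_pos_right _ h1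
  have h5 : a ≤ 2 * b * (a / b) := by
    rw [mul_assoc]
    omega
  exact_mod_cast h5

theorem core {P n V X Z N Q D G M W : ℝ} (hn : 0 < n) (hnP : n ≤ P) (hV0 : 0 ≤ V)
    (hV : V ^ 7 ≤ M) (hX : X ^ 2 ≤ M) (hZ0 : 0 ≤ Z) (hZ : Z ≤ M) (hN0 : 0 ≤ N) (hN : N ≤ M)
    (hQ0 : 0 ≤ Q) (hQ : Q ≤ M ^ 9) (hD0 : 0 ≤ D) (hD : D ≤ M * G) (hG : 0 < G) (hM : 1 ≤ M)
    (hW : 0 < W) (hWM : 6 * W ≤ M) :
    (P / n + 2) * n * (V ^ 6 * X ^ 2 * V * Z * N * Q * (D / M ^ 20)) / G ≤ P / (2 * W) := by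
  have hM0 : 0 < M := by linarith
  have hP : 0 < P := hn.trans_le hnP
  have h1 : (P / n + 2) * n ≤ 3 * P := by
    rw [add_mul, div_mul_cancel₀ _ hn.ne']
    linarith
  have h2 : V ^ 6 * X ^ 2 * V * Z * N * Q * (D / M ^ 20) ≤ G / M ^ 6 := by
    have e1 : V ^ 6 * X ^ 2 * V = V ^ 7 * X ^ 2 := by ring
    have e2 : G / M ^ 6 = M * M * M * M * M ^ 9 * (M * G / M ^ 20) := by
      field_simp
    rw [e1, e2]
    gcongr
  have h3 : M ≤ M ^ 6 := le_self_pow₀ hM (by norm_num)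
  calc _ ≤ 3 * P * (G / M ^ 6) / G := by gcongr
    _ = 3 * P / M ^ 6 := by field_simp
    _ ≤ 3 * P / (6 * W) := by gcongr; linarith
    _ = P / (2 * W) := by field_simp; ring

/-- the factors that depend on `VV` -/
theorem partV (B : ℕ) {a : ℝ} (ha : 0 < a) : ∀ᶠ m : ℕ in atTop,
    (VV m : ℝ) ^ 7 ≤ (m : ℝ) ^ a ∧ ((DD B m : ℝ) / dl m + 1) ^ 2 ≤ (m : ℝ) ^ a ∧
      (DD B m : ℝ) ≤ (m : ℝ) ^ a * (D0 m / VV m : ℕ) ∧ (0 : ℝ) < (D0 m / VV m : ℕ) := by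
  filter_upwards [ev_VV_pow 1 8 ha, ev_VV_pow 4 (B + 2) ha, ev_VV_pow 2 3 one_pos, ev_VV, ev_D0,
    ev_DD B, ev_log 1] with m h1 h2 h3 h4 h5 h6 hL
  obtain ⟨V, hV⟩ : ∃ V : ℝ, V = VV m := ⟨_, rfl⟩
  obtain ⟨L, hL'⟩ : ∃ L : ℝ, L = Real.log m := ⟨_, rfl⟩
  have hV2 : (2 : ℝ) ≤ V := by
    rw [hV]
    exact_mod_cast h4.2.2
  have hVpos : 0 < VV m := by omega
  have h8 := h1.2
  have hB := h2.1
  have h31 := h3.1
  have h32 := h3.2
  have hD0 := h5.1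
  have hD := h6.2.2.2.1
  rw [Real.rpow_one] at h32
  rw [← hV] at h8 hB h31 h32
  rw [← hL'] at hB h31 hD0 hD hL
  rw [one_mul] at h8
  have hV1 : (1 : ℝ) ≤ V := by linarith
  have hsq : VV m ^ 2 ≤ D0 m := by
    have e1 : V ^ 2 ≤ (m : ℝ) / (2 * L ^ 2) := by
      rw [le_div_iff₀ (by positivity)]
      have e2 : L ^ 2 ≤ L ^ 3 := pow_le_pow_right₀ hL (by norm_num)
      have e3 : 0 ≤ V ^ 2 := by positivity
      have e4 : 0 ≤ V ^ 3 := by positivity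
      calc V ^ 2 * (2 * L ^ 2) ≤ V ^ 2 * V := mul_le_mul_of_nonneg_left (by linarith) e3
        _ = V ^ 3 := by ring
        _ ≤ m := by linarith
    have e5 : ((VV m ^ 2 : ℕ) : ℝ) ≤ D0 m := by
      push_cast
      rw [← hV]
      exact e1.trans hD0
    exact_mod_cast e5
  have hle : VV m ≤ D0 m := le_trans (by nlinarith) hsq
  have d1 := natdiv (pow_pos hVpos 2) hsq
  have d2 := natdiv hVpos hle
  have d3 : 1 ≤ D0 m / VV m ^ 2 := (Nat.le_div_iff_mul_le (pow_pos hVpos 2)).2 (by omega)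
  have d4 : 1 ≤ D0 m / VV m := (Nat.le_div_iff_mul_le hVpos).2 (by omega)
  have hdl : (dl m : ℝ) = (D0 m / VV m ^ 2 : ℕ) := rfl
  rw [← hdl] at d1
  push_cast at d1
  rw [← hV] at d1 d2
  have hdl0 : (0 : ℝ) < dl m := by
    rw [hdl]
    exact_mod_cast d3
  have hG0 : (0 : ℝ) < (D0 m / VV m : ℕ) := by exact_mod_cast d4
  have hLp : 0 ≤ 2 * L ^ (B + 2) := by positivity
  rw [← hV]
  refine ⟨(pow_le_pow_right₀ hV1 (by norm_num)).trans h8, ?_, ?_, hG0⟩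
  · have e1 : (DD B m : ℝ) / dl m ≤ V ^ 3 := by
      rw [div_le_iff₀ hdl0]
      calc (DD B m : ℝ) ≤ 2 * L ^ (B + 2) * (2 * V ^ 2 * dl m) :=
            hD.trans (mul_le_mul_of_nonneg_left d1 hLp)
        _ = (4 * L ^ (B + 2)) * (V ^ 2 * dl m) := by ring
        _ ≤ V * (V ^ 2 * dl m) := mul_le_mul_of_nonneg_right hB (by positivity)
        _ = V ^ 3 * dl m := by ring
    have e2 : 1 ≤ V ^ 3 := one_le_pow₀ hV1
    have e3 : (DD B m : ℝ) / dl m + 1 ≤ V ^ 4 := by nlinarith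
    calc ((DD B m : ℝ) / dl m + 1) ^ 2 ≤ (V ^ 4) ^ 2 := pow_le_pow_left₀ (by positivity) e3 2
      _ = V ^ 8 := by ring
      _ ≤ _ := h8
  · calc (DD B m : ℝ) ≤ 2 * L ^ (B + 2) * (2 * V * (D0 m / VV m : ℕ)) :=
          hD.trans (mul_le_mul_of_nonneg_left d2 hLp)
      _ = (4 * L ^ (B + 2)) * V * (D0 m / VV m : ℕ) := by ring
      _ ≤ V * V * (D0 m / VV m : ℕ) := by gcongr
      _ ≤ _ := by
          refine mul_le_mul_of_nonneg_right ?_ hG0.le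
          rw [← sq]
          exact (pow_le_pow_right₀ hV1 (by norm_num)).trans h8

theorem partZ (r : ℕ) {a : ℝ} (ha : 0 < a) : ∀ᶠ m : ℕ in atTop,
    ZZ r m r ^ (r * nn m) ≤ (m : ℝ) ^ a := by
  filter_upwards [ev_log_rpow (r / a) (show (9 / 10 : ℝ) < 1 by norm_num), ev_log 1,
    eventually_ge_atTop 3] with m h1 hL hm
  have hm0 : (0 : ℝ) < m := by exact_mod_cast (show 0 < m by omega)
  have hL0 : 0 < Real.log m := by linarith
  have h2 := ZZ_mono r hm (Nat.le_succ r)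
  rw [ZZ_top] at h2
  have h3 : (nn m : ℝ) ≤ Real.log m ^ (4 / 5 : ℝ) := Nat.floor_le (by positivity)
  rw [Real.rpow_one, div_mul_eq_mul_div, div_le_iff₀ ha] at h1
  have h4 : Real.log m ^ (9 / 10 : ℝ) = Real.log m ^ (4 / 5 : ℝ) * Real.log m ^ (1 / 10 : ℝ) := by
    rw [← Real.rpow_add hL0]
    norm_num
  refine (pow_le_pow_left₀ (ZZ_pos r m r).le h2 _).trans ?_
  rw [← Real.exp_nat_mul, Real.rpow_def_of_pos hm0, Real.exp_le_exp]
  refine le_trans ?_ h1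
  rw [h4, Nat.cast_mul, mul_assoc]
  gcongr

theorem partN (B A r : ℕ) {a : ℝ} (ha : 0 < a) : ∀ᶠ m : ℕ in atTop, ∀ P : ℕ, Sc r m P →
    (0 : ℝ) < n2 A m ∧ (n2 A m : ℝ) ≤ P ∧ (n2 A m : ℝ) ^ n1 (DD B m) P ≤ (m : ℝ) ^ a ∧
      (P : ℝ) ^ n1 (DD B m) P ≤ (m : ℝ) ^ 3 := by
  filter_upwards [ev_log 2, eventually_ge_atTop 3, ev_ZZ 2 (A + 5) r (show (0 : ℝ) < 1 / 2 by norm_num),
    ev_log_pow 2 (2 * B) (show (0 : ℝ) < 1 / 2 by norm_num), ev_DD B,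
    ev_log_rpow 2 (show (0 : ℝ) < 1 / 20 by norm_num),
    ev_loglog_pow (9 * (A + 5) / a) 1 (show (0 : ℝ) < 1 / 20 by norm_num)]
    with m hL hm hZ hB hD hT hl P hP
  have hm0 : (0 : ℝ) < m := by exact_mod_cast (show 0 < m by omega)
  have hG := ZZ_ge hm r
  have hZ0 := ZZ_mono r hm (Nat.zero_le r)
  have hP1 : ZZ r m r ≤ 2 * P := hP.1
  have hP2 : (P : ℝ) ≤ (m : ℝ) ^ (1 / 2 : ℝ) := hP.2.trans hZ.2
  have hexp : (m : ℝ) ^ a = Real.exp (Real.log m * a) := Real.rpow_def_of_pos hm0 a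
  have hn2 : n2 A m = ⌈Real.log m ^ (A + 4)⌉₊ := rfl
  obtain ⟨L, hL'⟩ : ∃ L : ℝ, L = Real.log m := ⟨_, rfl⟩
  rw [← hL'] at hL hZ hB hD hT hl hG hexp hn2
  obtain ⟨T, hT'⟩ : ∃ T : ℝ, T = L ^ (1 / 20 : ℝ) := ⟨_, rfl⟩
  have hL0 : 0 < L := by linarith
  have hTL : T ≤ L := by
    rw [hT']
    conv_rhs => rw [← Real.rpow_one L]
    exact Real.rpow_le_rpow_of_exponent_le (by linarith) (by norm_num)
  rw [← hT'] at hT hl hG
  rw [Real.rpow_zero, mul_one] at hT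
  rw [pow_one] at hl
  have hn2pos : (0 : ℝ) < n2 A m := by
    rw [hn2]
    exact_mod_cast Nat.ceil_pos.2 (by positivity)
  have hn2le : (n2 A m : ℝ) ≤ L ^ (A + 5) := by
    rw [hn2]
    have e1 := (Nat.ceil_lt_add_one (show 0 ≤ L ^ (A + 4) by positivity)).le
    have e2 : 1 ≤ L ^ (A + 4) := one_le_pow₀ (by linarith)
    have e3 : L ^ (A + 5) = L ^ (A + 4) * L := pow_succ _ _
    nlinarith
  have hPe : Real.exp T ≤ 2 * P := hG.trans hP1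
  have hP0 : (0 : ℝ) < P := by linarith [Real.exp_pos T]
  have hlogP : T / 2 ≤ Real.log P := by
    have e1 := Real.log_le_log (Real.exp_pos T) hPe
    rw [Real.log_exp, Real.log_mul (by norm_num) hP0.ne'] at e1
    have e2 := Real.log_two_lt_d9
    linarith
  have hDpos : 0 < DD B m := by omega
  have hD0 : (0 : ℝ) < DD B m := by exact_mod_cast hDpos
  obtain ⟨k, hk⟩ : ∃ k, k = Nat.log P (2 * DD B m ^ 2) := ⟨_, rfl⟩
  have hn1 : n1 (DD B m) P = k + 1 := by rw [hk]; rfl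
  have hpk : (P : ℝ) ^ k ≤ 2 * (DD B m : ℝ) ^ 2 := by
    have e1 := Nat.pow_log_le_self P (show 2 * DD B m ^ 2 ≠ 0 by positivity)
    rw [← hk] at e1
    exact_mod_cast e1
  have hkT : (k : ℝ) * T ≤ 8 * L := by
    have e1 := Real.log_le_log (by positivity) hpk
    rw [Real.log_pow, Real.log_mul (by norm_num) (by positivity), Real.log_pow] at e1
    have e2 := Real.log_two_lt_d9
    have e3 := hD.2.2.2.2
    have e4 := mul_le_mul_of_nonneg_left hlogP (Nat.cast_nonneg (α := ℝ) k)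
    push_cast at e1
    linarith
  rw [hn1]
  refine ⟨hn2pos, by linarith [hZ.1], ?_, ?_⟩
  · refine (pow_le_pow_left₀ hn2pos.le hn2le _).trans ?_
    rw [hexp, ← pow_mul]
    conv_lhs => rw [← Real.exp_log hL0, ← Real.exp_nat_mul]
    rw [Real.exp_le_exp]
    rw [div_mul_eq_mul_div, div_le_iff₀ ha] at hl
    have e1 := mul_le_mul_of_nonneg_left hl (show (0 : ℝ) ≤ k + 1 by positivity)
    have e2 : ((k : ℝ) + 1) * T * a ≤ 9 * L * a :=
      mul_le_mul_of_nonneg_right (by linarith) ha.le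
    push_cast
    nlinarith
  · have e1 : (m : ℝ) ^ (1 / 2 : ℝ) * (m : ℝ) ^ (1 / 2 : ℝ) = m := by
      rw [← Real.rpow_add hm0]
      norm_num
    have e2 := pow_le_pow_left₀ hD0.le hD.2.1 2
    calc (P : ℝ) ^ (k + 1) = (P : ℝ) ^ k * P := pow_succ _ _
      _ ≤ 2 * (m * L ^ B) ^ 2 * P := mul_le_mul_of_nonneg_right (by linarith) hP0.le
      _ = (m : ℝ) ^ 2 * ((2 * L ^ (2 * B)) * P) := by ring
      _ ≤ (m : ℝ) ^ 2 * ((m : ℝ) ^ (1 / 2 : ℝ) * (m : ℝ) ^ (1 / 2 : ℝ)) := by gcongr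
      _ = (m : ℝ) ^ 3 := by rw [e1]; ring

end ParBAux

theorem parB : ParBStmt := by
  intro B A r κ hκ _
  have ha : 0 < κ / 20 := by positivity
  filter_upwards [ParBAux.partV B ha, ParBAux.partZ r ha, ParBAux.partN B A r ha,
    ev_log_pow 6 A ha, ev_log 1, eventually_ge_atTop 1] with m hV hZ hN hW hL hm P hP
  obtain ⟨h1, h2, h3, h4⟩ := hN P hP
  have hm1 : (1 : ℝ) ≤ m := by exact_mod_cast hm
  have hm0 : (0 : ℝ) ≤ m := by linarith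
  have hP0 : (0 : ℝ) ≤ P := Nat.cast_nonneg P
  have e1 : (m : ℝ) ^ κ = ((m : ℝ) ^ (κ / 20)) ^ 20 := by
    rw [← Real.rpow_natCast, ← Real.rpow_mul hm0]
    congr 1
    push_cast
    ring
  have e2 : ((P : ℝ) ^ (3 * κ / 20)) ^ n1 (DD B m) P ≤ ((m : ℝ) ^ (κ / 20)) ^ 9 := by
    rw [← Real.rpow_natCast, ← Real.rpow_mul hP0, mul_comm, Real.rpow_mul hP0, Real.rpow_natCast]
    refine (Real.rpow_le_rpow (by positivity) h4 (by positivity)).trans (le_of_eq ?_)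
    rw [← Real.rpow_natCast, ← Real.rpow_mul hm0, ← Real.rpow_natCast, ← Real.rpow_mul hm0]
    congr 1
    push_cast
    ring
  rw [e1]
  exact ParBAux.core h1 h2 (Nat.cast_nonneg _) hV.1 hV.2.1 (pow_nonneg (ZZ_pos r m r).le _) hZ
    (by positivity) h3 (by positivity) e2 (Nat.cast_nonneg _) hV.2.2.1 hV.2.2.2
    (Real.one_le_rpow hm1 ha.le) (pow_pos (by linarith) A) hW

end Crest.Agent.R1s
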