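import Crest.Agent.R1s.Ev

/-! Row 1: numerics: few good classes. -/

set_option autoImplicit false

namespace Crest.Agent.R1s

open Finset Filter
open Crest.Agent.R5 (pr pd ee)

theorem parG : ParGStmt := by
  intro A r κ κ0 κ1 hr
  have A0 : (0 : ℝ) ≤ A := Nat.cast_nonneg A
  have r1 : (1 : ℝ) ≤ r := by nlinarith [Nat.cast_nonneg (α := ℝ) r]
  filter_upwards [ev_loglog 1, ev_log 1, eventually_ge_atTop 3,
    ev_log_rpow 50 (show (7 / 10 : ℝ) < 4 / 5 by norm_num),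
    ev_log_rpow 2 (show (0 : ℝ) < 1 / 20 by norm_num),
    ev_loglog_pow (400 * (A + 3) / κ) 1 (show (0 : ℝ) < 1 / 20 by norm_num)]
    with m hl hL hm e1 e2 e3 P hP
  obtain ⟨h1, h2⟩ := hP
  rw [ZZ_top] at h2
  replace h1 := (ZZ_ge hm r).trans h1
  unfold th
  set L := Real.log m with hLd
  set l := Real.log L with hld
  set k := kk r m P with hk
  set n := nn m with hn
  have L0 : 0 < L := by linarith
  have P0 : (0 : ℝ) < P := by linarith [Real.exp_pos (L ^ (1 / 20 : ℝ))]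
  rw [Real.rpow_zero] at e2
  rw [pow_one, div_mul_eq_mul_div, div_le_iff₀ κ0] at e3
  set p := Real.log P with hp
  have q1 : Real.log (2 * P) = Real.log 2 + p := Real.log_mul two_ne_zero P0.ne'
  have l2 : Real.log 2 ≤ 1 := by linarith [Real.log_two_lt_d9]
  have l2' : 0 ≤ Real.log 2 := Real.log_nonneg one_le_two
  have p1 : L ^ (1 / 20 : ℝ) ≤ Real.log 2 + p := q1 ▸ (Real.le_log_iff_exp_le (by linarith)).2 h1
  have p2 : p ≤ L ^ (1 / 10 : ℝ) := (Real.log_le_iff_le_exp P0).2 h2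
  have p3 : 1 ≤ p := by linarith
  have rl : 1 ≤ r * l := by nlinarith
  have k1 : 2 * (Real.log 2 + p) ≤ k * (r * l) := by
    rw [← div_le_iff₀ (by linarith), ← q1]
    exact Nat.le_ceil _
  have k2 : (k : ℝ) ≤ 2 * (Real.log 2 + p) / (r * l) + 1 := by
    rw [← q1]
    exact (Nat.ceil_lt_add_one (by rw [q1]; positivity)).le
  have k3 : (k : ℝ) ≤ 5 * L ^ (1 / 10 : ℝ) := by
    have := div_le_self (a := 2 * (Real.log 2 + p)) (by positivity) rl
    linarith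
  have n1 : L ^ (4 / 5 : ℝ) ≤ 2 * n := by
    have a := Nat.lt_floor_add_one (L ^ (4 / 5 : ℝ))
    have b : 1 ≤ L ^ (7 / 10 : ℝ) := Real.one_le_rpow hL (by norm_num)
    change _ < (n : ℝ) + 1 at a
    linarith
  have n0 : (0 : ℝ) ≤ n := Nat.cast_nonneg n
  have k4 : (k : ℝ) ^ 2 * n ≤ n ^ 2 * Real.exp (-(l / 2)) := by
    have a : Real.exp (l / 2) = L ^ (1 / 2 : ℝ) := by
      rw [Real.rpow_def_of_pos L0]
      congr 1
      ring
    have b : (L ^ (1 / 10 : ℝ)) ^ 2 * L ^ (1 / 2 : ℝ) = L ^ (7 / 10 : ℝ) := by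
      rw [← Real.rpow_natCast, ← Real.rpow_mul L0.le, ← Real.rpow_add L0]
      norm_num
    rw [Real.exp_neg, a, ← div_eq_mul_inv, le_div_iff₀ (by positivity)]
    calc (k : ℝ) ^ 2 * n * L ^ (1 / 2 : ℝ) ≤ (5 * L ^ (1 / 10 : ℝ)) ^ 2 * n * L ^ (1 / 2 : ℝ) := by
          gcongr
      _ = 25 * L ^ (7 / 10 : ℝ) * n := by rw [← b]; ring
      _ ≤ n * n := by gcongr; linarith
      _ = n ^ 2 := by ring
  have k5 : 2 * P * ((k : ℝ) ^ 2 * n) ^ (k * r) ≤ (n : ℝ) ^ (2 * k * r) := by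
    have a : Real.exp (-(l / 2)) ^ (k * r) ≤ (2 * P : ℝ)⁻¹ := by
      rw [← Real.exp_nat_mul, ← Real.exp_log (show (0 : ℝ) < 2 * P by positivity), ← Real.exp_neg,
        q1]
      refine Real.exp_le_exp.2 ?_
      push_cast
      linarith
    calc 2 * P * ((k : ℝ) ^ 2 * n) ^ (k * r)
        ≤ 2 * P * (n ^ 2 * Real.exp (-(l / 2))) ^ (k * r) := by gcongr
      _ = 2 * P * (n ^ (2 * k * r) * Real.exp (-(l / 2)) ^ (k * r)) := by
          rw [mul_pow, ← pow_mul, mul_assoc 2 k r]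
      _ ≤ 2 * P * (n ^ (2 * k * r) * (2 * P : ℝ)⁻¹) := by gcongr
      _ = _ := by field_simp
  have a1 : 200 * (A + 3) * l ≤ κ * p := by
    have : L ^ (1 / 20 : ℝ) ≤ 2 * p := by linarith
    nlinarith
  have a2 : 2 * k * ((A + 3) * l) ≤ κ / 20 * p := by
    have b : 2 * (Real.log 2 + p) / (r * l) * ((A + 3) * l) ≤ κ / 50 * p := by
      rw [div_mul_eq_mul_div, div_le_iff₀ (by linarith)]
      calc 2 * (Real.log 2 + p) * ((A + 3) * l) ≤ 2 * (2 * p) * ((κ * r / 200) * l) := by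
            gcongr <;> linarith
        _ = _ := by ring
    have c : k * ((A + 3) * l) ≤ (2 * (Real.log 2 + p) / (r * l) + 1) * ((A + 3) * l) := by
      gcongr
    nlinarith
  set y := (P : ℝ) ^ (κ / 20) with hy
  have y1 : y = Real.exp (κ / 20 * p) := by rw [hy, Real.rpow_def_of_pos P0, mul_comm]
  have y2 : 3 ≤ y := by
    have := Real.add_one_le_exp (κ / 20 * p)
    nlinarith
  have y3 : (L ^ (A + 3)) ^ (2 * k) ≤ y := by
    rw [y1, ← Real.exp_log L0, ← Real.exp_nat_mul, ← Real.exp_nat_mul]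
    refine Real.exp_le_exp.2 ?_
    push_cast
    exact a2
  have y4 : (P : ℝ) ^ (κ / 20 - 1) = y / P := by rw [Real.rpow_sub P0, Real.rpow_one]
  have y5 : (P : ℝ) ^ (3 * κ / 20) = y ^ 3 := by
    rw [hy, ← Real.rpow_natCast, ← Real.rpow_mul P0.le]
    congr 1
    push_cast
    ring
  rw [y4, y5, mul_pow (1 / _), div_pow, one_pow, ← pow_mul (n : ℝ), show r * (2 * k) = 2 * k * r by ring]
  have N0 : (0 : ℝ) ≤ n ^ (2 * k * r) := by positivity
  calc 2 * P * (((k : ℝ) ^ 2 * n) ^ (k * r) + n ^ (2 * k * r) * (y / P))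
      = 2 * P * ((k : ℝ) ^ 2 * n) ^ (k * r) + 2 * y * n ^ (2 * k * r) := by field_simp
    _ ≤ (1 + 2 * y) * n ^ (2 * k * r) := by linarith
    _ ≤ y ^ 2 * n ^ (2 * k * r) := by gcongr; nlinarith
    _ = y ^ 3 * (1 / y * n ^ (2 * k * r)) := by field_simp
    _ ≤ _ := by gcongr

end Crest.Agent.R1s
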