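import Crest.Agent.R1s.Ev

/-! Row 1: the prime counting function. -/

set_option autoImplicit false

namespace Crest.Agent.R1s

open Finset Filter
open Crest.Agent.R5 (pr pd ee)

namespace PiAux

theorem card_pr (x : ℝ) : (pr 0 x).card = Nat.primeCounting ⌊x⌋₊ := by
  rw [← Nat.primesLE_card_eq_primeCounting]
  congr 1
  ext p
  simp only [pr, mem_filter, mem_Icc, Nat.mem_primesLE]
  exact ⟨fun h => ⟨h.1.2, h.2.1⟩, fun h => ⟨⟨h.2.one_le, h.1⟩, h.2, by exact_mod_cast h.2.pos⟩⟩

theorem card_le {x : ℝ} (hx : 0 ≤ x) : ((pr 0 x).card : ℝ) ≤ x := by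
  refine le_trans ?_ (Nat.floor_le hx)
  have := card_filter_le (Icc 1 ⌊x⌋₊) (fun p => p.Prime ∧ (0 : ℝ) < (p : ℝ))
  rw [Nat.card_Icc, Nat.add_sub_cancel] at this
  exact Nat.cast_le.2 this

theorem pi_theta : ∃ C : ℝ, 0 < C ∧ ∀ x : ℝ, 2 ≤ x →
    |((pr 0 x).card : ℝ) - Chebyshev.theta x / Real.log x| ≤ C * x / Real.log x ^ 2 := by
  obtain ⟨C, hC, h⟩ := Chebyshev.primeCounting_sub_theta_div_log_isBigO.exists_pos
  obtain ⟨x₀, hx₀⟩ := eventually_atTop.1 h.bound
  refine ⟨C + Real.log x₀ ^ 2, by positivity, fun x hx => ?_⟩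
  have hl : 0 < Real.log x := Real.log_pos (by linarith)
  have hp : 0 ≤ x / Real.log x ^ 2 := by positivity
  rw [mul_div_assoc, add_mul]
  rcases le_total x₀ x with h1 | h1
  · have h2 := hx₀ x h1
    rw [Real.norm_eq_abs, Real.norm_of_nonneg hp, ← card_pr] at h2
    exact h2.trans (le_add_of_nonneg_right (by positivity))
  · have h2 := card_le (x := x) (by linarith)
    have h3 : Chebyshev.theta x / Real.log x ≤ (pr 0 x).card := by
      rw [div_le_iff₀ hl, card_pr]
      exact Chebyshev.theta_le_pi_mul_log' x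
    have h4 : 0 ≤ Chebyshev.theta x / Real.log x := div_nonneg (Chebyshev.theta_nonneg x) hl.le
    have h5 : x ≤ Real.log x₀ ^ 2 * (x / Real.log x ^ 2) := by
      rw [← mul_div_assoc, le_div_iff₀ (by positivity), mul_comm]
      gcongr
    rw [abs_of_nonneg (by linarith)]
    have := mul_nonneg hC.le hp
    linarith

theorem theta_sub (h : ThetaStmt) : ∃ C : ℝ, 0 < C ∧ ∀ x : ℝ, 2 ≤ x →
    |Chebyshev.theta x - x| ≤ C * x / Real.log x := by
  obtain ⟨δ, C, hδ, hδ', hC, h⟩ := h
  refine ⟨C / δ + 1, by positivity, fun x hx => ?_⟩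
  have hl : 0 < Real.log x := Real.log_pos (by linarith)
  have h1 := h 1 0 ⌊x⌋₊ le_rfl (by simp)
  simp only [Nat.modEq_one, and_true, Nat.totient_one, Nat.cast_one, div_one, mul_one] at h1
  rw [← sum_filter] at h1
  change |Chebyshev.theta x - _| ≤ _ at h1
  have h2 : (⌊x⌋₊ : ℝ) ^ (1 - δ) ≤ x ^ (1 - δ) :=
    Real.rpow_le_rpow (by positivity) (Nat.floor_le (by linarith)) (by linarith)
  have h3 : x ^ (1 - δ) ≤ x / (δ * Real.log x) := by
    have h4 := Real.log_le_rpow_div (x := x) (by linarith) hδ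
    rw [le_div_iff₀ hδ] at h4
    rw [Real.rpow_sub (by linarith), Real.rpow_one]
    exact div_le_div_of_nonneg_left (by linarith) (by positivity) (by linarith)
  have h4 : Real.log 2 ≤ 1 := by linarith [Real.log_two_lt_d9]
  have h5 : 1 ≤ x / Real.log x := by
    rw [le_div_iff₀ hl]
    linarith [Real.log_le_sub_one_of_pos (x := x) (by linarith)]
  have h6 : C * (⌊x⌋₊ : ℝ) ^ (1 - δ) * Real.log 2 ≤ C / δ * (x / Real.log x) := by
    calc C * (⌊x⌋₊ : ℝ) ^ (1 - δ) * Real.log 2 ≤ C * (x / (δ * Real.log x)) * 1 := by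
          gcongr
          exact h2.trans h3
      _ = C / δ * (x / Real.log x) := by field_simp
  have h7 := Nat.floor_le (a := x) (by linarith)
  have h8 := Nat.lt_floor_add_one x
  rw [mul_div_assoc, add_mul, one_mul]
  rw [abs_le] at h1 ⊢
  constructor <;> linarith [h1.1, h1.2]

end PiAux

theorem pi_asymp : ThetaStmt → PiStmt := by
  intro h
  obtain ⟨C₁, hC₁, h1⟩ := PiAux.pi_theta
  obtain ⟨C₂, hC₂, h2⟩ := PiAux.theta_sub h
  have key : ∀ x : ℝ, 2 ≤ x → |((pr 0 x).card : ℝ) - x / Real.log x| ≤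
      (C₁ + C₂) * x / Real.log x ^ 2 := by
    intro x hx
    have hl : 0 < Real.log x := Real.log_pos (by linarith)
    have h3 : |Chebyshev.theta x / Real.log x - x / Real.log x| ≤ C₂ * x / Real.log x ^ 2 := by
      rw [← sub_div, abs_div, abs_of_pos hl, sq, ← div_div]
      exact div_le_div_of_nonneg_right (h2 x hx) hl.le
    refine (abs_sub_le _ (Chebyshev.theta x / Real.log x) _).trans ?_
    rw [add_mul, add_div]
    exact add_le_add (h1 x hx) h3
  refine ⟨2 * (C₁ + C₂) + 1, by positivity, fun x hx => ?_⟩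
  have hl : 0 < Real.log x := Real.log_pos (by linarith)
  have hl2 : 1 / 2 ≤ Real.log x := by
    linarith [Real.log_two_gt_d9, Real.log_le_log (by norm_num) hx]
  refine ⟨(key x hx).trans ?_, ?_⟩
  · exact div_le_div_of_nonneg_right
      (mul_le_mul_of_nonneg_right (by linarith) (by linarith)) (by positivity)
  · have h3 := (abs_le.1 (key x hx)).2
    have h4 : (C₁ + C₂) * x / Real.log x ^ 2 ≤ 2 * (C₁ + C₂) * x / Real.log x := by
      rw [sq, ← div_div, div_le_iff₀ hl]
      have : 0 ≤ (C₁ + C₂) * x / Real.log x := by positivity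
      have e : 2 * (C₁ + C₂) * x / Real.log x = 2 * ((C₁ + C₂) * x / Real.log x) := by ring
      rw [e]
      nlinarith
    have e : (2 * (C₁ + C₂) + 1) * x / Real.log x =
        2 * (C₁ + C₂) * x / Real.log x + x / Real.log x := by ring
    linarith

end Crest.Agent.R1s
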