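import Crest.Agent.R1s.Ev

/-! Row 1: Rankin bound for the smooth part. -/

set_option autoImplicit false

namespace Crest.Agent.R1s

open Finset Filter
open Crest.Agent.R5 (pr pd ee)

namespace RankAux

lemma rough (D : ℕ) (hD : 1 ≤ D) :
    ∑ t ∈ (pr 0 D).powerset.filter (fun t => pd t ≤ D), 1 / (pd t : ℝ) ≤ 1 + Real.log D := by
  have hp : ∀ t ∈ (pr 0 D).powerset.filter (fun t => pd t ≤ D), ∀ p ∈ t, p.Prime :=
    fun t ht p h => (mem_pr.1 (mem_powerset.1 (mem_filter.1 ht).1 h)).1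
  rw [← sum_image (g := pd) (f := fun g : ℕ => 1 / (g : ℝ))
    (fun s hs t ht h => pd_inj (hp s hs) (hp t ht) h)]
  refine sum_inv_le hD fun g hg => ?_
  obtain ⟨t, ht, rfl⟩ := mem_image.1 hg
  exact ⟨pd_pos (hp t ht), (mem_filter.1 ht).2⟩

lemma smooth {Z V : ℝ} (hZ : 2 ≤ Z) (hV : 1 ≤ V) :
    ∑ t ∈ (pr 0 Z).powerset.filter (fun t => V ≤ (pd t : ℝ)), 1 / (pd t : ℝ) ≤
      Real.exp (-(Real.log V / Real.log Z)) * Real.exp (3 * ∑ p ∈ pr 0 Z, 1 / (p : ℝ)) := by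
  have l0 : 0 < Real.log Z := Real.log_pos (by linarith)
  set E := Real.exp (-(Real.log V / Real.log Z)) with hE
  set f : ℕ → ℝ := fun p => Real.exp (Real.log p / Real.log Z) * (1 / (p : ℝ)) with hf
  have h1 : ∀ t ∈ (pr 0 Z).powerset.filter (fun t => V ≤ (pd t : ℝ)),
      1 / (pd t : ℝ) ≤ E * ∏ p ∈ t, f p := by
    intro t ht
    obtain ⟨a, b⟩ := mem_filter.1 ht
    have hp : ∀ p ∈ t, p.Prime := fun p h => (mem_pr.1 (mem_powerset.1 a h)).1
    have e1 : Real.log (pd t : ℝ) = ∑ p ∈ t, Real.log p := by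
      unfold pd
      push_cast
      exact Real.log_prod fun p h => by exact_mod_cast (hp p h).ne_zero
    have e2 : ∏ p ∈ t, f p = Real.exp (Real.log (pd t : ℝ) / Real.log Z) * (1 / (pd t : ℝ)) := by
      rw [hf, prod_mul_distrib, ← Real.exp_sum, ← sum_div, ← e1, inv_pd]
    rw [e2, ← mul_assoc, hE, ← Real.exp_add]
    refine le_mul_of_one_le_left (by positivity) (Real.one_le_exp ?_)
    have : Real.log V / Real.log Z ≤ Real.log (pd t : ℝ) / Real.log Z := by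
      gcongr
    linarith
  have f0 : ∀ p, 0 ≤ f p := fun p => by positivity
  calc _ ≤ ∑ t ∈ (pr 0 Z).powerset.filter (fun t => V ≤ (pd t : ℝ)), E * ∏ p ∈ t, f p :=
        sum_le_sum h1
    _ ≤ ∑ t ∈ (pr 0 Z).powerset, E * ∏ p ∈ t, f p :=
        sum_le_sum_of_subset_of_nonneg (filter_subset _ _) fun t _ _ =>
          mul_nonneg (Real.exp_pos _).le (prod_nonneg fun p _ => f0 p)
    _ = E * ∏ p ∈ pr 0 Z, (1 + f p) := by rw [← mul_sum, prod_one_add]
    _ ≤ _ := by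
        refine mul_le_mul_of_nonneg_left ?_ (Real.exp_pos _).le
        rw [mul_sum, Real.exp_sum]
        refine prod_le_prod (fun p _ => by linarith [f0 p]) fun p hp => ?_
        obtain ⟨a, b, c⟩ := mem_pr.1 hp
        have h2 : Real.log p / Real.log Z ≤ 1 := by
          rw [div_le_one l0]; exact Real.log_le_log b c
        have h3 : Real.exp (Real.log p / Real.log Z) ≤ 3 :=
          (Real.exp_le_exp.2 h2).trans (by linarith [Real.exp_one_lt_d9])
        have h4 : f p ≤ 3 * (1 / (p : ℝ)) := mul_le_mul_of_nonneg_right h3 (by positivity)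
        linarith [Real.add_one_le_exp (3 * (1 / (p : ℝ)))]

end RankAux

theorem rankOK : RankStmt := by
  obtain ⟨C, hC, h⟩ := recip_le
  refine ⟨Real.exp C, Real.exp_pos _, fun D Z V hD hZ hV => ?_⟩
  have l0 : 0 < Real.log Z := Real.log_pos (by linarith)
  set A := (pr 0 Z).powerset.filter (fun t => V ≤ (pd t : ℝ)) with hA
  set B := (pr 0 D).powerset.filter (fun t => pd t ≤ D) with hB
  set S := (pr 0 D).powerset.filter (fun t => pd t ≤ D ∧
    V ≤ (pd (t.filter (fun q : ℕ => (q : ℝ) ≤ Z)) : ℝ)) with hS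
  set φ : Finset ℕ → Finset ℕ × Finset ℕ := fun t =>
    (t.filter (fun q : ℕ => (q : ℝ) ≤ Z), t.filter (fun q : ℕ => ¬ (q : ℝ) ≤ Z)) with hφ
  set g : Finset ℕ × Finset ℕ → ℝ := fun x => 1 / (pd x.1 : ℝ) * (1 / (pd x.2 : ℝ)) with hg
  have h1 : ∑ t ∈ S, 1 / (pd t : ℝ) = ∑ x ∈ S.image φ, g x := by
    rw [sum_image]
    · refine sum_congr rfl fun t _ => ?_
      simp only [hg, hφ]
      rw [inv_pd, inv_pd, inv_pd, prod_filter_mul_prod_filter_not]
    · intro s _ t _ hst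
      have e1 := congrArg Prod.fst hst
      have e2 := congrArg Prod.snd hst
      simp only [hφ] at e1 e2
      rw [← filter_union_filter_not_eq (fun q : ℕ => (q : ℝ) ≤ Z) s, e1, e2,
        filter_union_filter_not_eq]
  have h2 : S.image φ ⊆ A ×ˢ B := by
    intro x hx
    obtain ⟨t, ht, rfl⟩ := mem_image.1 hx
    obtain ⟨a, b, c⟩ := mem_filter.1 ht
    have a' := mem_powerset.1 a
    refine mem_product.2 ⟨mem_filter.2 ⟨mem_powerset.2 fun p hp => ?_, c⟩,
      mem_filter.2 ⟨mem_powerset.2 ((filter_subset _ _).trans a'), ?_⟩⟩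
    · obtain ⟨d, e⟩ := mem_filter.1 hp
      obtain ⟨u, v, -⟩ := mem_pr.1 (a' d)
      exact mem_pr.2 ⟨u, v, e⟩
    · exact (pd_mono (fun p hp => (mem_pr.1 (a' hp)).1) (filter_subset _ _)).trans b
  have h3 : ∑ x ∈ S.image φ, g x ≤ ∑ x ∈ A ×ˢ B, g x :=
    sum_le_sum_of_subset_of_nonneg h2 fun x _ _ => by positivity
  have h4 : ∑ x ∈ A ×ˢ B, g x = (∑ t ∈ A, 1 / (pd t : ℝ)) * ∑ t ∈ B, 1 / (pd t : ℝ) := by
    rw [sum_product, sum_mul_sum]
  have h5 := RankAux.rough D hD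
  have h6 := RankAux.smooth hZ hV
  have h7 : Real.exp (3 * ∑ p ∈ pr 0 Z, 1 / (p : ℝ)) ≤ (Real.exp C * Real.log Z) ^ 3 := by
    rw [← Real.exp_log l0, ← Real.exp_add, ← Real.exp_nat_mul]
    refine Real.exp_le_exp.2 ?_
    have := (abs_le.1 (h Z hZ)).2
    push_cast
    linarith
  have h8 : 0 ≤ ∑ t ∈ B, 1 / (pd t : ℝ) := sum_nonneg fun t _ => by positivity
  calc ∑ t ∈ S, 1 / (pd t : ℝ) ≤ (∑ t ∈ A, 1 / (pd t : ℝ)) * ∑ t ∈ B, 1 / (pd t : ℝ) := by
        rw [h1, ← h4]; exact h3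
    _ ≤ (Real.exp (-(Real.log V / Real.log Z)) * (Real.exp C * Real.log Z) ^ 3) *
          (1 + Real.log D) :=
        mul_le_mul (h6.trans (mul_le_mul_of_nonneg_left h7 (Real.exp_pos _).le)) h5 h8
          (by positivity)
    _ = _ := by ring

end Crest.Agent.R1s
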