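import Crest.Agent.R1s.Ev

/-! Row 1: removing the least prime. -/

set_option autoImplicit false

namespace Crest.Agent.R1s

open Finset Filter
open Crest.Agent.R5 (pr pd ee)

namespace RecAux

/-- the least element -/
def lst (d : Finset ℕ) : ℕ := if h : d.Nonempty then d.min' h else 0

theorem lst_spec {d : Finset ℕ} (h : d.Nonempty) : lst d ∈ d ∧ ∀ q ∈ d, lst d ≤ q := by
  unfold lst
  rw [dif_pos h]
  exact ⟨min'_mem _ _, fun q hq => min'_le _ _ hq⟩

theorem nonempty_of {d : Finset ℕ} {Y : ℝ} (hY : 1 ≤ Y) (h : Y < (pd d : ℝ)) : d.Nonempty := by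
  rcases d.eq_empty_or_nonempty with rfl | h'
  · rw [pd_empty] at h
    norm_num at h
    linarith
  · exact h'

theorem gen (ε ξ σ σ' n : ℕ) (Y ζ W : ℝ) (hY : 1 ≤ Y)
    (hσ : ∀ k : ℕ, (k + 1) % 2 = σ → k % 2 = σ')
    (hW : ∀ d ∈ RR ε ξ (√(ξ : ℝ)), d.card % 2 = σ → Y < (pd d : ℝ) → ∀ p ∈ d,
      (∀ q ∈ d, p ≤ q) → (p : ℝ) ≤ W) :
    ms ε ξ σ (n + 1) Y ζ ≤ ∑ p ∈ pr ζ W, ms ε ξ σ' n (Y / p) p / p := by
  unfold ms
  rw [← sum_fiberwise_of_maps_to (g := lst) (t := pr ζ W)]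
  · refine sum_le_sum fun p hp => ?_
    have hp0 : (0 : ℝ) < p := by exact_mod_cast (mem_pr.1 hp).1.pos
    set S := ((RR ε ξ (√(ξ : ℝ))).filter (fun d : Finset ℕ => d.card ≤ n + 1 ∧ d.card % 2 = σ ∧
      (∀ q ∈ d, ζ < ((q : ℕ) : ℝ)) ∧ Y < (pd d : ℝ) ∧ (pd d : ℝ) ≤ 2 * Y)).filter
        (fun d => lst d = p) with hS
    have hmem : ∀ d ∈ S, p ∈ d ∧ ∀ q ∈ d, p ≤ q := by
      intro d hd
      simp only [hS, mem_filter] at hd
      rw [← hd.2]
      exact lst_spec (nonempty_of hY hd.1.2.2.2.2.1)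
    have hpd : ∀ d ∈ S, (pd d : ℝ) = p * pd (d.erase p) := by
      intro d hd
      conv_lhs => rw [← insert_erase (hmem d hd).1]
      rw [pd_insert (notMem_erase _ _)]
      push_cast
      rfl
    have e1 : ∑ d ∈ S, 1 / (pd d : ℝ) = ∑ d ∈ S, 1 / (pd (d.erase p) : ℝ) / p := by
      refine sum_congr rfl fun d hd => ?_
      rw [hpd d hd, div_div, mul_comm]
    have hinj : Set.InjOn (fun d : Finset ℕ => d.erase p) S := by
      intro d hd d' hd' h
      rw [← insert_erase (hmem d hd).1, ← insert_erase (hmem d' hd').1]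
      exact congrArg _ h
    rw [e1, sum_div, ← sum_image (f := fun d => 1 / (pd d : ℝ) / p) hinj]
    refine sum_le_sum_of_subset_of_nonneg ?_ fun _ _ _ => by positivity
    intro d' hd'
    obtain ⟨d, hd, rfl⟩ := mem_image.1 hd'
    obtain ⟨h1, h2⟩ := hmem d hd
    have h3 := hpd d hd
    simp only [hS, mem_filter] at hd
    obtain ⟨⟨hR, hc, hpar, -, hlo, hhi⟩, -⟩ := hd
    have hlt : ∀ q ∈ d.erase p, p < q := fun q hq =>
      lt_of_le_of_ne (h2 q (mem_of_mem_erase hq)) (ne_of_mem_erase hq).symm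
    have hcard : (d.erase p).card + 1 = d.card := card_erase_add_one h1
    rw [mem_RR] at hR
    refine mem_filter.2 ⟨mem_RR.2 ⟨fun q hq => hR.1 q (mem_of_mem_erase hq), ?_⟩, by omega,
      hσ _ (by rw [hcard]; exact hpar), fun q hq => by exact_mod_cast hlt q hq, ?_, ?_⟩
    · have h4 := hR.2
      rw [← insert_erase h1, ros_insert hlt] at h4
      exact h4.1
    · rw [div_lt_iff₀ hp0]
      linarith
    · rw [← mul_div_assoc, le_div_iff₀ hp0]
      linarith
  · intro d hd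
    simp only [mem_filter] at hd
    obtain ⟨hR, -, hpar, hζ, hlo, -⟩ := hd
    obtain ⟨h1, h2⟩ := lst_spec (nonempty_of hY hlo)
    exact mem_pr.2 ⟨((mem_RR.1 hR).1 _ h1).1, hζ _ h1, hW d hR hpar hlo _ h1 h2⟩

end RecAux

theorem recOK : RecStmt := by
  intro ε ξ n Y ζ hε hY hξ
  have hY0 : 0 < Y := by linarith
  constructor
  · refine RecAux.gen ε ξ (1 - ε) ε n Y ζ _ hY (fun k hk => by omega) ?_
    intro d hd _ hlo p hp hmin
    rw [mem_RR] at hd
    have hc : 2 ≤ d.card := by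
      by_contra hc
      have h1 : d = {p} := by
        rw [eq_singleton_iff_unique_mem]
        exact ⟨hp, fun q hq => card_le_one.1 (by omega) q hq p hp⟩
      rw [h1, pd_singleton] at hlo
      linarith [(hd.1 p hp).2.2]
    have h2 := ros_room hε (fun q hq => (hd.1 q hq).1) hd.2 hp
      (Or.inr (by rw [up_of_min hmin]; exact hc))
    rw [up_of_min hmin] at h2
    have h3 : (pd d : ℝ) * p ≤ ξ := by exact_mod_cast h2
    rw [le_div_iff₀ hY0]
    have h4 : (0 : ℝ) ≤ p := Nat.cast_nonneg p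
    nlinarith
  · refine RecAux.gen ε ξ ε (1 - ε) n Y ζ _ hY (fun k hk => by omega) ?_
    intro d hd hpar hlo p hp hmin
    rw [mem_RR] at hd
    have h2 := hd.2 p hp (by rw [up_of_min hmin]; exact hpar)
    rw [up_of_min hmin] at h2
    have h3 : (pd d : ℝ) * p ^ 2 ≤ ξ := by exact_mod_cast h2
    refine Real.le_sqrt_of_sq_le ?_
    rw [le_div_iff₀ hY0]
    have h4 : (0 : ℝ) ≤ (p : ℝ) ^ 2 := by positivity
    nlinarith

end Crest.Agent.R1s
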