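import Crest.Agent.R1s.Ev

/-! Row 1: the remainder of the triangular count. -/

set_option autoImplicit false

namespace Crest.Agent.R1s

open Finset Filter
open Crest.Agent.R5 (pr pd ee)

namespace RemAux

/-- number of `w < M` with `d ∣ y + w` -/
def c (d : ℕ) (y : ℤ) (M : ℕ) : ℕ := ∑ w ∈ range M, if (d : ℤ) ∣ y + w then 1 else 0

theorem c_le_one {d v : ℕ} (hv : v ≤ d) (y : ℤ) : c d y v ≤ 1 := by
  unfold c
  rw [← Finset.card_filter]
  refine Finset.card_le_one.2 fun a ha b hb => ?_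
  rw [mem_filter, mem_range] at ha hb
  have h : (d : ℤ) ∣ (a : ℤ) - b := by
    have := dvd_sub ha.2 hb.2
    simpa using this
  have h0 : (a : ℤ) - b = 0 := by
    refine Int.eq_zero_of_abs_lt_dvd h ?_
    rw [abs_lt]; constructor <;> omega
  omega

theorem c_self {d : ℕ} (hd : 1 ≤ d) (y : ℤ) : c d y d = 1 := by
  refine le_antisymm (c_le_one le_rfl y) ?_
  have hd' : (0 : ℤ) < d := by exact_mod_cast hd
  have h1 : 0 ≤ (-y) % d := Int.emod_nonneg _ hd'.ne'
  have h2 : (-y) % d < d := Int.emod_lt_of_pos _ hd'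
  unfold c
  have hm : ((-y) % d).toNat ∈ range d := by rw [mem_range]; omega
  refine le_trans ?_ (Finset.single_le_sum (f := fun w : ℕ => if (d : ℤ) ∣ y + w then 1 else 0)
    (fun _ _ => Nat.zero_le _) hm)
  have : (d : ℤ) ∣ y + (((-y) % d).toNat : ℕ) := by
    rw [Int.toNat_of_nonneg h1]
    have := Int.emod_add_mul_ediv (-y) d
    exact ⟨-((-y) / d), by linarith⟩
  exact le_of_eq (if_pos this).symm

theorem c_add (d : ℕ) (y : ℤ) (a b : ℕ) : c d y (a + b) = c d y a + c d (y + a) b := by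
  unfold c
  rw [Finset.sum_range_add]
  congr 1
  refine Finset.sum_congr rfl fun w _ => ?_
  simp [add_assoc]

theorem c_eq {d : ℕ} (hd : 1 ≤ d) (y : ℤ) (v k : ℕ) : c d y (v + k * d) = c d y v + k := by
  induction k with
  | zero => simp
  | succ k ih => rw [Nat.succ_mul, ← add_assoc, c_add, ih, c_self hd]; ring

theorem sum_comm' (d : ℕ) (N : ℤ) (a b : ℕ) :
    ∑ u ∈ range a, c d (N + u) b = ∑ w ∈ range b, c d (N + w) a := by
  unfold c
  rw [Finset.sum_comm]
  refine Finset.sum_congr rfl fun w _ => Finset.sum_congr rfl fun u _ => ?_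
  rw [add_right_comm]

theorem card_eq (d : ℕ) (N : ℤ) (M : ℕ) :
    ((range M ×ˢ range M).filter (fun x => (d : ℤ) ∣ N + x.1 + x.2)).card =
      ∑ u ∈ range M, c d (N + u) M := by
  rw [Finset.card_filter, Finset.sum_product]
  rfl

theorem total {d : ℕ} (hd : 1 ≤ d) (N : ℤ) (v k : ℕ) :
    ∑ u ∈ range (v + k * d), c d (N + u) (v + k * d) =
      (v + k * d) * k + v * k + ∑ w ∈ range v, c d (N + w) v := by
  simp only [c_eq hd, Finset.sum_add_distrib]
  rw [sum_comm' d N (v + k * d) v]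
  simp only [c_eq hd, Finset.sum_add_distrib]
  simp
  ring

end RemAux

open RemAux in
theorem remOK : RemStmt := by
  intro N M d hM hd
  obtain ⟨v, k, hv, rfl⟩ : ∃ v k, v < d ∧ M = v + k * d :=
    ⟨M % d, M / d, Nat.mod_lt _ hd, by rw [mul_comm]; exact (Nat.mod_add_div M d).symm⟩
  have hT : ∑ w ∈ range v, c d (N + w) v ≤ v := by
    calc ∑ w ∈ range v, c d (N + w) v ≤ ∑ _w ∈ range v, 1 :=
          Finset.sum_le_sum fun w _ => c_le_one hv.le _
      _ = v := by simp
  unfold rem cnt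
  rw [card_eq, total hd]
  set T := ∑ w ∈ range v, c d (N + w) v
  have hM' : (0 : ℝ) < ((v + k * d : ℕ) : ℝ) := by exact_mod_cast hM
  have hd' : (0 : ℝ) < d := by exact_mod_cast hd
  have hv' : (v : ℝ) < d := by exact_mod_cast hv
  have hT' : (T : ℝ) ≤ v := by exact_mod_cast hT
  have hT0 : (0 : ℝ) ≤ T := Nat.cast_nonneg _
  have hv0 : (0 : ℝ) ≤ v := Nat.cast_nonneg _
  have key : (((v + k * d) * k + v * k + T : ℕ) : ℝ) / ((v + k * d : ℕ) : ℝ) -
      ((v + k * d : ℕ) : ℝ) / d = ((T : ℝ) - v * v / d) / ((v + k * d : ℕ) : ℝ) := by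
    field_simp
    push_cast
    ring
  rw [key, abs_div, abs_of_pos hM']
  refine div_le_div_of_nonneg_right ?_ hM'.le
  have h1 : (v : ℝ) * v / d ≤ d := by
    rw [div_le_iff₀ hd']; nlinarith
  have h2 : (0 : ℝ) ≤ v * v / d := by positivity
  rw [abs_le]; constructor <;> linarith

end Crest.Agent.R1s
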