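import Crest.Agent.R1s.Ev

/-! Row 1: the support bound. -/

set_option autoImplicit false

namespace Crest.Agent.R1s

open Finset Filter
open Crest.Agent.R5 (pr pd ee)

namespace SBAux

theorem sqrt_le_iff {ξ Y : ℝ} (hξ : 0 < ξ) (hY : 0 < Y) :
    √ξ ≤ Y ↔ Real.log (ξ / Y) ≤ Real.log ξ / 2 := by
  rw [Real.log_div hξ.ne' hY.ne', ← Real.log_le_log_iff (Real.sqrt_pos.2 hξ) hY,
    Real.log_sqrt hξ.le]
  constructor <;> intro h <;> linarith

theorem sqrt_eq {x : ℝ} (hx : 0 < x) : √x = Real.exp (Real.log x / 2) := by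
  rw [← Real.log_sqrt hx.le, Real.exp_log (Real.sqrt_pos.2 hx)]

theorem ms_le (ε ξ σ n : ℕ) (Y ζ : ℝ) : ms ε ξ σ n Y ζ ≤
    ∑ d ∈ (pr 2 (√(ξ : ℝ))).powerset.filter (fun d : Finset ℕ => (∀ q ∈ d, ζ < ((q : ℕ) : ℝ)) ∧
      Y < (pd d : ℝ) ∧ (pd d : ℝ) ≤ 2 * Y), 1 / (pd d : ℝ) := by
  refine sum_le_sum_of_subset_of_nonneg (fun d hd => ?_) fun d _ _ => by positivity
  obtain ⟨h1, -, -, h2⟩ := mem_filter.1 hd
  exact mem_filter.2 ⟨(mem_filter.1 h1).1, h2⟩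

theorem ms_zero (ε ξ σ : ℕ) {Y : ℝ} (hY : 1 ≤ Y) (ζ : ℝ) : ms ε ξ σ 0 Y ζ = 0 := by
  refine sum_eq_zero fun d hd => ?_
  obtain ⟨-, h1, -, -, h2, -⟩ := mem_filter.1 hd
  rw [card_eq_zero.1 (Nat.le_zero.1 h1), pd_empty, Nat.cast_one] at h2
  exact absurd h2 hY.not_gt

theorem pr_exp_empty {ζ y : ℝ} (hζ : 2 ≤ ζ) (h : y < Real.log ζ) : pr ζ (Real.exp y) = ∅ := by
  refine eq_empty_of_forall_notMem fun p hp => ?_
  obtain ⟨-, h1, h2⟩ := mem_pr.1 hp
  have := (Real.lt_log_iff_exp_lt (by linarith)).1 h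
  linarith

theorem base_le {C L y τ W : ℝ} (hC : 0 < C) (hL : 0 < L) (hτ : 0 < τ) (hy : L / 4 ≤ y)
    (hW : y ^ 2 / (32 * τ) ≤ W) : C / τ ≤ 512 * C / L ^ 2 * W :=
  calc C / τ = 512 * C / L ^ 2 * ((L / 4) ^ 2 / (32 * τ)) := by field_simp; ring
    _ ≤ 512 * C / L ^ 2 * (y ^ 2 / (32 * τ)) := by gcongr
    _ ≤ 512 * C / L ^ 2 * W := by gcongr

end SBAux

open SBAux

theorem sbOK : RecStmt → BaseStmt → KerStmt → WbdStmt → SBStmt := by
  rintro hRec ⟨C, hC, hB⟩ ⟨K, hK, hKer⟩ hWbd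
  obtain ⟨K₁, hK₁, hW⟩ := hWbd K hK
  have claim : ∀ ε ξ : ℕ, ε ≤ 1 → 2 ≤ ξ → ∀ (n : ℕ) (Y ζ : ℝ), √(ξ : ℝ) ≤ Y → Y < ξ → 2 ≤ ζ →
      (Real.log ζ ≤ Real.log (ξ / Y) → ms ε ξ (1 - ε) n Y ζ ≤
        512 * C / Real.log ξ ^ 2 * Wf (Real.log ξ) K (Real.log (ξ / Y)) ζ) ∧
      (2 * Real.log ζ ≤ Real.log (ξ / Y) → ms ε ξ ε n Y ζ ≤
        512 * C / Real.log ξ ^ 2 * Wc (Real.log ξ) K (Real.log (ξ / Y)) ζ) := by
    intro ε ξ hε hξ n
    have hξ' : (2 : ℝ) ≤ ξ := by exact_mod_cast hξ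
    have hξ0 : (0 : ℝ) < ξ := by linarith
    have hL : 0 < Real.log ξ := Real.log_pos (by linarith)
    have hs1 : 1 ≤ √(ξ : ℝ) := Real.one_le_sqrt.2 (by linarith)
    induction n with
    | zero =>
      intro Y ζ h1 h2 hζ
      have hY : 1 ≤ Y := hs1.trans h1
      have hy : 0 < Real.log (ξ / Y) := Real.log_pos ((one_lt_div (by linarith)).2 h2)
      obtain ⟨w1, w2⟩ := hW (Real.log ξ) _ ζ hζ hy ((sqrt_le_iff hξ0 (by linarith)).1 h1)
      rw [ms_zero _ _ _ hY, ms_zero _ _ _ hY]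
      exact ⟨fun h => mul_nonneg (by positivity) (w1 h).1,
        fun h => mul_nonneg (by positivity) (w2 h).1⟩
    | succ n ih =>
      intro Y ζ h1 h2 hζ
      have hY : 1 ≤ Y := hs1.trans h1
      have hY0 : 0 < Y := by linarith
      have hy : 0 < Real.log (ξ / Y) := Real.log_pos ((one_lt_div hY0).2 h2)
      have hτ : 0 < Real.log ζ := Real.log_pos (by linarith)
      by_cases hy4 : Real.log ξ / 4 ≤ Real.log (ξ / Y)
      · obtain ⟨w1, w2⟩ := hW (Real.log ξ) _ ζ hζ hy ((sqrt_le_iff hξ0 hY0).1 h1)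
        exact ⟨fun h => (ms_le _ _ _ _ _ _).trans ((hB _ Y ζ hY hζ).trans
            (base_le hC hL hτ hy4 ((w1 h).2.2 hy4))),
          fun h => (ms_le _ _ _ _ _ _).trans ((hB _ Y ζ hY hζ).trans
            (base_le hC hL hτ hy4 ((w2 h).2.2 hy4)))⟩
      have hy4' := (not_le.1 hy4).le
      obtain ⟨r1, r2⟩ := hRec ε ξ n Y ζ hε hY h1
      obtain ⟨k1, k2⟩ := hKer (Real.log ξ) _ ζ hζ hy hy4'
      have step : ∀ p : ℕ, p.Prime → Real.log p ≤ Real.log (ξ / Y) →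
          ms ε ξ (1 - ε) n (Y / p) p ≤ 512 * C / Real.log ξ ^ 2 *
            Wf (Real.log ξ) K (Real.log (ξ / Y) + Real.log p) p ∧
          ms ε ξ ε n (Y / p) p ≤ 512 * C / Real.log ξ ^ 2 *
            Wc (Real.log ξ) K (Real.log (ξ / Y) + Real.log p) p := by
        intro p hp hpy
        have hp2 : (2 : ℝ) ≤ p := by exact_mod_cast hp.two_le
        have hp0 : (0 : ℝ) < p := by linarith
        have e : Real.log (ξ / (Y / p)) = Real.log (ξ / Y) + Real.log p := by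
          rw [div_div_eq_mul_div, mul_div_right_comm, Real.log_mul (by positivity) hp0.ne']
        obtain ⟨i1, i2⟩ := ih (Y / p) p
          ((sqrt_le_iff hξ0 (by positivity)).2 (by rw [e]; linarith))
          ((div_le_self hY0.le (by linarith)).trans_lt h2) hp2
        rw [e] at i1 i2
        exact ⟨i1 (by linarith), i2 (by linarith)⟩
      refine ⟨fun h => r1.trans ?_, fun h => r2.trans ?_⟩
      · refine le_trans ?_ (mul_le_mul_of_nonneg_left (k1 h) (by positivity))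
        rw [Real.exp_log (by positivity), mul_sum]
        refine sum_le_sum fun p hp => ?_
        obtain ⟨p1, p2, p3⟩ := mem_pr.1 hp
        rw [← mul_div_assoc]
        exact div_le_div_of_nonneg_right
          (step p p1 (Real.log_le_log (by linarith) p3)).2 (by positivity)
      · refine le_trans ?_ (mul_le_mul_of_nonneg_left (k2 h) (by positivity))
        rw [sqrt_eq (by positivity), mul_sum]
        refine sum_le_sum fun p hp => ?_
        obtain ⟨p1, p2, p3⟩ := mem_pr.1 hp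
        have := (Real.log_le_iff_le_exp (by linarith)).2 p3
        rw [← mul_div_assoc]
        exact div_le_div_of_nonneg_right (step p p1 (by linarith)).1 (by positivity)
  refine ⟨16 * C + 2 * (512 * C * K₁), by positivity, fun ε ξ Y ζ hε hY h2 hζ => ?_⟩
  have hξ : 2 ≤ ξ := by
    have : (1 : ℝ) < ξ := hY.trans_lt h2
    exact_mod_cast this
  have hξ' : (2 : ℝ) ≤ ξ := by exact_mod_cast hξ
  have hξ0 : (0 : ℝ) < ξ := by linarith
  have hL : 0 < Real.log ξ := Real.log_pos (by linarith)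
  have hY0 : 0 < Y := by linarith
  have hy : 0 < Real.log (ξ / Y) := Real.log_pos ((one_lt_div hY0).2 h2)
  have hτ : 0 < Real.log ζ := Real.log_pos (by linarith)
  by_cases hy4 : Real.log ξ / 4 ≤ Real.log (ξ / Y)
  · refine le_trans (sum_le_sum_of_subset_of_nonneg (fun d hd => ?_) fun d _ _ => by positivity)
      ((hB (√(ξ : ℝ)) Y ζ hY hζ).trans ?_)
    · obtain ⟨h1, h3⟩ := mem_filter.1 hd
      exact mem_filter.2 ⟨(mem_filter.1 h1).1, h3⟩
    · calc C / Real.log ζ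
          = 16 * C * (Real.log ξ / 4) ^ 2 / (Real.log ζ * Real.log ξ ^ 2) := by field_simp; ring
        _ ≤ _ := by
          gcongr
          exact le_add_of_nonneg_right (by positivity)
  have hy2 : Real.log (ξ / Y) ≤ Real.log ξ / 2 := by linarith [not_le.1 hy4]
  have h1 : √(ξ : ℝ) ≤ Y := (sqrt_le_iff hξ0 hY0).2 hy2
  obtain ⟨c1, c2⟩ := claim ε ξ hε hξ ((pr 2 (√(ξ : ℝ))).card + 1) Y ζ h1 h2 hζ
  obtain ⟨r1, r2⟩ := hRec ε ξ (pr 2 (√(ξ : ℝ))).card Y ζ hε hY h1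
  obtain ⟨w1, w2⟩ := hW (Real.log ξ) _ ζ hζ hy hy2
  have hT : 0 ≤ 512 * C / Real.log ξ ^ 2 * (K₁ * Real.log (ξ / Y) ^ 2 / Real.log ζ) := by positivity
  have b1 : ms ε ξ (1 - ε) ((pr 2 (√(ξ : ℝ))).card + 1) Y ζ ≤
      512 * C / Real.log ξ ^ 2 * (K₁ * Real.log (ξ / Y) ^ 2 / Real.log ζ) := by
    by_cases h : Real.log ζ ≤ Real.log (ξ / Y)
    · exact (c1 h).trans (mul_le_mul_of_nonneg_left (w1 h).2.1 (by positivity))
    · have := pr_exp_empty hζ (not_le.1 h)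
      rw [Real.exp_log (by positivity)] at this
      rw [this, sum_empty] at r1
      exact r1.trans hT
  have b2 : ms ε ξ ε ((pr 2 (√(ξ : ℝ))).card + 1) Y ζ ≤
      512 * C / Real.log ξ ^ 2 * (K₁ * Real.log (ξ / Y) ^ 2 / Real.log ζ) := by
    by_cases h : 2 * Real.log ζ ≤ Real.log (ξ / Y)
    · exact (c2 h).trans (mul_le_mul_of_nonneg_left (w2 h).2.1 (by positivity))
    · have := pr_exp_empty (y := Real.log (ξ / Y) / 2) hζ (by linarith [not_le.1 h])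
      rw [sqrt_eq (x := ξ / Y) (by positivity), this, sum_empty] at r2
      exact r2.trans hT
  have split : ∑ d ∈ (RR ε ξ (√(ξ : ℝ))).filter (fun d : Finset ℕ => (∀ q ∈ d, ζ < ((q : ℕ) : ℝ)) ∧
      Y < (pd d : ℝ) ∧ (pd d : ℝ) ≤ 2 * Y), 1 / (pd d : ℝ) ≤
      ms ε ξ (1 - ε) ((pr 2 (√(ξ : ℝ))).card + 1) Y ζ +
        ms ε ξ ε ((pr 2 (√(ξ : ℝ))).card + 1) Y ζ := by
    unfold ms
    rw [sum_filter, sum_filter, sum_filter, ← sum_add_distrib]
    refine sum_le_sum fun d hd => ?_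
    have hc : d.card ≤ (pr 2 (√(ξ : ℝ))).card + 1 :=
      (card_le_card (mem_powerset.1 (mem_filter.1 hd).1)).trans (Nat.le_succ _)
    have h0 : (0 : ℝ) ≤ 1 / (pd d : ℝ) := by positivity
    by_cases h : (∀ q ∈ d, ζ < ((q : ℕ) : ℝ)) ∧ Y < (pd d : ℝ) ∧ (pd d : ℝ) ≤ 2 * Y
    · rw [if_pos h]
      by_cases hp : d.card % 2 = ε
      · rw [if_pos (show _ ∧ d.card % 2 = ε ∧ _ from ⟨hc, hp, h⟩)]
        split_ifs <;> linarith
      · rw [if_pos (show _ ∧ d.card % 2 = 1 - ε ∧ _ from ⟨hc, by omega, h⟩)]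
        split_ifs <;> linarith
    · rw [if_neg h]
      split_ifs <;> linarith
  refine split.trans ((add_le_add b1 b2).trans ?_)
  calc _ = 2 * (512 * C * K₁) * Real.log (ξ / Y) ^ 2 / (Real.log ζ * Real.log ξ ^ 2) := by
        field_simp
        ring
    _ ≤ _ := by
        gcongr
        exact le_add_of_nonneg_left (by positivity)

end Crest.Agent.R1s
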