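import Crest.Agent.R1s.Ev

/-! Row 1: the small nodes. -/

set_option autoImplicit false

namespace Crest.Agent.R1s

open Finset Filter
open Crest.Agent.R5 (pr pd ee)

namespace SmallAux

theorem term (hR : RemStmt) (N : ℤ) {M d D₀ : ℕ} (hM : 1 ≤ M) (h1 : 0 < d) (h2 : d ≤ D₀) :
    |rem N M d| ≤ (D₀ : ℝ) / M :=
  (hR N M d hM h1).trans (div_le_div_of_nonneg_right (Nat.cast_le.2 h2) (Nat.cast_nonneg M))

theorem total {ι : Type*} {S : Finset ι} {f : ι → ℝ} {M D₀ : ℕ}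
    (hf : ∀ i ∈ S, f i ≤ (D₀ : ℝ) / M) (hS : (S.card : ℝ) ≤ D₀) :
    ∑ i ∈ S, f i ≤ (D₀ : ℝ) ^ 2 / M := by
  refine (Finset.sum_le_card_nsmul S f _ hf).trans ?_
  rw [nsmul_eq_mul, sq, mul_div_assoc]
  exact mul_le_mul_of_nonneg_right hS (div_nonneg (Nat.cast_nonneg _) (Nat.cast_nonneg _))

theorem double (hR : RemStmt) {j D₀ D : ℕ} {z y : ℝ} {𝒟 : Finset (Finset ℕ)}
    (h : DesOK j D₀ D z y 𝒟) (N : ℤ) {M D' : ℕ} (hM : 1 ≤ M) (hD : D' ≤ D)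
    (F : Finset ℕ → Finset (Finset ℕ))
    (hF : ∀ d ∈ 𝒟, ∀ e ∈ F d, e ∈ Rp (D' / pd d) ∧ pd d * pd e ≤ D₀) :
    ∑ d ∈ 𝒟, ∑ e ∈ F d, |rem N M (pd d * pd e)| ≤ (D₀ : ℝ) ^ 2 / M := by
  rw [Finset.sum_sigma']
  have hp : ∀ d ∈ 𝒟, ∀ e ∈ F d, ∀ p ∈ e, p.Prime := fun d hd e he p hp =>
    ((mem_Rp.1 (hF d hd e he).1).1 p hp).1
  refine total (fun x hx => ?_) ?_
  · obtain ⟨h1, h2⟩ := Finset.mem_sigma.1 hx
    exact term hR N hM (Nat.mul_pos (pd_pos (h.prime h1)) (pd_pos (hp _ h1 _ h2)))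
      (hF _ h1 _ h2).2
  · have hinj : Set.InjOn (fun x : (_ : Finset ℕ) × Finset ℕ => x.1 ∪ x.2) (𝒟.sigma F) := by
      rintro ⟨d, e⟩ hx ⟨d', e'⟩ hx' he
      obtain ⟨h1, h2⟩ := Finset.mem_sigma.1 (Finset.mem_coe.1 hx)
      obtain ⟨h3, h4⟩ := Finset.mem_sigma.1 (Finset.mem_coe.1 hx')
      obtain ⟨h5, h6⟩ := union_inj (h.lt h1 hD (hF _ h1 _ h2).1) (h.lt h3 hD (hF _ h3 _ h4).1)
        ((h.card _ h1).trans (h.card _ h3).symm) he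
      dsimp only at h5 h6
      rw [h5, h6]
    rw [← Finset.card_image_of_injOn hinj]
    refine card_pd_le (Nat.cast_nonneg _) fun t ht => ?_
    obtain ⟨x, hx, rfl⟩ := Finset.mem_image.1 ht
    obtain ⟨h1, h2⟩ := Finset.mem_sigma.1 hx
    refine ⟨fun p hp' => ?_, ?_⟩
    · rcases Finset.mem_union.1 hp' with h3 | h3
      · exact h.prime h1 p h3
      · exact hp _ h1 _ h2 p h3
    · rw [pd_union (disjoint_of_lt (h.lt h1 hD (hF _ h1 _ h2).1))]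
      exact Nat.cast_le.2 (hF _ h1 _ h2).2

end SmallAux

theorem smallOK : RemStmt → SmallStmt := by
  intro hR j D₀ D z y 𝒟 h hD hz N M hM
  refine ⟨?_, ?_, ?_⟩
  · have hp : ∀ t ∈ RR 0 D₀ z, ∀ p ∈ t, p.Prime := fun t ht p hp => ((mem_RR.1 ht).1 p hp).1
    refine SmallAux.total (fun t ht => SmallAux.term hR N hM (pd_pos (hp t ht))
      (pd_le_of_RR zero_le_one hD hz ht)) (card_pd_le (Nat.cast_nonneg _) fun t ht =>
        ⟨hp t ht, Nat.cast_le.2 (pd_le_of_RR zero_le_one hD hz ht)⟩)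
  · exact SmallAux.double hR h N hM h.le _ fun d hd e he => ⟨he, h.mul_le hd le_rfl he⟩
  · exact SmallAux.double hR h N hM le_rfl _ fun d hd e he =>
      ⟨(Finset.mem_filter.1 he).1, not_lt.1 (Finset.mem_filter.1 he).2⟩

end Crest.Agent.R1s
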