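import Crest.Agent.R1s.Ev

/-! Row 1: splitting off the smooth tail. -/

set_option autoImplicit false

namespace Crest.Agent.R1s

open Finset Filter
open Crest.Agent.R5 (pr pd ee)

namespace SplitAux

open Classical in
/-- the rough parts below `d` -/
noncomputable def E1 (D₀ D V : ℕ) (Z : ℝ) (d : Finset ℕ) : Finset (Finset ℕ) :=
  (Rp (D / pd d)).filter (fun e : Finset ℕ => (∀ q ∈ e, Z < ((q : ℕ) : ℝ)) ∧ D₀ < pd d * pd e * V)

open Classical in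
/-- the smooth tails -/
noncomputable def SF (r m : ℕ) : Finset (Finset ℕ) :=
  (pr 2 (ZZ r m (r + 1))).powerset.filter (fun f => hits r m f ∧ pd f ≤ VV m)

/-- the condition on the tail -/
def cond (τ : ℕ × ℕ × ℕ) (f : Finset ℕ) : Prop := ros τ.1 τ.2.1 f ∧ τ.2.2 < pd f ∧ pd f ≤ τ.2.1

open Classical in
/-- the coefficient -/
noncomputable def ph (τ : ℕ × ℕ × ℕ) (f : Finset ℕ) : ℝ :=
  if cond τ f then (-1) ^ (τ.1 + 1) * sg f else 0

theorem mem_E1 {D₀ D V : ℕ} {Z : ℝ} {d e : Finset ℕ} :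
    e ∈ E1 D₀ D V Z d ↔
      e ∈ Rp (D / pd d) ∧ (∀ q ∈ e, Z < ((q : ℕ) : ℝ)) ∧ D₀ < pd d * pd e * V := by
  unfold E1
  rw [mem_filter]

theorem mem_SF {r m : ℕ} {f : Finset ℕ} :
    f ∈ SF r m ↔ (∀ q ∈ f, q.Prime ∧ 2 < q ∧ (q : ℝ) ≤ ZZ r m (r + 1)) ∧ hits r m f ∧
      pd f ≤ VV m := by
  classical
  unfold SF
  rw [mem_filter, mem_powerset]
  refine and_congr_left fun _ => ⟨fun H p hp => ?_, fun H p hp => ?_⟩
  · obtain ⟨a, b, c⟩ := mem_pr.1 (H hp)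
    exact ⟨a, by exact_mod_cast b, c⟩
  · obtain ⟨a, b, c⟩ := H p hp
    exact mem_pr.2 ⟨a, by exact_mod_cast b, c⟩

theorem abs_ph (τ : ℕ × ℕ × ℕ) (f : Finset ℕ) : |ph τ f| ≤ 1 := by
  unfold ph
  split_ifs
  · rw [abs_mul, abs_sg, abs_pow, abs_neg, abs_one, one_pow, one_mul]
  · rw [abs_zero]
    exact zero_le_one

theorem cond_of_ne {τ : ℕ × ℕ × ℕ} {f : Finset ℕ} (h : ph τ f ≠ 0) : cond τ f := by
  by_contra hc
  exact h (by unfold ph; rw [if_neg hc])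

variable {j D₀ D : ℕ} {z y : ℝ} {𝒟 : Finset (Finset ℕ)}

theorem prime_union (h : DesOK j D₀ D z y 𝒟) {d e : Finset ℕ} (hd : d ∈ 𝒟)
    (he : e ∈ Rp (D / pd d)) : ∀ p ∈ d ∪ e, p.Prime := by
  intro p hp
  rcases mem_union.1 hp with hp | hp
  · exact h.prime hd p hp
  · exact ((mem_Rp.1 he).1 p hp).1

theorem pd_eq (h : DesOK j D₀ D z y 𝒟) {d e : Finset ℕ} (hd : d ∈ 𝒟)
    (he : e ∈ Rp (D / pd d)) : pd (d ∪ e) = pd d * pd e :=
  pd_union (disjoint_of_lt (h.lt hd le_rfl he))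

theorem g_pos (h : DesOK j D₀ D z y 𝒟) {d e : Finset ℕ} (hd : d ∈ 𝒟)
    (he : e ∈ Rp (D / pd d)) : 0 < pd d * pd e :=
  Nat.mul_pos (pd_pos (h.prime hd)) (pd_pos fun p hp => ((mem_Rp.1 he).1 p hp).1)

theorem tyy_eq (h : DesOK j D₀ D z y 𝒟) {d e : Finset ℕ} (hd : d ∈ 𝒟)
    (he : e ∈ Rp (D / pd d)) :
    tyy D₀ D (pd d * pd e) = ((1 + e.card) % 2, D / pd d / pd e, D₀ / (pd d * pd e)) := by
  have h1 : (pd d * pd e).primeFactors.card = j + e.card := by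
    rw [← pd_eq h hd he, primeFactors_pd (prime_union h hd he),
      card_union_of_disjoint (disjoint_of_lt (h.lt hd le_rfl he)), h.card d hd]
  have h2 := h.odd
  unfold tyy
  rw [h1, Nat.div_div_eq_div_mul]
  congr 1
  omega

theorem sg_eq (e : Finset ℕ) : (-1 : ℝ) ^ ((1 + e.card) % 2 + 1) = sg e := by
  rcases Nat.mod_two_eq_zero_or_one e.card with h | h
  · have h1 : (1 + e.card) % 2 = 1 := by omega
    rw [h1, sg_of_even h]
    norm_num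
  · have h1 : (1 + e.card) % 2 = 0 := by omega
    rw [h1, sg_of_odd h]
    norm_num

theorem filter_le {Z : ℝ} {e f : Finset ℕ} (he : ∀ q ∈ e, Z < ((q : ℕ) : ℝ))
    (hf : ∀ q ∈ f, ((q : ℕ) : ℝ) ≤ Z) : (e ∪ f).filter (fun q : ℕ => (q : ℝ) ≤ Z) = f := by
  rw [filter_union, filter_false_of_mem (s := e) fun q hq => (he q hq).not_ge,
    filter_true_of_mem hf, empty_union]

theorem filter_gt {Z : ℝ} {e f : Finset ℕ} (he : ∀ q ∈ e, Z < ((q : ℕ) : ℝ))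
    (hf : ∀ q ∈ f, ((q : ℕ) : ℝ) ≤ Z) : (e ∪ f).filter (fun q : ℕ => Z < (q : ℝ)) = e := by
  rw [filter_union, filter_false_of_mem (s := f) fun q hq => (hf q hq).not_gt,
    filter_true_of_mem he, union_empty]

theorem lt_of {Z : ℝ} {e f : Finset ℕ} (he : ∀ q ∈ e, Z < ((q : ℕ) : ℝ))
    (hf : ∀ q ∈ f, ((q : ℕ) : ℝ) ≤ Z) : ∀ p ∈ f, ∀ q ∈ e, p < q := fun p hp q hq => by
  exact_mod_cast (hf p hp).trans_lt (he q hq)

open Classical in
theorem one {B r m : ℕ} (hm : 3 ≤ m) (h : DesOK j (D0 m) (DD B m) z y 𝒟) {d : Finset ℕ}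
    (hd : d ∈ 𝒟) (ψ : ℕ → ℝ) :
    ∑ e ∈ (Rp (DD B m / pd d)).filter (fun e => D0 m < pd d * pd e ∧ goodE r m e),
        sg e * ψ (pd d * pd e) =
      ∑ e ∈ E1 (D0 m) (DD B m) (VV m) (ZZ r m (r + 1)) d, ∑ f ∈ SF r m,
        ph (tyy (D0 m) (DD B m) (pd d * pd e)) f * ψ (pd d * pd e * pd f) := by
  have h1 : ∀ e ∈ E1 (D0 m) (DD B m) (VV m) (ZZ r m (r + 1)) d, ∑ f ∈ SF r m,
      ph (tyy (D0 m) (DD B m) (pd d * pd e)) f * ψ (pd d * pd e * pd f) =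
      ∑ f ∈ (SF r m).filter
        (cond ((1 + e.card) % 2, DD B m / pd d / pd e, D0 m / (pd d * pd e))),
        sg e * sg f * ψ (pd d * pd e * pd f) := by
    intro e he
    rw [tyy_eq h hd (mem_E1.1 he).1, sum_filter]
    refine sum_congr rfl fun f _ => ?_
    unfold ph
    split_ifs
    · rw [sg_eq]
    · rw [zero_mul]
  rw [sum_congr rfl h1, sum_sigma']
  symm
  refine sum_bij (fun a _ => a.1 ∪ a.2) ?_ ?_ ?_ ?_
  · rintro ⟨e, f⟩ ha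
    obtain ⟨he, hf⟩ := mem_sigma.1 ha
    obtain ⟨he1, he2, -⟩ := mem_E1.1 he
    obtain ⟨hf1, hf2, hf3, -⟩ := mem_filter.1 hf
    obtain ⟨hf4, hf5, hf6⟩ := mem_SF.1 hf1
    dsimp only at he1 he2 hf2 hf3 hf4 hf5 hf6 ⊢
    have hZ : ∀ q ∈ f, ((q : ℕ) : ℝ) ≤ ZZ r m (r + 1) := fun q hq => (hf4 q hq).2.2
    have hlt := lt_of he2 hZ
    obtain ⟨he3, he4⟩ := mem_Rp.1 he1
    refine mem_filter.2 ⟨mem_Rp.2 ⟨fun p hp => ?_, ?_⟩, ?_, fun i hi => ?_, ?_⟩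
    · rcases mem_union.1 hp with hp | hp
      · exact he3 p hp
      · exact ⟨(hf4 p hp).1, (hf4 p hp).2.1⟩
    · exact (ros_union le_rfl (pd_pos fun p hp => (he3 p hp).1) hlt).2 ⟨he4, hf2⟩
    · rw [Nat.div_lt_iff_lt_mul (g_pos h hd he1)] at hf3
      rw [pd_union (disjoint_of_lt hlt), ← mul_assoc, mul_comm]
      exact hf3
    · obtain ⟨q, hq, hq'⟩ := hf5 i hi
      exact ⟨q, mem_union_right _ hq, hq'⟩
    · rw [filter_le he2 hZ]
      exact hf6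
  · rintro ⟨e, f⟩ ha ⟨e', f'⟩ hb (hu : e ∪ f = e' ∪ f')
    obtain ⟨he, hf⟩ := mem_sigma.1 ha
    obtain ⟨he', hf'⟩ := mem_sigma.1 hb
    have h2 := (mem_E1.1 he).2.1
    have h2' := (mem_E1.1 he').2.1
    have h3 : ∀ q ∈ f, ((q : ℕ) : ℝ) ≤ ZZ r m (r + 1) := fun q hq =>
      ((mem_SF.1 (mem_filter.1 hf).1).1 q hq).2.2
    have h3' : ∀ q ∈ f', ((q : ℕ) : ℝ) ≤ ZZ r m (r + 1) := fun q hq =>
      ((mem_SF.1 (mem_filter.1 hf').1).1 q hq).2.2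
    dsimp only at h2 h2'
    obtain rfl : e = e' := by rw [← filter_gt h2 h3, hu, filter_gt h2' h3']
    obtain rfl : f = f' := by rw [← filter_le h2 h3, hu, filter_le h2' h3']
    rfl
  · intro t ht
    obtain ⟨ht1, ht2, ht3, ht4⟩ := mem_filter.1 ht
    obtain ⟨ht5, ht6⟩ := mem_Rp.1 ht1
    have hle := h.mul_le hd h.le ht1
    set e := t.filter (fun q : ℕ => ZZ r m (r + 1) < (q : ℝ)) with he
    set f := t.filter (fun q : ℕ => (q : ℝ) ≤ ZZ r m (r + 1)) with hf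
    have he2 : ∀ q ∈ e, ZZ r m (r + 1) < ((q : ℕ) : ℝ) := fun q hq => (mem_filter.1 hq).2
    have hZ : ∀ q ∈ f, ((q : ℕ) : ℝ) ≤ ZZ r m (r + 1) := fun q hq => (mem_filter.1 hq).2
    have hu : e ∪ f = t := by
      ext q
      simp only [he, hf, mem_union, mem_filter]
      constructor
      · rintro (hq | hq) <;> exact hq.1
      · intro hq
        rcases lt_or_ge (ZZ r m (r + 1)) (q : ℝ) with hq' | hq'
        · exact Or.inl ⟨hq, hq'⟩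
        · exact Or.inr ⟨hq, hq'⟩
    have hlt := lt_of he2 hZ
    have he3 : ∀ p ∈ e, p.Prime ∧ 2 < p := fun p hp => ht5 p (mem_filter.1 hp).1
    have he0 : 0 < pd e := pd_pos fun p hp => (he3 p hp).1
    have hpd : pd t = pd e * pd f := by rw [← hu, pd_union (disjoint_of_lt hlt)]
    rw [← hu, ros_union le_rfl he0 hlt] at ht6
    have he1 : e ∈ Rp (DD B m / pd d) := mem_Rp.2 ⟨he3, ht6.1⟩
    have hg := g_pos h hd he1
    rw [hpd, ← mul_assoc] at ht2 hle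
    refine ⟨⟨e, f⟩, mem_sigma.2 ⟨mem_E1.2 ⟨he1, he2, ?_⟩, mem_filter.2 ⟨mem_SF.2
      ⟨fun q hq => ?_, fun i hi => ?_, ht4⟩, ht6.2, ?_, ?_⟩⟩, hu⟩
    · exact ht2.trans_le (Nat.mul_le_mul_left _ ht4)
    · exact ⟨(ht5 q (mem_filter.1 hq).1).1, (ht5 q (mem_filter.1 hq).1).2, hZ q hq⟩
    · obtain ⟨q, hq, hq1, hq2⟩ := ht3 i hi
      exact ⟨q, mem_filter.2 ⟨hq, hq2.trans (ZZ_mono r hm (by omega))⟩, hq1, hq2⟩
    · show D0 m / (pd d * pd e) < pd f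
      rw [Nat.div_lt_iff_lt_mul hg, mul_comm]
      exact ht2
    · show pd f ≤ DD B m / pd d / pd e
      rw [Nat.div_div_eq_div_mul, Nat.le_div_iff_mul_le hg, mul_comm]
      exact hle
  · rintro ⟨e, f⟩ ha
    obtain ⟨he, hf⟩ := mem_sigma.1 ha
    have h2 := (mem_E1.1 he).2.1
    have h3 : ∀ q ∈ f, ((q : ℕ) : ℝ) ≤ ZZ r m (r + 1) := fun q hq =>
      ((mem_SF.1 (mem_filter.1 hf).1).1 q hq).2.2
    have hdis : Disjoint e f := disjoint_of_lt (lt_of h2 h3)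
    dsimp only
    rw [sg_union hdis, pd_union hdis, mul_assoc (pd d)]

end SplitAux

open SplitAux in
theorem splitOK : SplitStmt := by
  classical
  intro B r m j z 𝒟 hm h
  refine ⟨(𝒟.sigma (E1 (D0 m) (DD B m) (VV m) (ZZ r m (r + 1)))).image
    (fun x => pd x.1 * pd x.2), SF r m, ph, ?_, ?_, abs_ph, ?_, ?_⟩
  · intro g hg
    obtain ⟨⟨d, e⟩, hx, rfl⟩ := mem_image.1 hg
    obtain ⟨hd, he⟩ := mem_sigma.1 hx
    obtain ⟨he1, -, he3⟩ := mem_E1.1 he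
    exact ⟨he3, h.mul_le hd h.le he1, d, hd, dvd_mul_right _ _⟩
  · intro f hf
    obtain ⟨h1, h2⟩ := mem_SF.1 hf
    exact ⟨fun q hq => (h1 q hq).1, h2⟩
  · intro g hg f hf
    obtain ⟨⟨d, e⟩, hx, rfl⟩ := mem_image.1 hg
    obtain ⟨hd, he⟩ := mem_sigma.1 hx
    have hg0 := g_pos h hd (mem_E1.1 he).1
    obtain ⟨-, h1, h2⟩ := cond_of_ne hf
    dsimp only [tyy] at h1 h2 hg0 ⊢
    rw [Nat.div_lt_iff_lt_mul hg0, mul_comm] at h1
    rw [Nat.le_div_iff_mul_le hg0, mul_comm] at h2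
    exact ⟨h1, h2⟩
  · intro ψ
    rw [sum_image, sum_sigma]
    · exact sum_congr rfl fun d hd => one hm h hd ψ
    · rintro ⟨d, e⟩ hx ⟨d', e'⟩ hx' (hu : pd d * pd e = pd d' * pd e')
      obtain ⟨hd, he⟩ := mem_sigma.1 (mem_coe.1 hx)
      obtain ⟨hd', he'⟩ := mem_sigma.1 (mem_coe.1 hx')
      have he1 := (mem_E1.1 he).1
      have he1' := (mem_E1.1 he').1
      dsimp only at hd hd' he1 he1'
      rw [← pd_eq h hd he1, ← pd_eq h hd' he1'] at hu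
      obtain ⟨rfl, rfl⟩ := union_inj (h.lt hd le_rfl he1) (h.lt hd' le_rfl he1')
        ((h.card d hd).trans (h.card d' hd').symm)
        (pd_inj (prime_union h hd he1) (prime_union h hd' he1') hu)
      rfl

end Crest.Agent.R1s
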