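import Crest.Agent.R1s.Ev

/-! Row 1: the trivial solutions. -/

set_option autoImplicit false

namespace Crest.Agent.R1s

open Finset Filter
open Crest.Agent.R5 (pr pd ee)

namespace TrivAux

/-- a prime cannot divide exactly one denominator of a vanishing signed sum -/
theorem exists_dvd {ι : Type} [Fintype ι] [DecidableEq ι] (a : ι → ℕ) (s : ι → ℤ)
    (ha : ∀ i, a i ≠ 0) (hs : ∀ i, IsUnit (s i)) (h : ∑ i, (s i : ℚ) * (1 / (a i : ℚ)) = 0)
    {l : ℕ} (hl : l.Prime) {i₀ : ι} (h0 : l ∣ a i₀) : ∃ i, i ≠ i₀ ∧ l ∣ a i := by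
  have h1 : ∑ i, s i * ∏ j ∈ univ.erase i, (a j : ℤ) = 0 := by
    have h2 : ((∑ i, s i * ∏ j ∈ univ.erase i, (a j : ℤ) : ℤ) : ℚ) =
        (∑ i, (s i : ℚ) * (1 / (a i : ℚ))) * ∏ j, (a j : ℚ) := by
      rw [sum_mul]
      push_cast
      refine sum_congr rfl fun i _ => ?_
      rw [← mul_prod_erase univ (fun j => (a j : ℚ)) (mem_univ i)]
      have : (a i : ℚ) ≠ 0 := by exact_mod_cast ha i
      field_simp
    rw [h, zero_mul] at h2
    exact_mod_cast h2
  rw [← add_sum_erase univ _ (mem_univ i₀)] at h1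
  have h3 : (l : ℤ) ∣ ∑ i ∈ univ.erase i₀, s i * ∏ j ∈ univ.erase i, (a j : ℤ) := by
    refine dvd_sum fun i hi => Dvd.dvd.mul_left ?_ _
    have hi' : i₀ ∈ univ.erase i := mem_erase.mpr ⟨(ne_of_mem_erase hi).symm, mem_univ _⟩
    exact (Int.natCast_dvd_natCast.mpr h0).trans (dvd_prod_of_mem (fun j => (a j : ℤ)) hi')
  have h4 : (l : ℤ) ∣ s i₀ * ∏ j ∈ univ.erase i₀, (a j : ℤ) := by
    have : s i₀ * ∏ j ∈ univ.erase i₀, (a j : ℤ) =
        -∑ i ∈ univ.erase i₀, s i * ∏ j ∈ univ.erase i, (a j : ℤ) := by linarith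
    rw [this]
    exact h3.neg_right
  rw [(hs i₀).dvd_mul_left] at h4
  have h5 : l ∣ ∏ j ∈ univ.erase i₀, a j := by exact_mod_cast h4
  obtain ⟨i, hi, hd⟩ := (Prime.dvd_finsetProd_iff hl.prime _).mp h5
  exact ⟨i, ne_of_mem_erase hi, hd⟩

/-- maps all of whose values are repeated -/
def rep (ι : Type) [Fintype ι] [DecidableEq ι] (B : Finset ℕ) : Finset (ι → ℕ) :=
  (Fintype.piFinset (fun _ : ι => B)).filter (fun f => ∀ i, ∃ i', i' ≠ i ∧ f i' = f i)

theorem card_image_le_half {ι : Type} [Fintype ι] [DecidableEq ι] {f : ι → ℕ}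
    (h : ∀ i, ∃ i', i' ≠ i ∧ f i' = f i) : 2 * (univ.image f).card ≤ Fintype.card ι := by
  rw [← card_univ, card_eq_sum_card_image f univ, mul_comm, ← smul_eq_mul, ← sum_const]
  refine sum_le_sum fun b hb => ?_
  obtain ⟨i, -, rfl⟩ := mem_image.mp hb
  obtain ⟨i', h1, h2⟩ := h i
  have : ({i', i} : Finset ι) ⊆ univ.filter (fun a => f a = f i) := by
    intro x hx
    rw [mem_insert, mem_singleton] at hx
    rcases hx with rfl | rfl <;> simp [h2]
  have h3 := card_le_card this
  rwa [card_pair h1] at h3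

theorem card_rep_le {ι : Type} [Fintype ι] [DecidableEq ι] {k n : ℕ} (hι : Fintype.card ι = 2 * k)
    {B : Finset ℕ} (hB : B.card ≤ n) : (rep ι B).card ≤ (k ^ 2 * n) ^ k := by
  have hsub : rep ι B ⊆ ((Fintype.piFinset (fun _ : Fin k => B)) ×ˢ (univ : Finset (ι → Fin k))).image
      (fun x => x.1 ∘ x.2) := by
    intro f hf
    unfold rep at hf
    rw [mem_filter, Fintype.mem_piFinset] at hf
    obtain ⟨hfB, hrep⟩ := hf
    rw [mem_image]
    rcases isEmpty_or_nonempty ι with hE | hE
    · have hk : k = 0 := by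
        have : Fintype.card ι = 0 := Fintype.card_eq_zero
        omega
      subst hk
      refine ⟨(Fin.elim0, fun i => hE.elim i), ?_, funext fun i => hE.elim i⟩
      rw [mem_product, Fintype.mem_piFinset]
      exact ⟨fun t => t.elim0, mem_univ _⟩
    · have hc := card_image_le_half hrep
      have hc' : Fintype.card (univ.image f) ≤ Fintype.card (Fin k) := by
        rw [Fintype.card_coe, Fintype.card_fin]; omega
      obtain ⟨e⟩ := Function.Embedding.nonempty_of_card_le hc'
      obtain ⟨i₀⟩ := hE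
      have : Nonempty (univ.image f) := ⟨⟨f i₀, mem_image_of_mem f (mem_univ _)⟩⟩
      refine ⟨(fun t => (Function.invFun e t).1,
        fun i => e ⟨f i, mem_image_of_mem f (mem_univ _)⟩), ?_, ?_⟩
      · rw [mem_product, Fintype.mem_piFinset]
        refine ⟨fun t => ?_, mem_univ _⟩
        obtain ⟨i, -, hi⟩ := mem_image.mp (Function.invFun e t).2
        simp only
        rw [← hi]
        exact hfB i
      · funext i
        simp only [Function.comp_apply]
        rw [Function.leftInverse_invFun e.injective]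
  refine (card_le_card hsub).trans (card_image_le.trans ?_)
  rw [card_product, Fintype.card_piFinset, prod_const, card_univ, Fintype.card_fin, card_univ,
    Fintype.card_fun, Fintype.card_fin, hι, mul_pow, ← pow_mul, mul_comm]
  exact Nat.mul_le_mul_left _ (Nat.pow_le_pow_left hB k)

end TrivAux

open TrivAux in
theorem trivOK : TrivStmt := by
  intro r k n 𝔅 Z hB
  have hι : Fintype.card (Fin k ⊕ Fin k) = 2 * k := by
    rw [Fintype.card_sum, Fintype.card_fin]; ring
  have h1 : ((ktup k 𝔅 ×ˢ ktup k 𝔅).filter (fun x =>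
      ∑ i, 1 / ((ps (x.1 i) : ℕ) : ℚ) = ∑ i, 1 / ((ps (x.2 i) : ℕ) : ℚ))).card ≤
      (Fintype.piFinset (fun j : Fin r => rep (Fin k ⊕ Fin k) (𝔅 j))).card := by
    refine card_le_card_of_injOn (fun x j i => Sum.elim x.1 x.2 i j) ?_ ?_
    · intro x hx
      rw [mem_coe, mem_filter, mem_product] at hx
      obtain ⟨⟨hx1, hx2⟩, heq⟩ := hx
      unfold ktup at hx1 hx2
      simp only [Fintype.mem_piFinset] at hx1 hx2
      have hX : ∀ (i : Fin k ⊕ Fin k) (j : Fin r), Sum.elim x.1 x.2 i j ∈ 𝔅 j := by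
        rintro (i | i) j
        exacts [hx1 i j, hx2 i j]
      rw [mem_coe, Fintype.mem_piFinset]
      intro j
      unfold rep
      rw [mem_filter, Fintype.mem_piFinset]
      refine ⟨fun i => hX i j, fun i₀ => ?_⟩
      have hl := (hB.prime j _ (hX i₀ j)).1
      obtain ⟨i, hi, hd⟩ := exists_dvd (ι := Fin k ⊕ Fin k) (fun i => ps (Sum.elim x.1 x.2 i))
        (Sum.elim (fun _ => 1) (fun _ => -1))
        (fun i => prod_ne_zero_iff.mpr fun j _ => (hB.prime j _ (hX i j)).1.ne_zero)
        (by rintro (i | i) <;> simp)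
        (by
          rw [Fintype.sum_sum_type]
          simp only [Sum.elim_inl, Sum.elim_inr, Int.cast_one, one_mul, Int.cast_neg, neg_mul,
            sum_neg_distrib]
          rw [heq, add_neg_cancel])
        hl (i₀ := i₀) (dvd_prod_of_mem _ (mem_univ j))
      obtain ⟨j', -, hj'⟩ := (Prime.dvd_finsetProd_iff hl.prime _).mp hd
      have he := (Nat.prime_dvd_prime_iff_eq hl (hB.prime j' _ (hX i j')).1).mp hj'
      have hjj : j' = j := by
        by_contra hne
        exact disjoint_left.mp (hB.disj j' j hne) (he ▸ hX i j') (hX i₀ j)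
      subst hjj
      exact ⟨i, hi, he.symm⟩
    · intro x _ y _ hxy
      refine Prod.ext (funext fun i => funext fun j => ?_) (funext fun i => funext fun j => ?_)
      · exact congrFun (congrFun hxy j) (Sum.inl i)
      · exact congrFun (congrFun hxy j) (Sum.inr i)
  refine h1.trans ?_
  rw [Fintype.card_piFinset, pow_mul]
  refine (prod_le_pow_card univ _ ((k ^ 2 * n) ^ k) fun j _ => card_rep_le hι (hB.card j)).trans ?_
  rw [card_univ, Fintype.card_fin]

end Crest.Agent.R1s
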