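import Crest.Agent.R1s.Ev

/-! Row 1: selecting one prime in every range. -/

set_option autoImplicit false

namespace Crest.Agent.R1s

open Finset Filter
open Crest.Agent.R5 (pr pd ee)

namespace TupAux

theorem fact {r : ℕ} {f : Finset ℕ} {g : ℕ → ℕ} (h1 : ∀ j ≤ r, g j ∈ f)
    (h2 : ∀ i j, i < j → j ≤ r → g i < g j) :
    pd f = ps (fun i : Fin r => g i) * g r * pd (f \ (range (r + 1)).image g) := by
  have hsub : (range (r + 1)).image g ⊆ f := fun q hq => by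
    obtain ⟨j, hj, rfl⟩ := mem_image.1 hq
    exact h1 j (Nat.lt_succ_iff.1 (mem_range.1 hj))
  have hinj : ∀ i ∈ range (r + 1), ∀ j ∈ range (r + 1), g i = g j → i = j := by
    intro i hi j hj h
    rcases lt_trichotomy i j with h3 | h3 | h3
    · exact absurd h (h2 i j h3 (Nat.lt_succ_iff.1 (mem_range.1 hj))).ne
    · exact h3
    · exact absurd h (h2 j i h3 (Nat.lt_succ_iff.1 (mem_range.1 hi))).ne'
  have h3 : pd ((range (r + 1)).image g) = ps (fun i : Fin r => g i) * g r := by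
    show ∏ p ∈ (range (r + 1)).image g, p = (∏ i : Fin r, g i) * g r
    rw [prod_image hinj, prod_range_succ, Fin.prod_univ_eq_prod_range]
  rw [← h3, ← pd_union disjoint_sdiff, union_sdiff_of_subset hsub]

end TupAux

theorem tupOK : TupStmt := by
  classical
  intro r m F φ hm hF hφ
  have hex : ∀ f ∈ F, ∀ j ≤ r, ∃ q, q ∈ f ∧ ZZ r m j < (q : ℝ) ∧ (q : ℝ) ≤ ZZ r m (j + 1) :=
    fun f hf j hj => (hF f hf).2.1 j hj
  choose! mx h1 h2 h3 using hex
  have hlt : ∀ f ∈ F, ∀ i j, i < j → j ≤ r → mx f i < mx f j := fun f hf i j hij hj =>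
    Nat.cast_lt.1 (((h3 f hf i (hij.le.trans hj)).trans (ZZ_mono r hm hij)).trans_lt
      (h2 f hf j hj))
  let κ : Finset ℕ → (Fin r → ℕ) × ℕ × ℕ := fun f =>
    (fun i : Fin r => mx f i, mx f r, pd (f \ (range (r + 1)).image (mx f)))
  have hpd : ∀ f ∈ F, ∀ s p u, κ f = (s, p, u) → pd f = ps s * p * u := by
    intro f hf s p u h
    obtain ⟨h4, h5⟩ := Prod.mk.inj h
    obtain ⟨h6, h7⟩ := Prod.mk.inj h5
    rw [← h4, ← h6, ← h7]
    exact TupAux.fact (h1 f hf) (hlt f hf)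
  have hpr : ∀ f ∈ F, ∀ j ≤ r, mx f j ∈ pr (ZZ r m j) (ZZ r m (j + 1)) := fun f hf j hj =>
    mem_pr.2 ⟨(hF f hf).1 _ (h1 f hf j hj), h2 f hf j hj, h3 f hf j hj⟩
  have hsd : ∀ f ∈ F, ∀ q ∈ f \ (range (r + 1)).image (mx f), q.Prime := fun f hf q hq =>
    (hF f hf).1 q (mem_sdiff.1 hq).1
  have hmaps : ∀ f ∈ F, κ f ∈ tup r m ×ˢ top r m ×ˢ Icc 1 (VV m) := fun f hf =>
    mem_product.2 ⟨Fintype.mem_piFinset.2 fun i => hpr f hf i i.2.le,
      mem_product.2 ⟨hpr f hf r le_rfl, mem_Icc.2 ⟨pd_pos (hsd f hf),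
        (pd_mono (hF f hf).1 sdiff_subset).trans (hF f hf).2.2⟩⟩⟩
  refine ⟨fun τ s p u => ∑ f ∈ F.filter (fun f => κ f = (s, p, u)), φ τ f, fun τ s p u => ?_,
    fun τ s p u hc => ?_, fun τ ψ => ?_⟩
  · have hcard : (F.filter (fun f => κ f = (s, p, u))).card ≤ 1 := by
      refine card_le_one.2 fun a ha b hb => ?_
      obtain ⟨h4, h5⟩ := mem_filter.1 ha
      obtain ⟨h6, h7⟩ := mem_filter.1 hb
      exact pd_inj (hF a h4).1 (hF b h6).1 ((hpd a h4 s p u h5).trans (hpd b h6 s p u h7).symm)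
    refine (abs_sum_le_sum_abs _ _).trans ((sum_le_card_nsmul _ _ 1 fun f _ => hφ τ f).trans ?_)
    rw [nsmul_eq_mul, mul_one]
    exact_mod_cast hcard
  · obtain ⟨f, hf, h4⟩ := exists_ne_zero_of_sum_ne_zero hc
    obtain ⟨h5, h6⟩ := mem_filter.1 hf
    refine ⟨?_, f, h5, h4, hpd f h5 s p u h6⟩
    obtain ⟨h7, h8⟩ := Prod.mk.inj (Prod.mk.inj h6).2
    rw [← h7, ← h8, prime_dvd_pd (hsd f h5) ((hF f h5).1 _ (h1 f h5 r le_rfl))]
    exact fun h => (mem_sdiff.1 h).2 (mem_image_of_mem _ (self_mem_range_succ r))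
  · rw [← sum_fiberwise_of_maps_to hmaps, sum_product]
    refine sum_congr rfl fun s _ => ?_
    rw [sum_product]
    refine sum_congr rfl fun p _ => sum_congr rfl fun u _ => ?_
    rw [sum_mul]
    refine sum_congr rfl fun f hf => ?_
    rw [hpd f (mem_filter.1 hf).1 s p u (mem_filter.1 hf).2]

end Crest.Agent.R1s
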