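import Crest.Agent.R1s.Ev

/-! Row 1: types and good residue classes. -/

set_option autoImplicit false

namespace Crest.Agent.R1s

open Finset Filter
open Crest.Agent.R5 (pr pd ee)

namespace TypAux

theorem card_pi_le {r n : ℕ} {𝔅 : Fin r → Finset ℕ} {Z : ℝ} (h : Blk 𝔅 n Z) :
    (Fintype.piFinset 𝔅).card ≤ n ^ r := by
  rw [Fintype.card_piFinset]
  calc ∏ j, (𝔅 j).card ≤ ∏ _j : Fin r, n := prod_le_prod' fun j _ => h.card j
    _ = n ^ r := by simp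

theorem ps_pos {r n : ℕ} {𝔅 : Fin r → Finset ℕ} {Z : ℝ} (h : Blk 𝔅 n Z) {s : Fin r → ℕ}
    (hs : s ∈ Fintype.piFinset 𝔅) : 0 < ps s :=
  prod_pos fun j _ => (h.prime j _ (Fintype.mem_piFinset.1 hs j)).1.pos

theorem ps_dvd {r n : ℕ} {𝔅 : Fin r → Finset ℕ} {Z : ℝ} (h : Blk 𝔅 n Z) {s : Fin r → ℕ}
    (hs : s ∈ Fintype.piFinset 𝔅) : ps s ∣ pd (univ.biUnion 𝔅) := by
  have hm := Fintype.mem_piFinset.1 hs
  have hinj : Set.InjOn s (univ : Finset (Fin r)) := by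
    intro i _ j _ e
    by_contra hne
    exact disjoint_left.1 (h.disj i j hne) (hm i) (e ▸ hm j)
  have : ps s = pd (univ.image s) := by
    unfold ps pd; rw [prod_image hinj]
  rw [this]
  refine pd_dvd_pd fun q hq => ?_
  obtain ⟨j, -, rfl⟩ := mem_image.1 hq
  exact mem_biUnion.2 ⟨j, mem_univ _, hm j⟩

theorem not_dvd_ps {r n : ℕ} {𝔅 : Fin r → Finset ℕ} {Z : ℝ} (h : Blk 𝔅 n Z) {s : Fin r → ℕ}
    (hs : s ∈ Fintype.piFinset 𝔅) {p : ℕ} (hp : p.Prime) (hZ : Z < p) : ¬ p ∣ ps s := by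
  intro hd
  obtain ⟨j, -, hj⟩ := (Prime.dvd_finsetProd_iff hp.prime _).1 hd
  obtain ⟨a, b⟩ := h.prime j _ (Fintype.mem_piFinset.1 hs j)
  have := (Nat.prime_dvd_prime_iff_eq hp a).1 hj
  rw [← this] at b
  linarith

theorem pool_le {r n : ℕ} {𝔅 : Fin r → Finset ℕ} {Z : ℝ} (h : Blk 𝔅 n Z) (hZ : 1 ≤ Z) :
    0 < pd (univ.biUnion 𝔅) ∧ (pd (univ.biUnion 𝔅) : ℝ) ≤ Z ^ (r * n) := by
  have h1 : ∀ q ∈ univ.biUnion 𝔅, q.Prime ∧ (q : ℝ) ≤ Z := fun q hq => by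
    obtain ⟨j, -, hj⟩ := mem_biUnion.1 hq
    exact h.prime j q hj
  refine ⟨pd_pos fun q hq => (h1 q hq).1, ?_⟩
  have h2 : (univ.biUnion 𝔅).card ≤ r * n := by
    refine card_biUnion_le.trans ?_
    calc ∑ j, (𝔅 j).card ≤ ∑ _j : Fin r, n := sum_le_sum fun j _ => h.card j
      _ = r * n := by simp
  unfold pd
  rw [Nat.cast_prod]
  calc ∏ q ∈ univ.biUnion 𝔅, (q : ℝ) ≤ ∏ _q ∈ univ.biUnion 𝔅, Z :=
        prod_le_prod (fun q _ => by positivity) fun q hq => (h1 q hq).2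
    _ = Z ^ (univ.biUnion 𝔅).card := prod_const _
    _ ≤ _ := pow_le_pow_right₀ hZ h2

/-- the phase splits along a congruence -/
theorem phase {p v u : ℕ} [Fact p.Prime] (hv : ¬ p ∣ v) (hu : ¬ p ∣ u) {X X' : ℤ} (h : ℤ)
    (hd : ((v * u : ℕ) : ℤ) ∣ X - X') :
    ee (h * X / (v * p * u : ℕ)) = ee (h * X' / (v * p * u : ℕ)) *
      ZMod.stdAddChar (((h : ZMod p) * ((X : ZMod p) - (X' : ZMod p)) * (u : ZMod p)⁻¹) * (v : ZMod p)⁻¹) := by
  have hp := (Fact.out : p.Prime)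
  obtain ⟨y, hy⟩ := hd
  have hv0 : v ≠ 0 := by rintro rfl; exact hv (dvd_zero _)
  have hu0 : u ≠ 0 := by rintro rfl; exact hu (dvd_zero _)
  have hv1 : (v : ZMod p) ≠ 0 := by rwa [Ne, ZMod.natCast_eq_zero_iff]
  have hu1 : (u : ZMod p) ≠ 0 := by rwa [Ne, ZMod.natCast_eq_zero_iff]
  have e1 : (X : ZMod p) - (X' : ZMod p) = v * u * y := by
    have := congrArg (Int.cast : ℤ → ZMod p) hy
    push_cast at this; exact this
  have e2 : (h : ZMod p) * ((X : ZMod p) - (X' : ZMod p)) * (u : ZMod p)⁻¹ * (v : ZMod p)⁻¹ =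
      ((h * y : ℤ) : ZMod p) := by
    rw [e1]; push_cast; field_simp
  have e3 : (X : ℝ) = X' + v * u * y := by
    have := congrArg (Int.cast : ℤ → ℝ) hy
    push_cast at this; linarith
  have hvR : (v : ℝ) ≠ 0 := by exact_mod_cast hv0
  have huR : (u : ℝ) ≠ 0 := by exact_mod_cast hu0
  have hpR : (p : ℝ) ≠ 0 := by exact_mod_cast hp.ne_zero
  have e4 : (h : ℝ) * X / (v * p * u : ℕ) = h * X' / (v * p * u : ℕ) + (h * y : ℤ) / p := by
    rw [e3]; push_cast; field_simp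
  rw [e2, e4, ee_add, ZMod.stdAddChar_coe]
  congr 1
  unfold ee
  congr 1
  push_cast
  ring

theorem abs_sub_le_of_div {a b Δ : ℕ} (hΔ : 1 ≤ Δ) (h : a / Δ = b / Δ) :
    |(a : ℝ) - b| ≤ Δ := by
  have h1 := Nat.div_add_mod a Δ
  have h2 := Nat.div_add_mod b Δ
  have h3 := Nat.mod_lt a hΔ
  have h4 := Nat.mod_lt b hΔ
  rw [h] at h1
  have h5 : a ≤ b + Δ := by omega
  have h6 : b ≤ a + Δ := by omega
  have h7 : (a : ℝ) ≤ b + Δ := by exact_mod_cast h5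
  have h8 : (b : ℝ) ≤ a + Δ := by exact_mod_cast h6
  rw [abs_le]; constructor <;> linarith

/-- the error of replacing `g` by its representative -/
theorem gam_close (hL : LipStmt) {N h : ℤ} {M D D₀ G₀ Δ H g τ f : ℕ} (hM : 1 ≤ M) (hMD : M ≤ D)
    (hD₀ : 1 ≤ D₀) (hG₀ : 1 ≤ G₀) (hΔ : 1 ≤ Δ) (hH : |h| ≤ H) (hg : G₀ ≤ g) (hτ : G₀ ≤ τ)
    (hτD : τ ≤ D) (hf : 1 ≤ f) (hgf : D₀ ≤ g * f) (e1 : g / Δ = τ / Δ)
    (e2 : (ig N g).toNat / Δ = (ig N τ).toNat / Δ) :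
    ‖gam M g (ig N g) h f - gam M τ (ig N τ) h f‖ ≤ 26 * H * D * Δ / (G₀ * D₀) := by
  have hg1 : 1 ≤ g := hG₀.trans hg
  have hτ1 : 1 ≤ τ := hG₀.trans hτ
  refine (hL M g τ f _ _ h hM hg1 hτ1 hf).2.trans ?_
  have a1 := abs_sub_le_of_div hΔ e1
  have a2 := abs_sub_le_of_div hΔ e2
  have c1 : (((ig N g).toNat : ℕ) : ℝ) = (ig N g : ℝ) := by
    have := Int.toNat_of_nonneg (ig_nonneg N hg1); exact_mod_cast this
  have c2 : (((ig N τ).toNat : ℕ) : ℝ) = (ig N τ : ℝ) := by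
    have := Int.toNat_of_nonneg (ig_nonneg N hτ1); exact_mod_cast this
  rw [c1, c2] at a2
  have b1 : |(h : ℝ)| ≤ H := by exact_mod_cast hH
  have b2 : |(ig N τ : ℝ)| ≤ D := by
    have h1 : (0 : ℝ) ≤ ig N τ := by exact_mod_cast ig_nonneg N hτ1
    have h2 : (ig N τ : ℝ) < τ := by exact_mod_cast ig_lt N hτ1
    have h3 : (τ : ℝ) ≤ D := by exact_mod_cast hτD
    rw [abs_of_nonneg h1]; linarith
  have r1 : (0 : ℝ) < D₀ := by exact_mod_cast hD₀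
  have r2 : (0 : ℝ) < G₀ := by exact_mod_cast hG₀
  have r3 : (D₀ : ℝ) ≤ g * f := by exact_mod_cast hgf
  have r4 : (G₀ : ℝ) ≤ τ := by exact_mod_cast hτ
  have r5 : (M : ℝ) ≤ D := by exact_mod_cast hMD
  have r6 : (G₀ : ℝ) ≤ D := by exact_mod_cast hτ.trans hτD
  have r7 : (0 : ℝ) < Δ := by exact_mod_cast hΔ
  have t1 : |(ig N g : ℝ) - ig N τ| / (g * f) ≤ D * Δ / (G₀ * D₀) := by
    calc |(ig N g : ℝ) - ig N τ| / (g * f) ≤ Δ / D₀ := by gcongr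
      _ = G₀ * Δ / (G₀ * D₀) := by field_simp
      _ ≤ _ := by gcongr
  have t2 : (2 * M + |(ig N τ : ℝ)|) * |(g : ℝ) - τ| / (g * τ * f) ≤ 3 * (D * Δ / (G₀ * D₀)) := by
    have : (G₀ : ℝ) * D₀ ≤ g * τ * f := by
      calc (G₀ : ℝ) * D₀ ≤ τ * (g * f) := by gcongr
        _ = _ := by ring
    calc (2 * M + |(ig N τ : ℝ)|) * |(g : ℝ) - τ| / (g * τ * f) ≤ (3 * D) * Δ / (G₀ * D₀) := by
          gcongr; linarith
      _ = _ := by ring
  have hw : (0 : ℝ) ≤ D * Δ / (G₀ * D₀) := by positivity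
  have hpi : 2 * Real.pi * 4 ≤ 26 := by linarith [Real.pi_lt_d2]
  calc _ ≤ 2 * Real.pi * H * (D * Δ / (G₀ * D₀) + 3 * (D * Δ / (G₀ * D₀))) := by gcongr
    _ = 2 * Real.pi * 4 * (H * (D * Δ / (G₀ * D₀))) := by ring
    _ ≤ 26 * (H * (D * Δ / (G₀ * D₀))) := by gcongr
    _ = _ := by ring

/-- the coefficients seen from the representative -/
noncomputable def aa {r : ℕ} (N h : ℤ) (M u τ p : ℕ) (b : (Fin r → ℕ) → ℂ) (s : Fin r → ℕ) : ℂ :=
  b s * gam M τ (ig N τ) h (ps s * p * u) * ee (h * Xg N τ / (ps s * p * u : ℕ))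

open Classical in
/-- the good classes -/
noncomputable def GS {r : ℕ} (N h : ℤ) (M u τ p : ℕ) (𝔅 : Fin r → Finset ℕ)
    (b : (Fin r → ℕ) → ℂ) (ϑ : ℝ) : Finset ℤ :=
  if hp : p.Prime then
    haveI : Fact p.Prime := ⟨hp⟩
    (Ico (0 : ℤ) p).filter (fun x => ϑ < ‖∑ s ∈ Fintype.piFinset 𝔅,
      (if s ∈ Fintype.piFinset 𝔅 then aa N h M u τ p b s else 0) *
        ZMod.stdAddChar (((h : ZMod p) * ((x : ZMod p) - (Xg N τ : ZMod p)) * (u : ZMod p)⁻¹) *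
          ((ps s : ℕ) : ZMod p)⁻¹)‖)
  else ∅

theorem card_GS (hL : LipStmt) (hMom : MomStmt) {r n : ℕ} {N h : ℤ} {M u τ p H : ℕ}
    {𝔅 : Fin r → Finset ℕ} {Z : ℝ} {b : (Fin r → ℕ) → ℂ} {ϑ : ℝ} (hB : Blk 𝔅 n Z) (hM : 1 ≤ M)
    (hu : 1 ≤ u) (hτ : 1 ≤ τ) (hp : p.Prime) (h0 : h ≠ 0) (hH : |h| ≤ H) (hHp : H < p)
    (hpu : ¬ p ∣ u) (hb : ∀ s, ‖b s‖ ≤ 1) (hϑ : 0 < ϑ) (k : ℕ) :
    ((GS N h M u τ p 𝔅 b ϑ).card : ℝ) * ϑ ^ (2 * k) ≤ p * nsol p k 𝔅 := by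
  classical
  haveI : Fact p.Prime := ⟨hp⟩
  refine le_trans ?_ (hMom p r k 𝔅
    (fun s => if s ∈ Fintype.piFinset 𝔅 then aa N h M u τ p b s else 0) ϑ hϑ fun s => ?_)
  · refine mul_le_mul_of_nonneg_right ?_ (by positivity)
    unfold GS
    rw [dif_pos hp]
    refine Nat.cast_le.2 (card_le_card_of_injOn
      (fun x : ℤ => (h : ZMod p) * ((x : ZMod p) - (Xg N τ : ZMod p)) * (u : ZMod p)⁻¹) ?_ ?_)
    · intro x hx
      have := (mem_filter.1 (mem_coe.1 hx)).2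
      exact mem_coe.2 (mem_filter.2 ⟨mem_univ _, by convert this⟩)
    · intro x hx y hy e
      have hx' := mem_Ico.1 (mem_filter.1 (mem_coe.1 hx)).1
      have hy' := mem_Ico.1 (mem_filter.1 (mem_coe.1 hy)).1
      have hu1 : (u : ZMod p) ≠ 0 := by rwa [Ne, ZMod.natCast_eq_zero_iff]
      have hh : (h : ZMod p) ≠ 0 := by
        rw [Ne, ZMod.intCast_zmod_eq_zero_iff_dvd]
        intro hd
        have := Int.le_of_dvd (abs_pos.2 h0) ((dvd_abs _ _).2 hd)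
        omega
      have e1 : (x : ZMod p) = y := by
        have e2 := mul_left_cancel₀ hh (mul_right_cancel₀ (inv_ne_zero hu1) e)
        exact sub_left_injective e2
      rw [ZMod.intCast_eq_intCast_iff'] at e1
      rwa [Int.emod_eq_of_lt hx'.1 hx'.2, Int.emod_eq_of_lt hy'.1 hy'.2] at e1
  · split_ifs with hs
    · unfold aa
      have hf : 1 ≤ ps s * p * u := Nat.mul_pos (Nat.mul_pos (ps_pos hB hs) hp.pos) hu
      rw [norm_mul, norm_mul, norm_ee, mul_one]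
      exact mul_le_one₀ (hb s) (norm_nonneg _) (hL M τ τ _ (ig N τ) 0 h hM hτ hτ hf).1
    · simp

end TypAux

open TypAux in
theorem typeOK : LipStmt → MomStmt → TypeStmt := by
  intro hL hMom N h M D D₀ G₀ Δ r n u H Z θ 𝒢 PP ty E 𝔅 b hM hMD hD₀ hG₀ hΔ hn hu h0 hH hZ hθ hB
    hG hP hb hs
  classical
  obtain ⟨hQ0, hQ1⟩ := pool_le hB hZ
  set Q := pd (univ.biUnion 𝔅) with hQ
  set key : ℕ → (ℕ × ℕ × ℕ) × ℕ × ℕ × ℤ := fun g =>
    (ty g, g / Δ, (ig N g).toNat / Δ, Xg N g % (u * Q : ℕ)) with hkey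
  set rp : ℕ → ℕ := fun g => Function.invFunOn key (𝒢 : Set ℕ) (key g) with hrp
  have hr : ∀ g ∈ 𝒢, rp g ∈ 𝒢 ∧ key (rp g) = key g := fun g hg =>
    Function.invFunOn_pos (f := key) (s := (𝒢 : Set ℕ)) ⟨g, mem_coe.2 hg, rfl⟩
  have hn0 : (0 : ℝ) < (n : ℝ) ^ r := by
    have : (0 : ℝ) < n := by exact_mod_cast hn
    positivity
  have hc : ((Fintype.piFinset 𝔅).card : ℝ) ≤ (n : ℝ) ^ r := by exact_mod_cast card_pi_le hB
  refine ⟨rp, fun τ p => if τ ∈ 𝒢 then GS N h M u τ p 𝔅 (b (ty τ) p) (θ * (n : ℝ) ^ r) else ∅,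
    ?_, ?_, ?_⟩
  · have h1 : (𝒢.image rp).card ≤ (𝒢.image key).card := by
      have : 𝒢.image rp = (𝒢.image key).image (Function.invFunOn key (𝒢 : Set ℕ)) := by
        rw [image_image]; rfl
      rw [this]; exact card_image_le
    have h2 : 𝒢.image key ⊆ E ×ˢ range (D / Δ + 1) ×ˢ range (D / Δ + 1) ×ˢ
        Ico (0 : ℤ) (u * Q : ℕ) := by
      intro x hx
      obtain ⟨g, hg, rfl⟩ := mem_image.1 hx
      obtain ⟨a1, a2, a3⟩ := hG g hg
      have hg1 : 1 ≤ g := hG₀.trans a1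
      have hpos : (0 : ℤ) < (u * Q : ℕ) := by exact_mod_cast Nat.mul_pos hu hQ0
      simp only [hkey, mem_product, mem_range, mem_Ico]
      refine ⟨a3, Nat.lt_succ_of_le (Nat.div_le_div_right a2),
        Nat.lt_succ_of_le (Nat.div_le_div_right ?_), Int.emod_nonneg _ hpos.ne',
        Int.emod_lt_of_pos _ hpos⟩
      have := ig_lt N hg1
      omega
    have h3 := h1.trans (card_le_card h2)
    simp only [card_product, card_range, Int.card_Ico, sub_zero, Int.toNat_natCast] at h3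
    have h4 : ((D / Δ + 1 : ℕ) : ℝ) ≤ (D : ℝ) / Δ + 1 := by
      push_cast; linarith [Nat.cast_div_le (α := ℝ) (m := D) (n := Δ)]
    calc ((𝒢.image rp).card : ℝ)
        ≤ ((E.card * ((D / Δ + 1) * ((D / Δ + 1) * (u * Q))) : ℕ) : ℝ) := by exact_mod_cast h3
      _ = E.card * ((D / Δ + 1 : ℕ) : ℝ) ^ 2 * u * Q := by
          generalize D / Δ + 1 = w; push_cast; ring
      _ ≤ _ := by gcongr
  · intro τ p hp k
    obtain ⟨a1, a2, a3, a4⟩ := hP p hp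
    beta_reduce
    split_ifs with hτ
    · exact card_GS hL hMom hB hM hu (hG₀.trans (hG τ hτ).1) a1 h0 hH a3 a4 (hb _ _)
        (by positivity) k
    · simp only [card_empty, Nat.cast_zero, zero_mul]; positivity
  · intro g hg p hp
    obtain ⟨a1, a2, a3, a4⟩ := hP p hp
    obtain ⟨g1, g2, g3⟩ := hG g hg
    have hg1 : 1 ≤ g := hG₀.trans g1
    have hf : ∀ s ∈ Fintype.piFinset 𝔅, 1 ≤ ps s * p * u := fun s hs =>
      Nat.mul_pos (Nat.mul_pos (ps_pos hB hs) a1.pos) hu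
    refine ⟨?_, fun hx => ?_⟩
    · unfold FF
      refine (norm_sum_le _ _).trans (le_trans ?_ hc)
      rw [card_eq_sum_ones, Nat.cast_sum]
      refine sum_le_sum fun s hs => ?_
      rw [norm_mul, norm_mul, norm_ee, mul_one, Nat.cast_one]
      exact mul_le_one₀ (hb _ _ _) (norm_nonneg _) (hL M g g _ (ig N g) 0 h hM hg1 hg1 (hf s hs)).1
    obtain ⟨hτ, hk⟩ := hr g hg
    set τ := rp g with hτdef
    obtain ⟨t1, t2, t3⟩ := hG τ hτ
    simp only [hkey, Prod.mk.injEq] at hk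
    obtain ⟨k1, k2, k3, k4⟩ := hk
    haveI : Fact p.Prime := ⟨a1⟩
    simp only [if_pos hτ] at hx
    unfold GS at hx
    rw [dif_pos a1, mem_filter, not_and] at hx
    have hpos : (0 : ℤ) < p := by exact_mod_cast a1.pos
    have hx2 := not_lt.1 (hx (mem_Ico.2 ⟨Int.emod_nonneg _ hpos.ne', Int.emod_lt_of_pos _ hpos⟩))
    rw [ZMod.intCast_mod, k1] at hx2
    have hdv : ((u * Q : ℕ) : ℤ) ∣ Xg N g - Xg N τ := Int.ModEq.dvd k4
    have hmain : ∑ s ∈ Fintype.piFinset 𝔅,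
        (if s ∈ Fintype.piFinset 𝔅 then aa N h M u τ p (b (ty g) p) s else 0) *
        ZMod.stdAddChar (((h : ZMod p) * ((Xg N g : ZMod p) - (Xg N τ : ZMod p)) * (u : ZMod p)⁻¹) *
          ((ps s : ℕ) : ZMod p)⁻¹) =
        ∑ s ∈ Fintype.piFinset 𝔅, b (ty g) p s * gam M τ (ig N τ) h (ps s * p * u) *
          ee (h * Xg N g / (ps s * p * u : ℕ)) := by
      refine sum_congr rfl fun s hs => ?_
      rw [if_pos hs, phase (not_dvd_ps hB hs a1 a2) a4 h (X := Xg N g) (X' := Xg N τ)]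
      · unfold aa; ring
      · refine dvd_trans (Int.natCast_dvd_natCast.2 ?_) hdv
        rw [mul_comm]
        exact Nat.mul_dvd_mul_left _ (ps_dvd hB hs)
    have hx3 : ‖∑ s ∈ Fintype.piFinset 𝔅, b (ty g) p s * gam M τ (ig N τ) h (ps s * p * u) *
          ee (h * Xg N g / (ps s * p * u : ℕ))‖ ≤ θ * (n : ℝ) ^ r := by
      rw [← hmain]; convert hx2
    have he : (0 : ℝ) ≤ 26 * H * D * Δ / (G₀ * D₀) := by positivity
    have hdiff : ‖FF N M g h u p 𝔅 (b (ty g) p) -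
        ∑ s ∈ Fintype.piFinset 𝔅, b (ty g) p s * gam M τ (ig N τ) h (ps s * p * u) *
          ee (h * Xg N g / (ps s * p * u : ℕ))‖ ≤ 26 * H * D * Δ / (G₀ * D₀) * (n : ℝ) ^ r := by
      unfold FF
      rw [← sum_sub_distrib]
      refine (norm_sum_le _ _).trans (le_trans ?_ (mul_le_mul_of_nonneg_left hc he))
      rw [card_eq_sum_ones, Nat.cast_sum, mul_sum]
      refine sum_le_sum fun s hs' => ?_
      rw [Nat.cast_one, mul_one, ← sub_mul, ← mul_sub, norm_mul, norm_mul, norm_ee, mul_one]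
      by_cases hb0 : b (ty g) p s = 0
      · rw [hb0, norm_zero, zero_mul]; exact he
      · have := gam_close hL (N := N) hM hMD hD₀ hG₀ hΔ hH g1 t1 t2 (hf s hs') (hs g hg p s hb0)
          k2.symm k3.symm
        calc _ ≤ 1 * (26 * H * D * Δ / (G₀ * D₀) : ℝ) :=
              mul_le_mul (hb _ _ _) this (norm_nonneg _) zero_le_one
          _ = _ := one_mul _
    have := norm_add_le (FF N M g h u p 𝔅 (b (ty g) p) -
        ∑ s ∈ Fintype.piFinset 𝔅, b (ty g) p s * gam M τ (ig N τ) h (ps s * p * u) *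
          ee (h * Xg N g / (ps s * p * u : ℕ)))
      (∑ s ∈ Fintype.piFinset 𝔅, b (ty g) p s * gam M τ (ig N τ) h (ps s * p * u) *
          ee (h * Xg N g / (ps s * p * u : ℕ)))
    rw [sub_add_cancel] at this
    linarith

end Crest.Agent.R1s
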