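import Crest.Agent.R1s.Ev

/-! Row 1: size of the supersolution. -/

set_option autoImplicit false

namespace Crest.Agent.R1s

open Finset Filter
open Crest.Agent.R5 (pr pd ee)

namespace WbdAux

theorem gen {A P E L y τ c : ℝ} (hτ : 0 < τ) (hy : 0 < y) (hL : y ≤ L / 2) (hA0 : 0 ≤ A)
    (hA1 : A ≤ y ^ 2) (hP : P ≤ 4 * y ^ 3) (h2 : y ^ 3 / 16 ≤ 2 * y * A + P)
    (h4 : y ^ 3 / 8 ≤ 4 * y * A + P) (hE0 : 0 ≤ E) (hE1 : E ≤ c * y ^ 2 / τ) :
    0 ≤ A / τ + P / τ / L + E ∧ A / τ + P / τ / L + E ≤ (3 + c) * y ^ 2 / τ ∧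
      (L / 4 ≤ y → y ^ 2 / (32 * τ) ≤ A / τ + P / τ / L + E) := by
  have hL0 : 0 < L := by linarith
  have hy3 : 0 < y ^ 3 := by positivity
  have e : A / τ + P / τ / L = (A * L + P) / (τ * L) := by
    field_simp
  rw [e]
  refine ⟨?_, ?_, fun h => ?_⟩
  · have a : 2 * y * A ≤ A * L := by nlinarith
    have b : 0 ≤ (A * L + P) / (τ * L) := div_nonneg (by linarith) (by positivity)
    linarith
  · have a : A * L ≤ y ^ 2 * L := mul_le_mul_of_nonneg_right hA1 hL0.le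
    have b : y ^ 2 * (2 * y) ≤ y ^ 2 * L := mul_le_mul_of_nonneg_left (by linarith) (by positivity)
    have c' : (A * L + P) / (τ * L) ≤ 3 * y ^ 2 / τ := by
      rw [div_le_div_iff₀ (by positivity) hτ]
      have : A * L + P ≤ 3 * y ^ 2 * L := by nlinarith
      nlinarith
    have d : (3 + c) * y ^ 2 / τ = 3 * y ^ 2 / τ + c * y ^ 2 / τ := by ring
    linarith
  · have a : y ^ 2 * L / 32 ≤ A * L + P := by
      have u : 0 ≤ (4 * y - L) * (2 * y * A + P - y ^ 3 / 16) :=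
        mul_nonneg (by linarith) (by linarith)
      have v : 0 ≤ (L - 2 * y) * (4 * y * A + P - y ^ 3 / 8) :=
        mul_nonneg (by linarith) (by linarith)
      have w : 0 ≤ 2 * y * (A * L + P - y ^ 2 * L / 32) := by nlinarith
      have := nonneg_of_mul_nonneg_right w (by linarith : 0 < 2 * y)
      linarith
    have b : y ^ 2 / (32 * τ) ≤ (A * L + P) / (τ * L) := by
      rw [div_le_div_iff₀ (by positivity) (by positivity)]
      nlinarith
    linarith

end WbdAux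

theorem wbdOK : EtaStmt → WbdStmt := by
  rintro ⟨h0, -, C, hC, h1⟩ K hK
  refine ⟨3 + K * C, by positivity, fun L y ζ hζ hy hL => ?_⟩
  have hτ : 0 < Real.log ζ := Real.log_pos (by linarith)
  have hE0 : 0 ≤ K * y ^ 2 * eta ζ := by
    have := h0 ζ
    positivity
  have hE1 : K * y ^ 2 * eta ζ ≤ K * C * y ^ 2 / Real.log ζ := by
    have := mul_le_mul_of_nonneg_left (h1 ζ hζ).1 (by positivity : 0 ≤ K * y ^ 2)
    calc K * y ^ 2 * eta ζ ≤ K * y ^ 2 * (C / Real.log ζ) := this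
      _ = _ := by ring
  unfold Wf Wc psi
  set τ := Real.log ζ
  have hy2 : 0 < y ^ 2 := by positivity
  have hyτ : 0 < y * τ := by positivity
  have hτ2 : 0 < τ ^ 2 := by positivity
  have hP : τ ≤ y → -y ^ 3 + 3 * y ^ 2 * τ - 2 * y * τ ^ 2 + τ ^ 3 ≤ 4 * y ^ 3 := by
    intro h
    have a : y ^ 2 * τ ≤ y ^ 2 * y := mul_le_mul_of_nonneg_left h hy2.le
    have b : τ ^ 3 ≤ y ^ 3 := pow_le_pow_left₀ hτ.le h 3
    have c : 0 < y * τ ^ 2 := by positivity
    have d : 0 < y ^ 3 := by positivity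
    nlinarith
  refine ⟨fun h => ?_, fun h => ?_⟩
  · refine WbdAux.gen hτ hy hL (sq_nonneg _) (by nlinarith) (hP h) ?_ ?_ hE0 hE1
    · nlinarith [mul_nonneg hτ.le (sq_nonneg (τ - y / 2)), mul_nonneg hy.le (sq_nonneg (τ - y / 2)),
        mul_nonneg hy.le (sq_nonneg (τ - y)), mul_pos hy hy2, mul_nonneg hy2.le (sub_nonneg.2 h)]
    · nlinarith [mul_nonneg hτ.le (sq_nonneg (τ - y)), mul_nonneg hy.le (sq_nonneg (τ - 3 * y / 4)),
        mul_pos hy hy2, mul_nonneg hy2.le (sub_nonneg.2 h)]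
  · have h' : 0 ≤ y - 2 * τ := by linarith
    refine WbdAux.gen hτ hy hL (by nlinarith) (by nlinarith) (hP (by linarith)) ?_ ?_ hE0 hE1
    · nlinarith [mul_nonneg hy2.le h', mul_nonneg hyτ.le h', mul_nonneg hτ2.le h', mul_pos hy hy2]
    · nlinarith [mul_nonneg hy2.le h', mul_nonneg hyτ.le h', mul_nonneg hτ2.le h', mul_pos hy hy2]

end Crest.Agent.R1s
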