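import Crest.Agent.R1s.Red
import Crest.Agent.R1s.PS1
import Crest.Agent.R1s.Pi
import Crest.Agent.R1s.Eta
import Crest.Agent.R1s.PS3
import Crest.Agent.R1s.Odd
import Crest.Agent.R1s.Rec
import Crest.Agent.R1s.Base
import Crest.Agent.R1s.Ker
import Crest.Agent.R1s.Wbd
import Crest.Agent.R1s.SB
import Crest.Agent.R1s.Err
import Crest.Agent.R1s.Disc
import Crest.Agent.R1s.EO1
import Crest.Agent.R1s.EO2
import Crest.Agent.R1s.GM
import Crest.Agent.R1s.E1
import Crest.Agent.R1s.Gain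
import Crest.Agent.R1s.Rem
import Crest.Agent.R1s.HybPt
import Crest.Agent.R1s.Hyb
import Crest.Agent.R1s.Small
import Crest.Agent.R1s.ESym
import Crest.Agent.R1s.Des
import Crest.Agent.R1s.Rank
import Crest.Agent.R1s.Bad
import Crest.Agent.R1s.Split
import Crest.Agent.R1s.Tup
import Crest.Agent.R1s.Big
import Crest.Agent.R1s.Four
import Crest.Agent.R1s.Lip
import Crest.Agent.R1s.Mom
import Crest.Agent.R1s.Triv
import Crest.Agent.R1s.Atyp
import Crest.Agent.R1s.Lat
import Crest.Agent.R1s.Sum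
import Crest.Agent.R1s.Typ
import Crest.Agent.R1s.ParA
import Crest.Agent.R1s.ParG
import Crest.Agent.R1s.ParB
import Crest.Agent.R1s.CoreP
import Crest.Agent.R1s.Block
import Crest.Agent.R1s.IT1
import Crest.Agent.R1s.IT2
import Crest.Agent.R1s.IT
import Crest.Agent.R1s.Line
import Crest.Agent.R1s.Fam
import Crest.Agent.R1s.Col
import Crest.Agent.R1s.NoLine
import Crest.Agent.R1s.CaseB
import Crest.Agent.R1s.BH
import Crest.Agent.R1s.AP
import Crest.Agent.R1s.V1
import Crest.Agent.R1s.LowA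
import Crest.Agent.R1s.CRT
import Crest.Agent.R1s.UpA
import Crest.Agent.R1s.PrimeA
import Crest.Agent.R1s.CaseA
import Crest.Agent.R26.PrimeAP
import Crest.Agent.R26.Psi
import Crest.Agent.R8.Selberg
import Crest.Agent.R8.LogL
import Crest.Agent.R8.Growth
import Crest.Agent.R8.Riesz
import Crest.Agent.R8.Contour

/-! Row 1: assembly. -/

set_option autoImplicit false

namespace Crest.Agent.R1s

open Finset Filter

theorem thetaAll (h : R8.ZFStmt) : ThetaStmt := R26.PrimeAP.theta_ap (R26.psi h)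

theorem lamAll (h : R8.ZFStmt) : R8.LamStmt :=
  R8.lamSum R8.riesz R8.contour R8.sharp (R8.logL h R8.growth)

theorem gmAll (h : R8.ZFStmt) : GMStmt :=
  have sb : SBStmt := sbOK recOK baseOK (kerOK (ps3 (ps1 (thetaAll h)) etaOK) etaOK) (wbdOK etaOK)
  gmOK (eo1 (oddOK (lamAll h)) (errOK sb)) eo2 (discOK sb (pi_asymp (thetaAll h)))
    (pi_asymp (thetaAll h))

theorem itAll : ITStmt :=
  itOK (it1 fourOK) (it2 blockOK
    (coreP (typeOK lipOK momOK) (atypOK trivOK) (sumOK latOK) parA parG parB))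

theorem caseBAll (h : R8.ZFStmt) : CaseBStmt :=
  caseB (hybOK hybPt) (smallOK remOK) (e1OK (gmAll h)) (gainOK (gmAll h)) (desOK esym)
    (bigOK remOK (badOK rankOK) splitOK tupOK itAll) (colOK famOK) (noLine lineOK)

theorem caseAAll (h : R8.ZFStmt) : CaseAStmt :=
  caseA (primeA (lowA bhOK (apOK (thetaAll h)) v1OK) (upA R8.selberg crtOK v1OK) v1OK)

theorem defic_mono {η c₀ c₁ : ℝ} {m : ℕ} {N : ℤ} (h : Defic η c₀ m N) (hc : c₁ ≤ c₀) :
    Defic η c₁ m N := fun q a h1 h2 h3 h4 => hc.trans_lt (h q a h1 h2 h3 h4)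

theorem coreAll (h : R8.ZFStmt) : CoreStmt := by
  obtain ⟨η₀, h0, hA⟩ := caseAAll h
  obtain ⟨c₀, hc, hA⟩ := hA (min η₀ (1 / 20)) (lt_min h0 (by norm_num)) (min_le_left _ _)
  have hB := caseBAll h (min η₀ (1 / 20)) (min c₀ 1) (lt_min h0 (by norm_num)) (min_le_right _ _)
    (lt_min hc one_pos) (min_le_right _ _)
  filter_upwards [hA, hB] with m hA hB N
  by_cases hd : Defic (min η₀ (1 / 20)) c₀ m N
  · exact hB N (defic_mono hd (min_le_left _ _))
  · exact hA N hd

theorem jacAll (h : R8.ZFStmt) : JacStmt := red (coreAll h)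

end Crest.Agent.R1s
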