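import Crest.Agent.R1s.Defs

/-! Row 1: elementary facts on products of primes, prefixes and Rosser sets. -/

set_option autoImplicit false

namespace Crest.Agent.R1s

open Finset Filter
open Crest.Agent.R5 (pr pd ee)

theorem mem_pr {A B : ℝ} {p : ℕ} : p ∈ pr A B ↔ p.Prime ∧ A < (p : ℝ) ∧ (p : ℝ) ≤ B := by
  unfold pr
  rw [mem_filter, mem_Icc]
  constructor
  · rintro ⟨⟨a, b⟩, c, d⟩
    exact ⟨c, d, (Nat.le_floor_iff' (by omega)).1 b⟩
  · rintro ⟨c, d, e⟩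
    exact ⟨⟨c.pos, Nat.le_floor e⟩, c, d⟩

theorem pd_empty : pd ∅ = 1 := by
  simp [pd]

theorem pd_singleton (p : ℕ) : pd {p} = p := by
  simp [pd]

theorem pd_insert {p : ℕ} {t : Finset ℕ} (h : p ∉ t) : pd (insert p t) = p * pd t :=
  prod_insert h

theorem pd_union {s t : Finset ℕ} (h : Disjoint s t) : pd (s ∪ t) = pd s * pd t :=
  prod_union h

theorem pd_pos {t : Finset ℕ} (h : ∀ p ∈ t, p.Prime) : 0 < pd t :=
  prod_pos fun p hp => (h p hp).pos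

theorem dvd_pd {t : Finset ℕ} {p : ℕ} (h : p ∈ t) : p ∣ pd t :=
  dvd_prod_of_mem (fun q => q) h

theorem le_pd {t : Finset ℕ} (ht : ∀ p ∈ t, p.Prime) {p : ℕ} (h : p ∈ t) : p ≤ pd t :=
  Nat.le_of_dvd (pd_pos ht) (dvd_pd h)

theorem pd_dvd_pd {s t : Finset ℕ} (h : s ⊆ t) : pd s ∣ pd t :=
  prod_dvd_prod_of_subset s t (fun q => q) h

theorem pd_mono {s t : Finset ℕ} (ht : ∀ p ∈ t, p.Prime) (h : s ⊆ t) : pd s ≤ pd t :=
  Nat.le_of_dvd (pd_pos ht) (pd_dvd_pd h)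

theorem primeFactors_pd {t : Finset ℕ} (h : ∀ p ∈ t, p.Prime) : (pd t).primeFactors = t :=
  Nat.primeFactors_prod h

theorem pd_inj {s t : Finset ℕ} (hs : ∀ p ∈ s, p.Prime) (ht : ∀ p ∈ t, p.Prime)
    (h : pd s = pd t) : s = t := by
  rw [← primeFactors_pd hs, h, primeFactors_pd ht]

theorem prime_dvd_pd {t : Finset ℕ} (ht : ∀ p ∈ t, p.Prime) {p : ℕ} (hp : p.Prime) :
    p ∣ pd t ↔ p ∈ t := by
  refine ⟨fun h => ?_, dvd_pd⟩
  rw [← primeFactors_pd ht]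
  exact Nat.mem_primeFactors.2 ⟨hp, h, (pd_pos ht).ne'⟩

theorem pd_dvd_iff {t : Finset ℕ} (ht : ∀ p ∈ t, p.Prime) {n : ℕ} :
    pd t ∣ n ↔ ∀ p ∈ t, p ∣ n := by
  refine ⟨fun h p hp => (dvd_pd hp).trans h, fun h => ?_⟩
  refine Finset.prod_primes_dvd n (fun p hp => (ht p hp).prime) h

theorem pd_dvd_iff_int {t : Finset ℕ} (ht : ∀ p ∈ t, p.Prime) {n : ℤ} :
    (pd t : ℤ) ∣ n ↔ ∀ p ∈ t, (p : ℤ) ∣ n := by
  simp only [Int.natCast_dvd]
  exact pd_dvd_iff ht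

theorem cardFactors_pd {t : Finset ℕ} (ht : ∀ p ∈ t, p.Prime) :
    ArithmeticFunction.cardFactors (pd t) = t.card := by
  induction t using Finset.induction_on with
  | empty => simp [pd]
  | insert a s ha ih =>
    have hs : ∀ p ∈ s, p.Prime := fun p hp => ht p (mem_insert_of_mem hp)
    have h1 := ht a (mem_insert_self _ _)
    rw [pd_insert ha, ArithmeticFunction.cardFactors_mul h1.ne_zero (pd_pos hs).ne', ih hs,
      card_insert_of_notMem ha, ArithmeticFunction.cardFactors_apply_prime h1, add_comm]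

theorem inv_pd (t : Finset ℕ) : 1 / (pd t : ℝ) = ∏ p ∈ t, 1 / (p : ℝ) := by
  unfold pd
  rw [prod_div_distrib, prod_const_one, Nat.cast_prod]

theorem abs_sg (t : Finset ℕ) : |sg t| = 1 := by
  unfold sg; rw [abs_pow]; simp

theorem sg_insert {p : ℕ} {t : Finset ℕ} (h : p ∉ t) : sg (insert p t) = -sg t := by
  unfold sg; rw [card_insert_of_notMem h, pow_succ]; ring

theorem sg_union {s t : Finset ℕ} (h : Disjoint s t) : sg (s ∪ t) = sg s * sg t := by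
  unfold sg; rw [card_union_of_disjoint h, pow_add]

theorem sg_of_even {t : Finset ℕ} (h : t.card % 2 = 0) : sg t = 1 :=
  (Nat.even_iff.2 h).neg_one_pow

theorem sg_of_odd {t : Finset ℕ} (h : t.card % 2 = 1) : sg t = -1 :=
  (Nat.odd_iff.2 h).neg_one_pow

theorem mem_up {t : Finset ℕ} {q p : ℕ} : p ∈ up t q ↔ p ∈ t ∧ q ≤ p :=
  mem_filter

theorem up_subset (t : Finset ℕ) (q : ℕ) : up t q ⊆ t :=
  filter_subset _ _

theorem up_of_min {t : Finset ℕ} {q : ℕ} (h : ∀ p ∈ t, q ≤ p) : up t q = t :=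
  filter_true_of_mem h

theorem up_up (t : Finset ℕ) {q q' : ℕ} (h : q ≤ q') : up (up t q) q' = up t q' := by
  ext p
  simp only [mem_up]
  constructor
  · rintro ⟨⟨a, -⟩, c⟩; exact ⟨a, c⟩
  · rintro ⟨a, c⟩; exact ⟨⟨a, h.trans c⟩, c⟩

theorem up_insert_of_lt {t : Finset ℕ} {p q : ℕ} (h : p < q) : up (insert p t) q = up t q := by
  ext x
  simp only [mem_up, mem_insert]
  constructor
  · rintro ⟨rfl | a, c⟩
    · omega
    · exact ⟨a, c⟩
  · rintro ⟨a, c⟩; exact ⟨Or.inr a, c⟩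

theorem up_union_left {d e : Finset ℕ} (h : ∀ p ∈ e, ∀ q ∈ d, p < q) {q : ℕ} (hq : q ∈ d) :
    up (d ∪ e) q = up d q := by
  ext x
  simp only [mem_up, mem_union]
  constructor
  · rintro ⟨a | a, c⟩
    · exact ⟨a, c⟩
    · have := h x a q hq; omega
  · rintro ⟨a, c⟩; exact ⟨Or.inl a, c⟩

theorem up_union_right {d e : Finset ℕ} (h : ∀ p ∈ e, ∀ q ∈ d, p < q) {p : ℕ} (hp : p ∈ e) :
    up (d ∪ e) p = d ∪ up e p := by
  ext x
  simp only [mem_up, mem_union]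
  constructor
  · rintro ⟨a | a, c⟩
    · exact Or.inl a
    · exact Or.inr ⟨a, c⟩
  · rintro (a | ⟨a, c⟩)
    · exact ⟨Or.inl a, (h p hp x a).le⟩
    · exact ⟨Or.inr a, c⟩

theorem disjoint_of_lt {d e : Finset ℕ} (h : ∀ p ∈ e, ∀ q ∈ d, p < q) : Disjoint d e :=
  disjoint_left.2 fun x hd he => lt_irrefl _ (h x he x hd)

/-- a set is determined by its top `j` elements and the rest -/
theorem union_inj {d e d' e' : Finset ℕ} (h : ∀ p ∈ e, ∀ q ∈ d, p < q)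
    (h' : ∀ p ∈ e', ∀ q ∈ d', p < q) (hc : d.card = d'.card) (hu : d ∪ e = d' ∪ e') :
    d = d' ∧ e = e' := by
  have hd : d = d' := by
    by_contra hne
    have h1 : ¬ d ⊆ d' := fun hs => hne (eq_of_subset_of_card_le hs hc.ge)
    have h2 : ¬ d' ⊆ d := fun hs => hne (eq_of_subset_of_card_le hs hc.le).symm
    obtain ⟨q, hq, hq'⟩ := not_subset.1 h1
    obtain ⟨p, hp, hp'⟩ := not_subset.1 h2
    have a : q ∈ e' := by
      have : q ∈ d' ∪ e' := hu ▸ mem_union_left _ hq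
      exact (mem_union.1 this).resolve_left hq'
    have b : p ∈ e := by
      have : p ∈ d ∪ e := hu.symm ▸ mem_union_left _ hp
      exact (mem_union.1 this).resolve_left hp'
    have := h p b q hq
    have := h' q a p hp
    omega
  subst hd
  refine ⟨rfl, ?_⟩
  have a := union_sdiff_cancel_left (disjoint_of_lt h)
  have b := union_sdiff_cancel_left (disjoint_of_lt h')
  rw [← a, hu, b]

theorem ros_empty (ε ξ : ℕ) : ros ε ξ ∅ := by
  intro q hq; simp at hq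

theorem ros_up {ε ξ : ℕ} {t : Finset ℕ} (h : ros ε ξ t) (q : ℕ) : ros ε ξ (up t q) := by
  intro p hp
  obtain ⟨hp1, hp2⟩ := mem_up.1 hp
  rw [up_up t hp2]
  exact h p hp1

theorem ros_mono {ε ξ ξ' : ℕ} {t : Finset ℕ} (h : ros ε ξ t) (hξ : ξ ≤ ξ') : ros ε ξ' t :=
  fun q hq hc => (h q hq hc).trans hξ

/-- adding a new least element -/
theorem ros_insert {ε ξ p : ℕ} {t : Finset ℕ} (h : ∀ q ∈ t, p < q) :
    ros ε ξ (insert p t) ↔
      ros ε ξ t ∧ ((t.card + 1) % 2 = ε → pd (insert p t) * p ^ 2 ≤ ξ) := by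
  have hp : p ∉ t := fun hp => lt_irrefl _ (h p hp)
  have e : up (insert p t) p = insert p t := up_of_min fun q hq => by
    rcases mem_insert.1 hq with rfl | hq
    · exact le_rfl
    · exact (h q hq).le
  constructor
  · intro H
    refine ⟨fun q hq => ?_, ?_⟩
    · have := H q (mem_insert_of_mem hq)
      rwa [up_insert_of_lt (h q hq)] at this
    · have := H p (mem_insert_self _ _)
      rwa [e, card_insert_of_notMem hp] at this
  · rintro ⟨H1, H2⟩ q hq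
    rcases mem_insert.1 hq with rfl | hq
    · rw [e, card_insert_of_notMem hp]; exact H2
    · rw [up_insert_of_lt (h q hq)]; exact H1 q hq

/-- the subtree below `d` -/
theorem ros_union {ε ξ : ℕ} (hε : ε ≤ 1) {d e : Finset ℕ} (hd : 0 < pd d)
    (h : ∀ p ∈ e, ∀ q ∈ d, p < q) :
    ros ε ξ (d ∪ e) ↔ ros ε ξ d ∧ ros ((ε + d.card) % 2) (ξ / pd d) e := by
  have key : ∀ p ∈ e, ((up (d ∪ e) p).card % 2 = ε → pd (up (d ∪ e) p) * p ^ 2 ≤ ξ) ↔
      ((up e p).card % 2 = (ε + d.card) % 2 → pd (up e p) * p ^ 2 ≤ ξ / pd d) := by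
    intro p hp
    have hdis : Disjoint d (up e p) :=
      (disjoint_of_lt h).mono_right (up_subset e p)
    rw [up_union_right h hp, card_union_of_disjoint hdis, pd_union hdis,
      Nat.le_div_iff_mul_le hd]
    have e1 : pd d * pd (up e p) * p ^ 2 = pd (up e p) * p ^ 2 * pd d := by ring
    have e2 : (d.card + (up e p).card) % 2 = ε ↔ (up e p).card % 2 = (ε + d.card) % 2 := by omega
    rw [e1, e2]
  constructor
  · intro H
    refine ⟨fun q hq => ?_, fun p hp => (key p hp).1 (H p (mem_union_right _ hp))⟩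
    have := H q (mem_union_left _ hq)
    rwa [up_union_left h hq] at this
  · rintro ⟨H1, H2⟩ q hq
    rcases mem_union.1 hq with hq | hq
    · rw [up_union_left h hq]; exact H1 q hq
    · exact (key q hq).2 (H2 q hq)

/-- every prefix except possibly the first has room for its last prime -/
theorem ros_room {ε ξ : ℕ} (hε : ε ≤ 1) {t : Finset ℕ} (ht : ∀ p ∈ t, p.Prime) (h : ros ε ξ t)
    {q : ℕ} (hq : q ∈ t) (hc : (up t q).card % 2 = ε ∨ 2 ≤ (up t q).card) :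
    pd (up t q) * q ≤ ξ := by
  by_cases h1 : (up t q).card % 2 = ε
  · refine le_trans ?_ (h q hq h1)
    exact Nat.mul_le_mul_left _ (by nlinarith [(ht q hq).one_le])
  have h2 : 2 ≤ (up t q).card := hc.resolve_left h1
  have hqu : q ∈ up t q := mem_up.2 ⟨hq, le_rfl⟩
  have hne : ((up t q).erase q).Nonempty := by
    rw [← card_pos, card_erase_of_mem hqu]; omega
  set q' := ((up t q).erase q).min' hne with hq'
  have hm : q' ∈ (up t q).erase q := min'_mem _ _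
  obtain ⟨hm1, hm2⟩ := mem_erase.1 hm
  obtain ⟨hm3, hm4⟩ := mem_up.1 hm2
  have hlt : q < q' := lt_of_le_of_ne hm4 (Ne.symm hm1)
  have e : up t q' = (up t q).erase q := by
    ext p
    simp only [mem_erase, mem_up]
    constructor
    · rintro ⟨a, b⟩; exact ⟨by omega, a, by omega⟩
    · rintro ⟨a, b, c⟩
      exact ⟨b, min'_le _ p (mem_erase.2 ⟨a, mem_up.2 ⟨b, c⟩⟩)⟩
  have h3 := h q' hm3 (by rw [e, card_erase_of_mem hqu]; omega)
  have e2 : pd (up t q) = q * pd (up t q') := by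
    rw [e, ← pd_insert (notMem_erase q _), insert_erase hqu]
  rw [e2]
  refine le_trans ?_ h3
  have : q * q ≤ q' ^ 2 := by nlinarith
  calc q * pd (up t q') * q = pd (up t q') * (q * q) := by ring
    _ ≤ _ := Nat.mul_le_mul_left _ this

theorem mem_RR {ε ξ : ℕ} {z : ℝ} {t : Finset ℕ} :
    t ∈ RR ε ξ z ↔ (∀ p ∈ t, p.Prime ∧ 2 < p ∧ (p : ℝ) ≤ z) ∧ ros ε ξ t := by
  unfold RR
  rw [mem_filter, mem_powerset]
  refine and_congr_left fun _ => ⟨fun H p hp => ?_, fun H p hp => ?_⟩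
  · obtain ⟨a, b, c⟩ := mem_pr.1 (H hp)
    exact ⟨a, by exact_mod_cast b, c⟩
  · obtain ⟨a, b, c⟩ := H p hp
    exact mem_pr.2 ⟨a, by exact_mod_cast b, c⟩

theorem cube_le_of_ros {ξ : ℕ} {e : Finset ℕ} (h : ros 1 ξ e) {q : ℕ} (hq : q ∈ e) :
    q ^ 3 ≤ ξ := by
  have hne : e.Nonempty := ⟨q, hq⟩
  have hm : e.max' hne ∈ e := max'_mem _ _
  have e1 : up e (e.max' hne) = {e.max' hne} := by
    ext p
    simp only [mem_up, mem_singleton]
    constructor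
    · rintro ⟨a, b⟩; exact le_antisymm (le_max' _ _ a) b
    · rintro rfl; exact ⟨hm, le_rfl⟩
  have := h _ hm (by rw [e1]; simp)
  rw [e1, pd_singleton] at this
  calc q ^ 3 ≤ (e.max' hne) ^ 3 := Nat.pow_le_pow_left (le_max' _ _ hq) 3
    _ = e.max' hne * e.max' hne ^ 2 := by ring
    _ ≤ ξ := this

theorem mem_Rp {ξ : ℕ} {e : Finset ℕ} :
    e ∈ Rp ξ ↔ (∀ p ∈ e, p.Prime ∧ 2 < p) ∧ ros 1 ξ e := by
  unfold Rp
  rw [mem_RR]
  refine ⟨fun ⟨H, h⟩ => ⟨fun p hp => ⟨(H p hp).1, (H p hp).2.1⟩, h⟩,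
    fun ⟨H, h⟩ => ⟨fun p hp => ⟨(H p hp).1, (H p hp).2, ?_⟩, h⟩⟩
  apply Real.le_sqrt_of_sq_le
  have h1 := cube_le_of_ros h hp
  have h2 : p ^ 2 ≤ p ^ 3 := Nat.pow_le_pow_right (H p hp).1.pos (by norm_num)
  exact_mod_cast h2.trans h1

theorem pd_le_of_RR {ε ξ : ℕ} {z : ℝ} (hε : ε ≤ 1) (hξ : 1 ≤ ξ) (hz : z ≤ ξ) {t : Finset ℕ}
    (h : t ∈ RR ε ξ z) : pd t ≤ ξ := by
  obtain ⟨H, hr⟩ := mem_RR.1 h
  rcases t.eq_empty_or_nonempty with rfl | hne
  · rw [pd_empty]; exact hξ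
  have hm : t.min' hne ∈ t := min'_mem _ _
  have e : up t (t.min' hne) = t := up_of_min fun p hp => min'_le _ _ hp
  by_cases h2 : 2 ≤ t.card
  · have := ros_room hε (fun p hp => (H p hp).1) hr hm (Or.inr (by rwa [e]))
    rw [e] at this
    exact le_trans (Nat.le_mul_of_pos_right _ (H _ hm).1.pos) this
  · have h1 : t.card = 1 := by have := card_pos.2 hne; omega
    obtain ⟨p, rfl⟩ := card_eq_one.1 h1
    rw [pd_singleton]
    have := (H p (mem_singleton_self p)).2.2.trans hz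
    exact_mod_cast this

theorem pd_le_of_RR_sqrt {ε ξ : ℕ} (hε : ε ≤ 1) (hξ : 1 ≤ ξ) {t : Finset ℕ}
    (h : t ∈ RR ε ξ (√(ξ : ℝ))) : pd t ≤ ξ := by
  refine pd_le_of_RR hε hξ ?_ h
  have h1 : (1 : ℝ) ≤ ξ := by exact_mod_cast hξ
  rw [Real.sqrt_le_left (by linarith)]
  nlinarith

theorem room_of_Rp {ξ : ℕ} {e : Finset ℕ} (h : e ∈ Rp ξ) {q : ℕ} (hq : q ∈ e) :
    pd (up e q) * q ≤ ξ := by
  obtain ⟨H, hr⟩ := mem_Rp.1 h
  refine ros_room le_rfl (fun p hp => (H p hp).1) hr hq ?_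
  have : 0 < (up e q).card := card_pos.2 ⟨q, mem_up.2 ⟨hq, le_rfl⟩⟩
  omega

/-- **The tree identity**: pair `t` with `insert q t`, `q` the least element of `T`. -/
theorem tree (P : Finset ℕ → Prop) [DecidablePred P] {T : Finset ℕ} {q : ℕ} (hq : q ∈ T)
    (hmin : ∀ p ∈ T, q ≤ p) (hP : ∀ t ⊆ T.erase q, P (insert q t) → P t) :
    ∑ t ∈ T.powerset.filter P, sg t =
      ∑ t ∈ (T.erase q).powerset.filter (fun t => P t ∧ ¬ P (insert q t)), sg t := by
  have _ := hmin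
  rw [sum_filter, sum_filter]
  conv_lhs => rw [← insert_erase hq]
  rw [sum_powerset_insert (notMem_erase q T), ← sum_add_distrib]
  refine sum_congr rfl fun t ht => ?_
  have hs := mem_powerset.1 ht
  have hqt : q ∉ t := fun h => notMem_erase q T (hs h)
  by_cases h1 : P (insert q t)
  · simp [h1, hP t hs h1, sg_insert hqt]
  · by_cases h2 : P t <;> simp [h1, h2]

namespace DesOK

variable {j D₀ D : ℕ} {z y : ℝ} {𝒟 : Finset (Finset ℕ)}

theorem prime (h : DesOK j D₀ D z y 𝒟) {d : Finset ℕ} (hd : d ∈ 𝒟) : ∀ q ∈ d, q.Prime :=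
  fun q hq => ((mem_RR.1 (h.mem d hd)).1 q hq).1

theorem lt (h : DesOK j D₀ D z y 𝒟) {d : Finset ℕ} (hd : d ∈ 𝒟) {D' : ℕ} (hD : D' ≤ D)
    {e : Finset ℕ} (he : e ∈ Rp (D' / pd d)) : ∀ p ∈ e, ∀ q ∈ d, p < q := by
  intro p hp q hq
  have h1 := cube_le_of_ros (mem_Rp.1 he).2 hp
  rw [Nat.le_div_iff_mul_le (pd_pos (h.prime hd))] at h1
  have h2 := h.cube d hd q hq
  have h3 : pd d * p ^ 3 < pd d * q ^ 3 := by rw [mul_comm (pd d) (p ^ 3)]; omega
  exact lt_of_pow_lt_pow_left₀ 3 (Nat.zero_le _) (Nat.lt_of_mul_lt_mul_left h3)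

theorem nonempty (h : DesOK j D₀ D z y 𝒟) {d : Finset ℕ} (hd : d ∈ 𝒟) : d.Nonempty := by
  have h1 := h.card d hd
  have h2 := h.odd
  rw [← card_pos]; omega

theorem one_le_div (h : DesOK j D₀ D z y 𝒟) {d : Finset ℕ} (hd : d ∈ 𝒟) : 1 ≤ D₀ / pd d := by
  obtain ⟨q, hq, h1⟩ := h.room d hd
  rw [Nat.le_div_iff_mul_le (pd_pos (h.prime hd)), one_mul]
  exact le_trans (Nat.le_mul_of_pos_right _ (h.prime hd q hq).pos) h1

theorem mul_le (h : DesOK j D₀ D z y 𝒟) {d : Finset ℕ} (hd : d ∈ 𝒟) {D' : ℕ} (hD : D₀ ≤ D')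
    {e : Finset ℕ} (he : e ∈ Rp (D' / pd d)) : pd d * pd e ≤ D' := by
  have h1 : 1 ≤ D' / pd d := (h.one_le_div hd).trans (Nat.div_le_div_right hD)
  have h2 := pd_le_of_RR_sqrt le_rfl h1 he
  rw [Nat.le_div_iff_mul_le (pd_pos (h.prime hd))] at h2
  rwa [mul_comm]

theorem mono (h : DesOK j D₀ D z y 𝒟) {y' : ℝ} (hy : y' ≤ y) : DesOK j D₀ D z y' 𝒟 :=
  ⟨h.odd, h.le, h.card, h.mem, h.cube, fun d hd q hq => hy.trans_lt (h.big d hd q hq), h.room⟩

end DesOK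

theorem sum_inv_le {S : Finset ℕ} {D : ℕ} (hD : 1 ≤ D) (h : ∀ g ∈ S, 1 ≤ g ∧ g ≤ D) :
    ∑ g ∈ S, 1 / (g : ℝ) ≤ 1 + Real.log D := by
  have _ := hD
  calc ∑ g ∈ S, 1 / (g : ℝ) ≤ ∑ g ∈ Icc 1 D, 1 / (g : ℝ) :=
        sum_le_sum_of_subset_of_nonneg (fun g hg => mem_Icc.2 (h g hg)) fun g _ _ => by positivity
    _ = (harmonic D : ℝ) := by
        rw [harmonic_eq_sum_Icc]; push_cast; simp
    _ ≤ 1 + Real.log D := harmonic_le_one_add_log D

/-- sets of primes with bounded product -/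
theorem card_pd_le {U : Finset (Finset ℕ)} {x : ℝ} (hx : 0 ≤ x)
    (h : ∀ t ∈ U, (∀ p ∈ t, p.Prime) ∧ (pd t : ℝ) ≤ x) : (U.card : ℝ) ≤ x := by
  have h1 : U.card ≤ (Icc 1 ⌊x⌋₊).card := by
    refine card_le_card_of_injOn pd (fun t ht => ?_) fun s hs t ht e => ?_
    · have := h t (mem_coe.1 ht)
      exact mem_coe.2 (mem_Icc.2 ⟨pd_pos this.1, Nat.le_floor this.2⟩)
    · exact pd_inj (h s (mem_coe.1 hs)).1 (h t (mem_coe.1 ht)).1 e
  rw [Nat.card_Icc, Nat.add_sub_cancel] at h1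
  exact le_trans (by exact_mod_cast h1) (Nat.floor_le hx)

theorem ig_nonneg (N : ℤ) {g : ℕ} (hg : 1 ≤ g) : 0 ≤ ig N g :=
  Int.emod_nonneg _ (by omega)

theorem ig_lt (N : ℤ) {g : ℕ} (hg : 1 ≤ g) : ig N g < g :=
  Int.emod_lt_of_pos _ (by omega)

theorem mul_Xg (N : ℤ) (g : ℕ) : (g : ℤ) * Xg N g = N + ig N g := by
  unfold Xg
  refine Int.mul_ediv_cancel' ?_
  unfold ig
  have := Int.emod_add_mul_ediv (-N) g
  exact ⟨-((-N) / g), by linarith⟩

theorem norm_ee (x : ℝ) : ‖ee x‖ = 1 := by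
  unfold ee; exact Complex.norm_exp_ofReal_mul_I _

theorem ee_add (x y : ℝ) : ee (x + y) = ee x * ee y := by
  unfold ee; rw [← Complex.exp_add]; congr 1; push_cast; ring

theorem ee_int (n : ℤ) : ee n = 1 := by
  unfold ee
  have := Complex.exp_int_mul_two_pi_mul_I n
  rw [← this]; congr 1; push_cast; ring

theorem norm_ee_sub (x y : ℝ) : ‖ee x - ee y‖ ≤ 2 * Real.pi * |x - y| := by
  have e : ee x - ee y = ee y * (ee (x - y) - 1) := by
    rw [mul_sub, ← ee_add, mul_one]; congr 2; ring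
  rw [e, norm_mul, norm_ee, one_mul]
  unfold ee
  have := Real.norm_exp_I_mul_ofReal_sub_one_le (x := 2 * Real.pi * (x - y))
  rw [mul_comm Complex.I] at this
  refine this.trans (le_of_eq ?_)
  rw [Real.norm_eq_abs, abs_mul, abs_of_pos (by positivity : 0 < 2 * Real.pi)]

end Crest.Agent.R1s
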