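import Crest.Agent.R8.Defs

/-! Row 1 (Jacobsthal's function): definitions and module statements.  DO NOT change a definition.

Notation: `L = log m`, `l = log L`.  We sieve `N + i`, `0 ≤ i < m`, by the odd primes `≤ zz m`.

* Part P: prime sums.
* Part S: Rosser sets, the support bound, the Liouville identity, main terms.
* Part H: the hybrid sieve (level `D0` everywhere, level `DD` below designated nodes).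
* Part D: decomposition of the large nodes.
* Part I: the inverse theorem (a large remainder forces many points on a line).
* Part C: colours; Part A: the structured case; assembly. -/

set_option autoImplicit false

namespace Crest.Agent.R1s

open Finset Filter
open Crest.Agent.R5 (pr pd ee)

/-! ## Parameters -/

/-- sieving limit -/
noncomputable def zz (m : ℕ) : ℝ := √(m : ℝ) * Real.log m ^ 7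
/-- the free level -/
noncomputable def D0 (m : ℕ) : ℕ := ⌊(m : ℝ) / Real.log m ^ 2⌋₊
/-- the extended level -/
noncomputable def DD (B m : ℕ) : ℕ := ⌊(m : ℝ) * Real.log m ^ B⌋₊
/-- bound for the smooth part of a node -/
noncomputable def VV (m : ℕ) : ℕ := ⌊Real.exp (√(Real.log m))⌋₊
/-- end points of the ranges of medium primes -/
noncomputable def ZZ (r m j : ℕ) : ℝ :=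
  Real.exp (Real.log m ^ (((j : ℝ) + 1) / (10 * ((r : ℝ) + 2))))

/-- the survivors -/
noncomputable def surv (N : ℤ) (m : ℕ) (z : ℝ) : Finset ℕ :=
  (range m).filter (fun i => ∀ p ∈ pr 2 z, ¬ (p : ℤ) ∣ N + i)

def CoreStmt : Prop :=
  ∀ᶠ m : ℕ in atTop, ∀ N : ℤ, (m : ℝ) / Real.log m ^ 5 ≤ (surv N m (zz m)).card

/-- the statement `S0001` -/
def JacStmt : Prop :=
  ∃ C : ℝ, 0 < C ∧ ∀ (k : ℕ), 1 ≤ k → ∀ (n : ℕ), 0 < n → n.primeFactors.card ≤ k →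
    ∀ (a : ℤ) (m : ℕ), C * (k : ℝ) ^ 2 / (Real.log (Real.log (3 * (k : ℝ)))) ^ 2 ≤ (m : ℝ) →
      ∃ x : ℤ, a ≤ x ∧ x < a + m ∧ Int.gcd x n = 1

/-! ## Part P: prime sums -/

def ThetaStmt : Prop :=
  ∃ δ C : ℝ, 0 < δ ∧ δ ≤ 1 / 4 ∧ 0 < C ∧ ∀ r a N : ℕ, 1 ≤ r → Nat.Coprime a r →
    |∑ n ∈ Ioc 0 N, (if n.Prime ∧ n ≡ a [MOD r] then Real.log n else 0) - N / (r.totient : ℝ)| ≤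
      C * (N : ℝ) ^ (1 - δ) * Real.log (2 * r)

def PS1Stmt : Prop :=
  ∃ δ C : ℝ, 0 < δ ∧ 0 < C ∧ ∀ ζ Y : ℝ, 2 ≤ ζ → ζ ≤ Y →
    |∑ p ∈ pr ζ Y, Real.log p / p - (Real.log Y - Real.log ζ)| ≤ C * ζ ^ (-δ)

def PiStmt : Prop :=
  ∃ C : ℝ, 0 < C ∧ ∀ x : ℝ, 2 ≤ x →
    |((pr 0 x).card : ℝ) - x / Real.log x| ≤ C * x / Real.log x ^ 2 ∧
      ((pr 0 x).card : ℝ) ≤ C * x / Real.log x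

/-- the telescoping weight -/
noncomputable def eta (ζ : ℝ) : ℝ := ∏ p ∈ pr 0 ζ, (1 + 8 / (p : ℝ))⁻¹

def EtaStmt : Prop :=
  (∀ ζ : ℝ, 0 < eta ζ) ∧ (∀ ζ Y : ℝ, 0 ≤ ζ → ∑ p ∈ pr ζ Y, eta p / p ≤ eta ζ / 8) ∧
    ∃ C : ℝ, 0 < C ∧ ∀ ζ : ℝ, 2 ≤ ζ → eta ζ ≤ C / Real.log ζ ∧ 1 / Real.log ζ ^ 8 ≤ C * eta ζ

def PS3Stmt : Prop :=
  ∃ C : ℝ, 0 < C ∧ ∀ ζ Y : ℝ, 2 ≤ ζ → ζ ≤ Y →
    ∑ p ∈ pr ζ Y, 1 / ((p : ℝ) * Real.log p) ≤ 1 / Real.log ζ - 1 / Real.log Y + C * eta ζ ∧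
    |∑ p ∈ pr ζ Y, Real.log p / p - (Real.log Y - Real.log ζ)| ≤ C * eta ζ ∧
    ∑ p ∈ pr ζ Y, Real.log p ^ 2 / p ≤
      (Real.log Y ^ 2 - Real.log ζ ^ 2) / 2 + C * Real.log Y * eta ζ

/-- odd numbers `≤ x` with a prescribed parity of `Ω` -/
def AA (σ x : ℕ) : Finset ℕ :=
  (Icc 1 x).filter (fun n => n % 2 = 1 ∧ ArithmeticFunction.cardFactors n % 2 = σ)

def OddStmt : Prop :=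
  ∃ δ C : ℝ, 0 < δ ∧ δ ≤ 1 ∧ 0 < C ∧ ∀ σ : ℕ, σ ≤ 1 → ∀ x : ℝ, 1 ≤ x →
    |((AA σ ⌊x⌋₊).card : ℝ) - x / 4| ≤ C * x ^ (1 - δ)

/-! ## Part S: Rosser sets -/

/-- the prefix of `t` ending at `q` -/
def up (t : Finset ℕ) (q : ℕ) : Finset ℕ := t.filter (fun p => q ≤ p)

/-- Rosser's condition at the prefixes whose length has parity `ε` -/
def ros (ε ξ : ℕ) (t : Finset ℕ) : Prop :=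
  ∀ q ∈ t, (up t q).card % 2 = ε → pd (up t q) * q ^ 2 ≤ ξ

instance (ε ξ : ℕ) : DecidablePred (ros ε ξ) := fun t => by unfold ros; infer_instance

/-- Rosser sets of odd primes `≤ z` -/
noncomputable def RR (ε ξ : ℕ) (z : ℝ) : Finset (Finset ℕ) := (pr 2 z).powerset.filter (ros ε ξ)

/-- the support of the upper sieve of level `ξ` -/
noncomputable def Rp (ξ : ℕ) : Finset (Finset ℕ) := RR 1 ξ (√(ξ : ℝ))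

/-- the sign -/
noncomputable def sg (t : Finset ℕ) : ℝ := (-1) ^ t.card

/-- main term of the upper sieve -/
noncomputable def GG (ξ : ℕ) : ℝ := ∑ e ∈ Rp ξ, sg e / pd e

/-- main term of the lower sieve -/
noncomputable def MM (ξ : ℕ) (z : ℝ) : ℝ := ∑ t ∈ RR 0 ξ z, sg t / pd t

/-- mass of the nodes of parity `σ` with at most `n` primes, all `> ζ`, in the window `(Y, 2Y]` -/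
noncomputable def ms (ε ξ σ n : ℕ) (Y ζ : ℝ) : ℝ :=
  ∑ d ∈ (RR ε ξ (√(ξ : ℝ))).filter (fun d : Finset ℕ => d.card ≤ n ∧ d.card % 2 = σ ∧
    (∀ q ∈ d, ζ < ((q : ℕ) : ℝ)) ∧ Y < (pd d : ℝ) ∧ (pd d : ℝ) ≤ 2 * Y), 1 / (pd d : ℝ)

/-- removing the least prime -/
def RecStmt : Prop :=
  ∀ (ε ξ n : ℕ) (Y ζ : ℝ), ε ≤ 1 → 1 ≤ Y → √(ξ : ℝ) ≤ Y →
    ms ε ξ (1 - ε) (n + 1) Y ζ ≤ ∑ p ∈ pr ζ (ξ / Y), ms ε ξ ε n (Y / p) p / p ∧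
    ms ε ξ ε (n + 1) Y ζ ≤ ∑ p ∈ pr ζ (√(ξ / Y)), ms ε ξ (1 - ε) n (Y / p) p / p

/-- rough squarefree numbers in a window -/
def BaseStmt : Prop :=
  ∃ C : ℝ, 0 < C ∧ ∀ (z Y ζ : ℝ), 1 ≤ Y → 2 ≤ ζ →
    ∑ d ∈ (pr 2 z).powerset.filter (fun d : Finset ℕ => (∀ q ∈ d, ζ < ((q : ℕ) : ℝ)) ∧
      Y < (pd d : ℝ) ∧ (pd d : ℝ) ≤ 2 * Y), 1 / (pd d : ℝ) ≤ C / Real.log ζ

noncomputable def psi (y τ : ℝ) : ℝ := (-y ^ 3 + 3 * y ^ 2 * τ - 2 * y * τ ^ 2 + τ ^ 3) / τ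

/-- supersolution, constrained nodes -/
noncomputable def Wc (L K y ζ : ℝ) : ℝ :=
  (y ^ 2 - 2 * y * Real.log ζ) / Real.log ζ + psi y (Real.log ζ) / L + K * y ^ 2 * eta ζ

/-- supersolution, free nodes -/
noncomputable def Wf (L K y ζ : ℝ) : ℝ :=
  (y - Real.log ζ) ^ 2 / Real.log ζ + psi y (Real.log ζ) / L + K * y ^ 2 * eta ζ

def KerStmt : Prop :=
  ∃ K : ℝ, 0 < K ∧ ∀ L y ζ : ℝ, 2 ≤ ζ → 0 < y → y ≤ L / 4 →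
    (Real.log ζ ≤ y →
      ∑ p ∈ pr ζ (Real.exp y), Wc L K (y + Real.log p) p / p ≤ Wf L K y ζ) ∧
    (2 * Real.log ζ ≤ y →
      ∑ p ∈ pr ζ (Real.exp (y / 2)), Wf L K (y + Real.log p) p / p ≤ Wc L K y ζ)

def WbdStmt : Prop :=
  ∀ K : ℝ, 0 < K → ∃ K₁ : ℝ, 0 < K₁ ∧ ∀ L y ζ : ℝ, 2 ≤ ζ → 0 < y → y ≤ L / 2 →
    (Real.log ζ ≤ y → 0 ≤ Wf L K y ζ ∧ Wf L K y ζ ≤ K₁ * y ^ 2 / Real.log ζ ∧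
      (L / 4 ≤ y → y ^ 2 / (32 * Real.log ζ) ≤ Wf L K y ζ)) ∧
    (2 * Real.log ζ ≤ y → 0 ≤ Wc L K y ζ ∧ Wc L K y ζ ≤ K₁ * y ^ 2 / Real.log ζ ∧
      (L / 4 ≤ y → y ^ 2 / (32 * Real.log ζ) ≤ Wc L K y ζ))

/-- the support bound -/
def SBStmt : Prop :=
  ∃ K : ℝ, 0 < K ∧ ∀ (ε ξ : ℕ) (Y ζ : ℝ), ε ≤ 1 → 1 ≤ Y → Y < ξ → 2 ≤ ζ →
    ∑ d ∈ (RR ε ξ (√(ξ : ℝ))).filter (fun d : Finset ℕ => (∀ q ∈ d, ζ < ((q : ℕ) : ℝ)) ∧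
      Y < (pd d : ℝ) ∧ (pd d : ℝ) ≤ 2 * Y), 1 / (pd d : ℝ) ≤
      K * Real.log (ξ / Y) ^ 2 / (Real.log ζ * Real.log ξ ^ 2)

def ErrStmt : Prop :=
  ∀ δ : ℝ, 0 < δ → δ ≤ 1 → ∃ C : ℝ, 0 < C ∧ ∀ ε ξ : ℕ, ε ≤ 1 → 2 ≤ ξ →
    ∑ d ∈ RR ε ξ (√(ξ : ℝ)), ((ξ : ℝ) / pd d) ^ (1 - δ) ≤ C * ξ / Real.log ξ ^ 2

/-- the sets that can be dropped by the sieve -/
noncomputable def disc (ε ξ : ℕ) : Finset (Finset ℕ) :=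
  (pr 2 (√(ξ : ℝ))).powerset.filter (fun b => 2 ≤ b.card ∧ b.card % 2 = ε ∧
    ∀ q ∈ b, (∀ p ∈ b, q ≤ p) → ros ε ξ (b.erase q))

def DiscStmt : Prop :=
  ∃ C : ℝ, 0 < C ∧ ∀ᶠ ξ : ℕ in atTop, ∀ ε : ℕ, ε ≤ 1 →
    ((disc ε ξ).card : ℝ) ≤ C * ξ * Real.log (Real.log ξ) / Real.log ξ ^ 2

/-- the sieve weight at `n` -/
noncomputable def lamR (ε ξ n : ℕ) : ℝ :=
  ∑ t ∈ (RR ε ξ (√(ξ : ℝ))).filter (fun t => pd t ∣ n), sg t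

def EO1Stmt : Prop :=
  ∃ C : ℝ, 0 < C ∧ ∀ ε ξ : ℕ, ε ≤ 1 → 2 ≤ ξ →
    |∑ n ∈ AA ε ξ, lamR ε ξ n - ξ / 4 * ∑ t ∈ RR ε ξ (√(ξ : ℝ)), sg t / pd t| ≤
      C * ξ / Real.log ξ ^ 2

def EO2Stmt : Prop :=
  ∀ ξ : ℕ, 2 ≤ ξ → -((disc 0 ξ).card : ℝ) ≤ ∑ n ∈ AA 0 ξ, lamR 0 ξ n ∧
    |∑ n ∈ AA 1 ξ, lamR 1 ξ n - (pr 0 ξ).card| ≤ (disc 1 ξ).card + √(ξ : ℝ) + 1

def GMStmt : Prop :=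
  ∃ C : ℝ, 0 < C ∧ ∀ᶠ ξ : ℕ in atTop,
    |GG ξ - 4 / Real.log ξ| ≤ C * Real.log (Real.log ξ) / Real.log ξ ^ 2 ∧
      -(C * Real.log (Real.log ξ) / Real.log ξ ^ 2) ≤ MM ξ (√(ξ : ℝ))

def E1Stmt : Prop :=
  ∃ C : ℝ, 0 < C ∧ ∀ᶠ m : ℕ in atTop,
    -(C * Real.log (Real.log m) / Real.log m ^ 2) ≤ MM (D0 m) (zz m)

def GainStmt : Prop :=
  ∀ c : ℝ, 0 < c → ∃ C : ℝ, 0 < C ∧ ∀ B : ℕ, ∀ᶠ m : ℕ in atTop, ∀ d : ℕ, 1 ≤ d →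
    (m : ℝ) ^ c ≤ (D0 m / d : ℕ) →
    (2 * B - C) * Real.log (Real.log m) / Real.log m ^ 2 ≤ GG (D0 m / d) - GG (DD B m / d)

/-! ## Part H: the hybrid sieve -/

/-- triangular count of the multiples of `d` -/
noncomputable def cnt (N : ℤ) (M d : ℕ) : ℝ :=
  (((range M ×ˢ range M).filter (fun x => (d : ℤ) ∣ N + x.1 + x.2)).card : ℝ) / M

/-- the remainder -/
noncomputable def rem (N : ℤ) (M d : ℕ) : ℝ := cnt N M d - M / d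

def RemStmt : Prop := ∀ (N : ℤ) (M d : ℕ), 1 ≤ M → 1 ≤ d → |rem N M d| ≤ (d : ℝ) / M

/-- designated nodes -/
structure DesOK (j D₀ D : ℕ) (z y : ℝ) (𝒟 : Finset (Finset ℕ)) : Prop where
  odd : j % 2 = 1
  le : D₀ ≤ D
  card : ∀ d ∈ 𝒟, d.card = j
  mem : ∀ d ∈ 𝒟, d ∈ RR 0 D₀ z
  cube : ∀ d ∈ 𝒟, ∀ q ∈ d, D < pd d * q ^ 3
  big : ∀ d ∈ 𝒟, ∀ q ∈ d, y < (q : ℝ)
  room : ∀ d ∈ 𝒟, ∃ q ∈ d, pd d * q ≤ D₀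

/-- the pointwise sieve inequality -/
def HybPtStmt : Prop :=
  ∀ (j D₀ D : ℕ) (z y : ℝ) (𝒟 : Finset (Finset ℕ)), DesOK j D₀ D z y 𝒟 → ∀ T ⊆ pr 2 z,
    ∑ t ∈ (RR 0 D₀ z).filter (fun t => t ⊆ T), sg t +
      ∑ d ∈ 𝒟.filter (fun d => d ⊆ T),
        (∑ e ∈ (Rp (D₀ / pd d)).filter (fun e => e ⊆ T), sg e -
          ∑ e ∈ (Rp (D / pd d)).filter (fun e => e ⊆ T), sg e) ≤ if T = ∅ then 1 else 0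

def HybStmt : Prop :=
  ∀ (j D₀ D : ℕ) (z y : ℝ) (𝒟 : Finset (Finset ℕ)), DesOK j D₀ D z y 𝒟 →
    ∀ (N : ℤ) (M m : ℕ), 1 ≤ M → 2 * M ≤ m →
    ∑ t ∈ RR 0 D₀ z, sg t * cnt N M (pd t) +
      ∑ d ∈ 𝒟, (∑ e ∈ Rp (D₀ / pd d), sg e * cnt N M (pd d * pd e) -
        ∑ e ∈ Rp (D / pd d), sg e * cnt N M (pd d * pd e)) ≤ (surv N m z).card

/-- the small nodes -/
def SmallStmt : Prop :=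
  ∀ (j D₀ D : ℕ) (z y : ℝ) (𝒟 : Finset (Finset ℕ)), DesOK j D₀ D z y 𝒟 → 1 ≤ D₀ → z ≤ D₀ →
    ∀ (N : ℤ) (M : ℕ), 1 ≤ M →
    ∑ t ∈ RR 0 D₀ z, |rem N M (pd t)| ≤ (D₀ : ℝ) ^ 2 / M ∧
    ∑ d ∈ 𝒟, ∑ e ∈ Rp (D₀ / pd d), |rem N M (pd d * pd e)| ≤ (D₀ : ℝ) ^ 2 / M ∧
    ∑ d ∈ 𝒟, ∑ e ∈ (Rp (D / pd d)).filter (fun e => ¬ D₀ < pd d * pd e),
      |rem N M (pd d * pd e)| ≤ (D₀ : ℝ) ^ 2 / M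

/-- elementary symmetric functions -/
def ESymStmt : Prop :=
  ∀ (W : Finset ℕ) (x : ℕ → ℝ) (β : ℝ) (n : ℕ), 0 ≤ β → (∀ q ∈ W, 0 ≤ x q ∧ x q ≤ β) →
    n * β ≤ ∑ q ∈ W, x q →
    (∑ q ∈ W, x q - n * β) ^ n / n.factorial ≤ ∑ b ∈ powersetCard n W, ∏ q ∈ b, x q

noncomputable def Hi (η : ℝ) (m : ℕ) : Finset ℕ := pr ((m : ℝ) ^ (2 * η)) (zz m)
noncomputable def Lo (η : ℝ) (m : ℕ) : Finset ℕ := pr ((m : ℝ) ^ η) ((m : ℝ) ^ (2 * η))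

def DesStmt : Prop :=
  ∀ η : ℝ, 0 < η → η ≤ 1 / 20 → ∃ (j : ℕ) (c : ℝ), 0 < c ∧ ∀ B : ℕ, ∀ᶠ m : ℕ in atTop,
    ∀ Q ⊆ Hi η m ×ˢ Lo η m, ∃ 𝒟 : Finset (Finset ℕ),
      DesOK j (D0 m) (DD B m) (zz m) ((m : ℝ) ^ c) 𝒟 ∧
      (∀ d ∈ 𝒟, (m : ℝ) ^ c ≤ (D0 m / pd d : ℕ) ∧ ∃ π ∈ Q, π.1 ∈ d ∧ π.2 ∈ d) ∧
      c * ∑ π ∈ Q, 1 / ((π.1 : ℝ) * π.2) ≤ ∑ d ∈ 𝒟, 1 / (pd d : ℝ)

/-! ## Part D: decomposition of the large nodes -/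

def RankStmt : Prop :=
  ∃ C : ℝ, 0 < C ∧ ∀ (D : ℕ) (Z V : ℝ), 1 ≤ D → 2 ≤ Z → 1 ≤ V →
    ∑ t ∈ (pr 0 D).powerset.filter (fun t => pd t ≤ D ∧
        V ≤ (pd (t.filter (fun q : ℕ => (q : ℝ) ≤ Z)) : ℝ)), 1 / (pd t : ℝ) ≤
      (1 + Real.log D) * Real.exp (-(Real.log V / Real.log Z)) * (C * Real.log Z) ^ 3

/-- a prime in every range -/
def hits (r m : ℕ) (e : Finset ℕ) : Prop :=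
  ∀ j ≤ r, ∃ q ∈ e, ZZ r m j < (q : ℝ) ∧ (q : ℝ) ≤ ZZ r m (j + 1)

/-- good tails -/
def goodE (r m : ℕ) (e : Finset ℕ) : Prop :=
  hits r m e ∧ pd (e.filter (fun q : ℕ => (q : ℝ) ≤ ZZ r m (r + 1))) ≤ VV m

open Classical in
def BadStmt : Prop :=
  ∀ B r A : ℕ, ∀ᶠ m : ℕ in atTop, ∀ (j : ℕ) (z : ℝ) (𝒟 : Finset (Finset ℕ)),
    DesOK j (D0 m) (DD B m) z (ZZ r m (r + 1)) 𝒟 →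
    ∑ d ∈ 𝒟, ∑ e ∈ (Rp (DD B m / pd d)).filter (fun e => D0 m < pd d * pd e ∧ ¬ goodE r m e),
      1 / ((pd d : ℝ) * pd e) ≤ 1 / Real.log m ^ A

/-- the data on which the tail below `g` depends -/
def tyy (D₀ D g : ℕ) : ℕ × ℕ × ℕ := (g.primeFactors.card % 2, D / g, D₀ / g)

open Classical in
def SplitStmt : Prop :=
  ∀ (B r m j : ℕ) (z : ℝ) (𝒟 : Finset (Finset ℕ)), 3 ≤ m →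
    DesOK j (D0 m) (DD B m) z (ZZ r m (r + 1)) 𝒟 →
    ∃ (𝒢 : Finset ℕ) (F : Finset (Finset ℕ)) (φ : ℕ × ℕ × ℕ → Finset ℕ → ℝ),
      (∀ g ∈ 𝒢, D0 m < g * VV m ∧ g ≤ DD B m ∧ ∃ d ∈ 𝒟, pd d ∣ g) ∧
      (∀ f ∈ F, (∀ q ∈ f, q.Prime) ∧ hits r m f ∧ pd f ≤ VV m) ∧
      (∀ τ f, |φ τ f| ≤ 1) ∧
      (∀ g ∈ 𝒢, ∀ f, φ (tyy (D0 m) (DD B m) g) f ≠ 0 → D0 m < g * pd f ∧ g * pd f ≤ DD B m) ∧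
      ∀ ψ : ℕ → ℝ,
        ∑ d ∈ 𝒟, ∑ e ∈ (Rp (DD B m / pd d)).filter (fun e => D0 m < pd d * pd e ∧ goodE r m e),
          sg e * ψ (pd d * pd e) =
        ∑ g ∈ 𝒢, ∑ f ∈ F, φ (tyy (D0 m) (DD B m) g) f * ψ (g * pd f)

/-- product of a tuple -/
def ps {r : ℕ} (s : Fin r → ℕ) : ℕ := ∏ j, s j

/-- tuples with one prime in each of the first `r` ranges -/
noncomputable def tup (r m : ℕ) : Finset (Fin r → ℕ) :=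
  Fintype.piFinset (fun j : Fin r => pr (ZZ r m j) (ZZ r m (j + 1)))

/-- the top range -/
noncomputable def top (r m : ℕ) : Finset ℕ := pr (ZZ r m r) (ZZ r m (r + 1))

def TupStmt : Prop :=
  ∀ (r m : ℕ) (F : Finset (Finset ℕ)) (φ : ℕ × ℕ × ℕ → Finset ℕ → ℝ), 3 ≤ m →
    (∀ f ∈ F, (∀ q ∈ f, q.Prime) ∧ hits r m f ∧ pd f ≤ VV m) → (∀ τ f, |φ τ f| ≤ 1) →
    ∃ c : ℕ × ℕ × ℕ → (Fin r → ℕ) → ℕ → ℕ → ℝ, (∀ τ s p u, |c τ s p u| ≤ 1) ∧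
      (∀ τ s p u, c τ s p u ≠ 0 → ¬ p ∣ u ∧ ∃ f ∈ F, φ τ f ≠ 0 ∧ pd f = ps s * p * u) ∧
      ∀ τ (ψ : ℕ → ℝ), ∑ f ∈ F, φ τ f * ψ (pd f) =
        ∑ s ∈ tup r m, ∑ p ∈ top r m, ∑ u ∈ Icc 1 (VV m), c τ s p u * ψ (ps s * p * u)

/-! ## Part I: the inverse theorem -/

/-- first index `i ≥ 0` with `g ∣ N + i` -/
def ig (N : ℤ) (g : ℕ) : ℤ := (-N) % g

/-- the cofactor at the first index -/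
def Xg (N : ℤ) (g : ℕ) : ℤ := (N + ig N g) / g

/-- every line contains at most `μ` of the points `(g, ig N g)` -/
def Lines (N : ℤ) (𝒢 : Finset ℕ) (μ : ℝ) : Prop :=
  ∀ α β γ : ℤ, (α ≠ 0 ∨ β ≠ 0) →
    ((𝒢.filter (fun g : ℕ => α * g + β * ig N g = γ)).card : ℝ) ≤ μ

/-- Fourier transform of the triangular weight -/
noncomputable def wh (M : ℕ) (θ : ℝ) : ℂ := (∑ u ∈ range M, ee (u * θ)) ^ 2 / M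

def FourStmt : Prop :=
  ∀ (N : ℤ) (M d H : ℕ), 1 ≤ M → 1 ≤ H → 2 * H < d →
    ‖(rem N M d : ℂ) - ∑ h ∈ (Icc (-(H : ℤ)) H).erase 0,
      wh M (h / d) * ee (h * N / d) / d‖ ≤ (d : ℝ) / (M * H)

/-- the normalised smooth factor -/
noncomputable def gam (M g : ℕ) (i h : ℤ) (f : ℕ) : ℂ :=
  wh M (h / (g * f)) * ee (-(h * i) / (g * f)) / M

def LipStmt : Prop :=
  ∀ (M g g' f : ℕ) (i i' h : ℤ), 1 ≤ M → 1 ≤ g → 1 ≤ g' → 1 ≤ f →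
    ‖gam M g i h f‖ ≤ 1 ∧
    ‖gam M g i h f - gam M g' i' h f‖ ≤
      2 * Real.pi * |(h : ℝ)| * (|(i : ℝ) - i'| / (g * f) +
        (2 * M + |(i' : ℝ)|) * |(g : ℝ) - g'| / (g * g' * f))

/-- `k`-tuples of tuples -/
def ktup {r : ℕ} (k : ℕ) (𝔅 : Fin r → Finset ℕ) : Finset (Fin k → Fin r → ℕ) :=
  Fintype.piFinset (fun _ : Fin k => Fintype.piFinset 𝔅)

/-- solutions modulo `p` -/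
def nsol {r : ℕ} (p k : ℕ) (𝔅 : Fin r → Finset ℕ) : ℕ :=
  ((ktup k 𝔅 ×ˢ ktup k 𝔅).filter (fun x =>
    ∑ i, ((ps (x.1 i) : ℕ) : ZMod p)⁻¹ = ∑ i, ((ps (x.2 i) : ℕ) : ZMod p)⁻¹)).card

def MomStmt : Prop :=
  ∀ (p r k : ℕ) [NeZero p] (𝔅 : Fin r → Finset ℕ) (a : (Fin r → ℕ) → ℂ) (θ : ℝ), 0 < θ →
    (∀ s, ‖a s‖ ≤ 1) →
    (((univ : Finset (ZMod p)).filter (fun w => θ < ‖∑ s ∈ Fintype.piFinset 𝔅,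
        a s * ZMod.stdAddChar (w * ((ps s : ℕ) : ZMod p)⁻¹)‖)).card : ℝ) * θ ^ (2 * k) ≤
      p * nsol p k 𝔅

/-- blocks of primes -/
structure Blk {r : ℕ} (𝔅 : Fin r → Finset ℕ) (n : ℕ) (Z : ℝ) : Prop where
  prime : ∀ j, ∀ q ∈ 𝔅 j, q.Prime ∧ (q : ℝ) ≤ Z
  disj : ∀ i j, i ≠ j → Disjoint (𝔅 i) (𝔅 j)
  card : ∀ j, (𝔅 j).card ≤ n

def TrivStmt : Prop :=
  ∀ (r k n : ℕ) (𝔅 : Fin r → Finset ℕ) (Z : ℝ), Blk 𝔅 n Z →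
    ((ktup k 𝔅 ×ˢ ktup k 𝔅).filter (fun x =>
      ∑ i, 1 / ((ps (x.1 i) : ℕ) : ℚ) = ∑ i, 1 / ((ps (x.2 i) : ℕ) : ℚ))).card ≤
      (k ^ 2 * n) ^ (k * r)

def AtypStmt : Prop :=
  ∀ (r k n : ℕ) (𝔅 : Fin r → Finset ℕ) (Z T : ℝ) (PP : Finset ℕ), Blk 𝔅 n Z → 2 ≤ Z → 0 < T →
    (∀ p ∈ PP, p.Prime ∧ Z < (p : ℝ)) →
    ((PP.filter (fun p => ((k : ℝ) ^ 2 * n) ^ (k * r) + (n : ℝ) ^ (2 * k * r) * T <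
      nsol p k 𝔅)).card : ℝ) ≤ 2 * k * (r + 1) / T

def LatStmt : Prop :=
  ∀ (N : ℤ) (D P n₁ : ℕ) (𝒢 𝔅 : Finset ℕ) (μ Γ : ℝ) (rp : ℕ → ℕ) (G : ℕ → ℕ → Finset ℤ),
    1 ≤ μ → 0 ≤ Γ → Lines N 𝒢 μ → (∀ g ∈ 𝒢, 1 ≤ g ∧ g ≤ D) → (∀ p ∈ 𝔅, p.Prime ∧ P ≤ p) →
    2 * D ^ 2 < P ^ n₁ → (∀ τ, ∀ p ∈ 𝔅, ((G τ p).card : ℝ) ≤ Γ) →
    ((𝒢.filter (fun g => n₁ ≤ (𝔅.filter (fun p : ℕ => Xg N g % p ∈ G (rp g) p)).card)).card : ℝ) ≤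
      (𝒢.image rp).card * (𝔅.card : ℝ) ^ n₁ * Γ ^ n₁ * μ

def SumStmt : Prop :=
  ∀ (N : ℤ) (D G₀ P n₁ n₂ : ℕ) (𝒢 PP At : Finset ℕ) (μ Γ A ϑ : ℝ) (rp : ℕ → ℕ)
    (G : ℕ → ℕ → Finset ℤ) (F : ℕ → ℕ → ℝ),
    1 ≤ μ → 0 ≤ Γ → 0 ≤ A → 0 ≤ ϑ → 1 ≤ G₀ → 1 ≤ n₂ → 1 ≤ D → Lines N 𝒢 μ →
    (∀ g ∈ 𝒢, G₀ ≤ g ∧ g ≤ D) → (∀ p ∈ PP, p.Prime ∧ P ≤ p ∧ p < 2 * P) → 2 * D ^ 2 < P ^ n₁ →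
    (∀ τ, ∀ p ∈ PP, p ∉ At → ((G τ p).card : ℝ) ≤ Γ) →
    (∀ g ∈ 𝒢, ∀ p ∈ PP, F g p ≤ A ∧ (p ∉ At → Xg N g % p ∉ G (rp g) p → F g p ≤ ϑ * A)) →
    ∑ g ∈ 𝒢, 1 / (g : ℝ) * ∑ p ∈ PP, F g p ≤
      A * ((1 + Real.log D) * (At.card + P * ϑ + ((P : ℝ) / n₂ + 2) * n₁) +
        ((P : ℝ) / n₂ + 2) * n₂ * ((𝒢.image rp).card * (n₂ : ℝ) ^ n₁ * Γ ^ n₁ * μ) / G₀)

/-- the inner exponential sum -/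
noncomputable def FF {r : ℕ} (N : ℤ) (M g : ℕ) (h : ℤ) (u p : ℕ) (𝔅 : Fin r → Finset ℕ)
    (b : (Fin r → ℕ) → ℂ) : ℂ :=
  ∑ s ∈ Fintype.piFinset 𝔅, b s * gam M g (ig N g) h (ps s * p * u) *
    ee (h * Xg N g / (ps s * p * u : ℕ))

def TypeStmt : Prop :=
  ∀ (N h : ℤ) (M D D₀ G₀ Δ r n u H : ℕ) (Z θ : ℝ) (𝒢 PP : Finset ℕ) (ty : ℕ → ℕ × ℕ × ℕ)
    (E : Finset (ℕ × ℕ × ℕ)) (𝔅 : Fin r → Finset ℕ) (b : ℕ × ℕ × ℕ → ℕ → (Fin r → ℕ) → ℂ),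
    1 ≤ M → M ≤ D → 1 ≤ D₀ → 1 ≤ G₀ → 1 ≤ Δ → 1 ≤ n → 1 ≤ u → h ≠ 0 → |h| ≤ H → 1 ≤ Z → 0 < θ →
    Blk 𝔅 n Z → (∀ g ∈ 𝒢, G₀ ≤ g ∧ g ≤ D ∧ ty g ∈ E) →
    (∀ p ∈ PP, p.Prime ∧ Z < (p : ℝ) ∧ H < p ∧ ¬ p ∣ u) → (∀ τ p s, ‖b τ p s‖ ≤ 1) →
    (∀ g ∈ 𝒢, ∀ p s, b (ty g) p s ≠ 0 → D₀ ≤ g * (ps s * p * u)) →
    ∃ (rp : ℕ → ℕ) (G : ℕ → ℕ → Finset ℤ),
      ((𝒢.image rp).card : ℝ) ≤ E.card * ((D : ℝ) / Δ + 1) ^ 2 * u * Z ^ (r * n) ∧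
      (∀ τ, ∀ p ∈ PP, ∀ k : ℕ,
        ((G τ p).card : ℝ) * (θ * (n : ℝ) ^ r) ^ (2 * k) ≤ p * nsol p k 𝔅) ∧
      ∀ g ∈ 𝒢, ∀ p ∈ PP, ‖FF N M g h u p 𝔅 (b (ty g) p)‖ ≤ (n : ℝ) ^ r ∧
        (Xg N g % p ∉ G (rp g) p → ‖FF N M g h u p 𝔅 (b (ty g) p)‖ ≤
          (θ + 26 * H * D * Δ / (G₀ * D₀)) * (n : ℝ) ^ r)

/-- block size for the tuples -/
noncomputable def nn (m : ℕ) : ℕ := ⌊Real.log m ^ (4 / 5 : ℝ)⌋₊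
/-- threshold -/
noncomputable def th (A m : ℕ) : ℝ := 1 / Real.log m ^ (A + 3)
/-- block length for the top primes -/
noncomputable def n2 (A m : ℕ) : ℕ := ⌈Real.log m ^ (A + 4)⌉₊
/-- number of primes that fix a lattice -/
def n1 (D P : ℕ) : ℕ := Nat.log P (2 * D ^ 2) + 1
/-- half the moment -/
noncomputable def kk (r m P : ℕ) : ℕ :=
  ⌈2 * Real.log (2 * P) / (r * Real.log (Real.log m))⌉₊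
/-- cell size -/
noncomputable def dl (m : ℕ) : ℕ := D0 m / VV m ^ 2

/-- the scales of the top range -/
def Sc (r m P : ℕ) : Prop := ZZ r m r ≤ 2 * P ∧ (P : ℝ) ≤ ZZ r m (r + 1)

def ParAStmt : Prop :=
  ∀ (B A r : ℕ) (κ : ℝ), 0 < κ → κ ≤ 1 / 2 → 1 ≤ r → ∀ᶠ m : ℕ in atTop, ∀ P : ℕ, Sc r m P →
    (1 + Real.log (DD B m)) * (2 * kk r m P * (r + 1) / (P : ℝ) ^ (κ / 20 - 1) +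
      P * (th A m + 26 * Real.log m ^ A * DD B m * dl m / ((D0 m / VV m : ℕ) * D0 m)) +
      ((P : ℝ) / n2 A m + 2) * n1 (DD B m) P) ≤ P / (2 * Real.log m ^ A)

def ParGStmt : Prop :=
  ∀ (A r : ℕ) (κ : ℝ), 0 < κ → κ ≤ 1 / 2 → 200 * (A + 3) ≤ κ * r → ∀ᶠ m : ℕ in atTop,
    ∀ P : ℕ, Sc r m P →
    2 * P * (((kk r m P : ℝ) ^ 2 * nn m) ^ (kk r m P * r) +
      (nn m : ℝ) ^ (2 * kk r m P * r) * (P : ℝ) ^ (κ / 20 - 1)) ≤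
      (P : ℝ) ^ (3 * κ / 20) * (th A m * (nn m : ℝ) ^ r) ^ (2 * kk r m P)

def ParBStmt : Prop :=
  ∀ (B A r : ℕ) (κ : ℝ), 0 < κ → κ ≤ 1 / 2 → ∀ᶠ m : ℕ in atTop, ∀ P : ℕ, Sc r m P →
    ((P : ℝ) / n2 A m + 2) * n2 A m *
      ((VV m : ℝ) ^ 6 * ((DD B m : ℝ) / dl m + 1) ^ 2 * VV m * ZZ r m r ^ (r * nn m) *
        (n2 A m : ℝ) ^ n1 (DD B m) P * ((P : ℝ) ^ (3 * κ / 20)) ^ n1 (DD B m) P *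
        (DD B m / (m : ℝ) ^ κ)) / (D0 m / VV m : ℕ) ≤ P / (2 * Real.log m ^ A)

/-- hypotheses on the prefixes -/
structure GOK (B m : ℕ) (κ : ℝ) (N : ℤ) (𝒢 : Finset ℕ) (ty : ℕ → ℕ × ℕ × ℕ)
    (E : Finset (ℕ × ℕ × ℕ)) : Prop where
  gb : ∀ g ∈ 𝒢, D0 m < g * VV m ∧ g ≤ DD B m ∧ ty g ∈ E
  Ec : E.card ≤ VV m ^ 6
  lines : Lines N 𝒢 (DD B m / (m : ℝ) ^ κ)

/-- one frequency, one cofactor, one block of tuples, one scale -/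
def CorePStmt : Prop :=
  ∀ (B A r : ℕ) (κ : ℝ), 0 < κ → κ ≤ 1 / 2 → 200 * (A + 3) ≤ κ * r → ∀ᶠ m : ℕ in atTop,
    ∀ (N h : ℤ) (u P : ℕ) (𝒢 PP : Finset ℕ) (ty : ℕ → ℕ × ℕ × ℕ) (E : Finset (ℕ × ℕ × ℕ))
      (𝔅 : Fin r → Finset ℕ) (b : ℕ × ℕ × ℕ → ℕ → (Fin r → ℕ) → ℂ),
      GOK B m κ N 𝒢 ty E → h ≠ 0 → |(h : ℝ)| ≤ Real.log m ^ A → 1 ≤ u → u ≤ VV m →
      Blk 𝔅 (nn m) (ZZ r m r) → (∀ p ∈ PP, p ∈ top r m ∧ P ≤ p ∧ p < 2 * P ∧ ¬ p ∣ u) →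
      (∀ τ p s, ‖b τ p s‖ ≤ 1) →
      (∀ g ∈ 𝒢, ∀ p s, b (ty g) p s ≠ 0 → D0 m ≤ g * (ps s * p * u)) →
      ∑ g ∈ 𝒢, 1 / (g : ℝ) * ∑ p ∈ PP, ‖FF N (m / 2) g h u p 𝔅 (b (ty g) p)‖ ≤
        P * (nn m : ℝ) ^ r / Real.log m ^ A

def BlockStmt : Prop :=
  ∀ (S : Finset ℕ) (n : ℕ) (Z : ℝ), 1 ≤ n → 0 < Z → (∀ q ∈ S, Z ≤ (q : ℝ)) →
    ∃ (bl : ℕ → ℕ) (lo : ℕ → ℝ), (∀ q ∈ S, 0 < lo (bl q) ∧ lo (bl q) ≤ q) ∧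
      (∀ b, (S.filter (fun q => bl q = b)).card ≤ n) ∧
      ∑ b ∈ S.image bl, n / lo b ≤ n / Z + ∑ q ∈ S, 1 / (q : ℝ)

/-- hypotheses on the coefficients -/
structure COK (B r m : ℕ) (𝒢 : Finset ℕ) (ty : ℕ → ℕ × ℕ × ℕ)
    (c : ℕ × ℕ × ℕ → (Fin r → ℕ) → ℕ → ℕ → ℝ) : Prop where
  cb : ∀ τ s p u, |c τ s p u| ≤ 1
  cp : ∀ τ s p u, c τ s p u ≠ 0 → ¬ p ∣ u
  cs : ∀ g ∈ 𝒢, ∀ s p u, c (ty g) s p u ≠ 0 →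
    D0 m < g * (ps s * p * u) ∧ g * (ps s * p * u) ≤ DD B m

/-- the bilinear remainder -/
noncomputable def RS (r m : ℕ) (N : ℤ) (𝒢 : Finset ℕ) (ty : ℕ → ℕ × ℕ × ℕ)
    (c : ℕ × ℕ × ℕ → (Fin r → ℕ) → ℕ → ℕ → ℝ) : ℝ :=
  ∑ g ∈ 𝒢, ∑ s ∈ tup r m, ∑ p ∈ top r m, ∑ u ∈ Icc 1 (VV m),
    c (ty g) s p u * rem N (m / 2) (g * (ps s * p * u))

/-- its part of frequency `h` -/
noncomputable def RH (r m : ℕ) (N : ℤ) (𝒢 : Finset ℕ) (ty : ℕ → ℕ × ℕ × ℕ)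
    (c : ℕ × ℕ × ℕ → (Fin r → ℕ) → ℕ → ℕ → ℝ) (h : ℤ) : ℂ :=
  ∑ g ∈ 𝒢, ∑ s ∈ tup r m, ∑ p ∈ top r m, ∑ u ∈ Icc 1 (VV m),
    (c (ty g) s p u : ℂ) / (g * (ps s * p * u : ℕ)) *
      (gam (m / 2) g (ig N g) h (ps s * p * u) * ee (h * Xg N g / (ps s * p * u : ℕ)))

def IT1Stmt : Prop :=
  ∀ B r : ℕ, ∀ᶠ m : ℕ in atTop, ∀ (N : ℤ) (𝒢 : Finset ℕ) (ty : ℕ → ℕ × ℕ × ℕ)
    (c : ℕ × ℕ × ℕ → (Fin r → ℕ) → ℕ → ℕ → ℝ), (∀ g ∈ 𝒢, 1 ≤ g ∧ g ≤ DD B m) →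
    COK B r m 𝒢 ty c →
    |RS r m N 𝒢 ty c| ≤ m / (2 * Real.log m ^ 3) +
      m * ∑ h ∈ (Icc (-(⌊Real.log m ^ (2 * B + 8)⌋₊ : ℤ)) ⌊Real.log m ^ (2 * B + 8)⌋₊).erase 0,
        ‖RH r m N 𝒢 ty c h‖

def IT2Stmt : Prop :=
  ∀ (B A r : ℕ) (κ : ℝ), 0 < κ → κ ≤ 1 / 2 → 200 * (A + 3) ≤ κ * r → ∀ᶠ m : ℕ in atTop,
    ∀ (N h : ℤ) (𝒢 : Finset ℕ) (ty : ℕ → ℕ × ℕ × ℕ) (E : Finset (ℕ × ℕ × ℕ))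
      (c : ℕ × ℕ × ℕ → (Fin r → ℕ) → ℕ → ℕ → ℝ), GOK B m κ N 𝒢 ty E → COK B r m 𝒢 ty c →
      h ≠ 0 → |(h : ℝ)| ≤ Real.log m ^ A →
      ‖RH r m N 𝒢 ty c h‖ ≤ Real.log m ^ 3 / Real.log m ^ A

/-- the inverse theorem -/
def ITStmt : Prop :=
  ∀ (B : ℕ) (κ : ℝ), 0 < κ → κ ≤ 1 / 2 → ∃ r : ℕ, ∀ᶠ m : ℕ in atTop,
    ∀ (N : ℤ) (𝒢 : Finset ℕ) (ty : ℕ → ℕ × ℕ × ℕ) (E : Finset (ℕ × ℕ × ℕ))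
      (c : ℕ × ℕ × ℕ → (Fin r → ℕ) → ℕ → ℕ → ℝ), GOK B m κ N 𝒢 ty E → COK B r m 𝒢 ty c →
      |RS r m N 𝒢 ty c| ≤ m / Real.log m ^ 3

/-- the large nodes -/
def BigStmt : Prop :=
  ∀ (B : ℕ) (κ c : ℝ), 0 < κ → κ ≤ 1 / 2 → 0 < c → ∀ᶠ m : ℕ in atTop,
    ∀ (N : ℤ) (j : ℕ) (𝒟 : Finset (Finset ℕ)),
      DesOK j (D0 m) (DD B m) (zz m) ((m : ℝ) ^ c) 𝒟 →
      (∀ 𝒢 : Finset ℕ, (∀ g ∈ 𝒢, 1 ≤ g ∧ g ≤ DD B m ∧ ∃ d ∈ 𝒟, pd d ∣ g) →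
        Lines N 𝒢 (DD B m / (m : ℝ) ^ κ)) →
      |∑ d ∈ 𝒟, ∑ e ∈ (Rp (DD B m / pd d)).filter (fun e => D0 m < pd d * pd e),
        sg e * rem N (m / 2) (pd d * pd e)| ≤ 2 * m / Real.log m ^ 3

/-! ## Part C: colours -/

def LineStmt : Prop :=
  ∀ (N α β γ : ℤ) (D : ℕ) (𝒢 : Finset ℕ) (μ : ℝ), 1 ≤ μ → (α ≠ 0 ∨ β ≠ 0) →
    (∀ g ∈ 𝒢, 1 ≤ g ∧ g ≤ D ∧ α * g + β * ig N g = γ) → μ < 𝒢.card →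
    ∃ (q : ℕ) (a : ℤ), 1 ≤ q ∧ (q : ℝ) ≤ 2 * D / μ ∧ |(a : ℝ)| ≤ 4 * (D : ℝ) ^ 2 / μ ∧
      Int.gcd a q = 1 ∧ ∀ g ∈ 𝒢, ∀ p : ℕ, p.Prime → p ∣ g → 2 * D / μ < (p : ℝ) →
        (p : ℤ) ∣ q * N + a

/-- no rational number of small height explains almost all large primes -/
def Defic (η c₀ : ℝ) (m : ℕ) (N : ℤ) : Prop :=
  ∀ (q : ℕ) (a : ℤ), 1 ≤ q → (q : ℝ) ≤ (m : ℝ) ^ η → |(a : ℝ)| ≤ (m : ℝ) ^ (1 + η) →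
    Int.gcd a q = 1 → c₀ < ∑ p ∈ (Hi η m).filter (fun p : ℕ => ¬ (p : ℤ) ∣ q * N + a), 1 / (p : ℝ)

/-- the pairs of `Q` have no common colour -/
def Sep (η : ℝ) (B m : ℕ) (N : ℤ) (Q : Finset (ℕ × ℕ)) : Prop :=
  ∀ (q : ℕ) (a : ℤ), 1 ≤ q → (q : ℝ) ≤ 2 * (m : ℝ) ^ (η / 4) →
    |(a : ℝ)| ≤ 4 * DD B m * (m : ℝ) ^ (η / 4) → Int.gcd a q = 1 →
    (m : ℝ) ^ (-(η / 4)) ≤ ∑ p ∈ (Lo η m).filter (fun p : ℕ => (p : ℤ) ∣ q * N + a), 1 / (p : ℝ) →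
    ∀ π ∈ Q, ¬ ((π.1 : ℤ) ∣ q * N + a ∧ (π.2 : ℤ) ∣ q * N + a)

/-- almost disjoint families -/
def FamStmt : Prop :=
  ∀ (N : ℤ) (S : Finset ℕ) (𝒞 : Finset (ℕ × ℤ)) (y H ν : ℝ), 1 < y → 0 ≤ ν →
    (∀ p ∈ S, p.Prime ∧ y < (p : ℝ)) →
    (∀ ρ ∈ 𝒞, 1 ≤ ρ.1 ∧ Int.gcd ρ.2 ρ.1 = 1) →
    (∀ ρ ∈ 𝒞, ∀ ρ' ∈ 𝒞, (ρ.1 : ℝ) * |(ρ'.2 : ℝ)| ≤ H) → 2 * H ≤ y ^ ν →
    ∑ ρ ∈ 𝒞, ∑ p ∈ S.filter (fun p : ℕ => (p : ℤ) ∣ ρ.1 * N + ρ.2), 1 / (p : ℝ) ≤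
      ∑ p ∈ S, 1 / (p : ℝ) + (𝒞.card : ℝ) ^ 2 * ν / y

def ColStmt : Prop :=
  ∀ (η c₀ : ℝ) (B : ℕ), 0 < η → η ≤ 1 / 20 → 0 < c₀ → c₀ ≤ 1 → ∀ᶠ m : ℕ in atTop, ∀ N : ℤ,
    Defic η c₀ m N → ∃ Q ⊆ Hi η m ×ˢ Lo η m,
      c₀ / 4 ≤ ∑ π ∈ Q, 1 / ((π.1 : ℝ) * π.2) ∧ Sep η B m N Q

def NoLineStmt : Prop :=
  ∀ (η : ℝ) (B : ℕ), 0 < η → η ≤ 1 / 20 → ∀ᶠ m : ℕ in atTop, ∀ N : ℤ,
    ∀ Q ⊆ Hi η m ×ˢ Lo η m, Sep η B m N Q → ∀ 𝒢 : Finset ℕ,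
      (∀ g ∈ 𝒢, 1 ≤ g ∧ g ≤ DD B m ∧ ∃ π ∈ Q, π.1 ∣ g ∧ π.2 ∣ g) →
      Lines N 𝒢 (DD B m / (m : ℝ) ^ (η / 4))

def CaseBStmt : Prop :=
  ∀ η c₀ : ℝ, 0 < η → η ≤ 1 / 20 → 0 < c₀ → c₀ ≤ 1 → ∀ᶠ m : ℕ in atTop, ∀ N : ℤ,
    Defic η c₀ m N → (m : ℝ) / Real.log m ^ 5 ≤ (surv N m (zz m)).card

/-! ## Part A: the structured case -/

/-- lower Brun–Hooley weights for a general density -/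
def BHStmt : Prop :=
  ∃ s : ℕ, ∀ (z : ℝ) (S : Finset ℕ) (g : ℕ → ℝ), 1 ≤ z → (∀ p ∈ S, p.Prime ∧ (p : ℝ) ≤ z) →
    (∀ p ∈ S, 0 ≤ g p ∧ g p ≤ 1 / 2 ∧ g p ≤ 2 / p) →
    ∃ l : Finset ℕ → ℝ,
      (∀ T ⊆ S, ∑ t ∈ T.powerset, l t ≤ if T = ∅ then 1 else 0) ∧ (∀ t, |l t| ≤ 1) ∧
      (∀ t ⊆ S, l t ≠ 0 → (pd t : ℝ) ≤ z ^ s) ∧
      3 / 4 * ∏ p ∈ S, (1 - g p) ≤ ∑ t ∈ S.powerset, l t * ∏ p ∈ t, g p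

/-- density of a forbidden class among the primes `a + q j` -/
noncomputable def gq (q p : ℕ) : ℝ := if p ∣ q then 1 / (p : ℝ) else 1 / ((p : ℝ) - 1)

/-- logarithm on the primes -/
noncomputable def lp (n : ℕ) : ℝ := if n.Prime then Real.log n else 0

/-- primes `a + q j` with `j` in prescribed classes -/
def APStmt : Prop :=
  ∃ δ C : ℝ, 0 < δ ∧ δ ≤ 1 / 4 ∧ 0 < C ∧ ∀ (a q T : ℕ) (cl : ℕ → ℕ) (t : Finset ℕ),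
    1 ≤ a → 1 ≤ q → Nat.Coprime a q → (∀ p ∈ t, p.Prime ∧ ¬ p ∣ a + q * cl p) →
    |∑ j ∈ (range T).filter (fun j => ∀ p ∈ t, j ≡ cl p [MOD p]), lp (a + q * j) -
      T * (q / (q.totient : ℝ)) * ∏ p ∈ t, gq q p| ≤
      C * ((a + q * T : ℕ) : ℝ) ^ (1 - δ) * Real.log (2 * (q * pd t : ℕ))

/-- the standing hypotheses of the structured case -/
structure AOK (η : ℝ) (m a q T : ℕ) (cl : ℕ → ℕ) (S : Finset ℕ) : Prop where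
  T_ge : (m : ℝ) / 8 ≤ T
  T_le : T ≤ m
  q_ge : 1 ≤ q
  q_le : (q : ℝ) ≤ (m : ℝ) ^ η
  a_ge : (m : ℝ) / 8 ≤ a
  a_le : (a : ℝ) ≤ (m : ℝ) ^ (1 + 2 * η)
  cop : Nat.Coprime a q
  sub : S ⊆ pr 2 ((m : ℝ) ^ (2 * η))
  non : ∀ p ∈ S, ¬ p ∣ a + q * cl p

def V1Stmt : Prop :=
  ∀ᶠ m : ℕ in atTop, ∀ (q : ℕ), ∀ S ⊆ pr 2 m, 64 / Real.log m ^ 4 ≤ ∏ p ∈ S, (1 - gq q p)

def LowAStmt : Prop :=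
  ∃ η₀ : ℝ, 0 < η₀ ∧ ∀ η : ℝ, 0 < η → η ≤ η₀ → ∀ᶠ m : ℕ in atTop,
    ∀ (a q T : ℕ) (cl : ℕ → ℕ) (S : Finset ℕ), AOK η m a q T cl S →
      1 / 2 * (T * (q / (q.totient : ℝ)) * ∏ p ∈ S, (1 - gq q p)) ≤
        ∑ j ∈ (range T).filter (fun j => ∀ p ∈ S, ¬ j ≡ cl p [MOD p]), lp (a + q * j)

/-- counting in a progression with several forbidden classes -/
def CRTStmt : Prop :=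
  ∀ (T p c : ℕ) (t : Finset ℕ) (Ω : ℕ → Finset ℕ), 1 ≤ p →
    (∀ l ∈ t, l.Prime ∧ ¬ l ∣ p ∧ ∀ x ∈ Ω l, x < l) →
    |(((range T).filter (fun j => j ≡ c [MOD p] ∧ ∀ l ∈ t, j % l ∈ Ω l)).card : ℝ) -
      T / p * ∏ l ∈ t, ((Ω l).card / (l : ℝ))| ≤ pd t

def UpAStmt : Prop :=
  ∃ C : ℝ, 0 < C ∧ ∀ η : ℝ, 0 < η → η ≤ 1 / 200 → ∀ᶠ m : ℕ in atTop,
    ∀ (a q T : ℕ) (cl : ℕ → ℕ) (S : Finset ℕ), AOK η m a q T cl S → ∀ p ∈ Hi η m, ∀ c : ℕ,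
      (((range T).filter (fun j => j ≡ c [MOD p] ∧ (a + q * j).Prime ∧
        ∀ l ∈ S, ¬ j ≡ cl l [MOD l])).card : ℝ) ≤
        C * (T * (q / (q.totient : ℝ)) * ∏ l ∈ S, (1 - gq q l)) / (p * (η * Real.log m))

def PrimeAStmt : Prop :=
  ∃ η₀ : ℝ, 0 < η₀ ∧ ∀ η : ℝ, 0 < η → η ≤ η₀ → ∃ c₀ : ℝ, 0 < c₀ ∧ ∀ᶠ m : ℕ in atTop,
    ∀ (a q T : ℕ) (cl : ℕ → ℕ) (S S' : Finset ℕ), AOK η m a q T cl S → S' ⊆ Hi η m →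
      ∑ p ∈ S', 1 / (p : ℝ) ≤ c₀ →
      (m : ℝ) / Real.log m ^ 5 ≤ ((range T).filter (fun j => (a + q * j).Prime ∧
        (∀ l ∈ S, ¬ j ≡ cl l [MOD l]) ∧ ∀ p ∈ S', ¬ j ≡ cl p [MOD p])).card

def CaseAStmt : Prop :=
  ∃ η₀ : ℝ, 0 < η₀ ∧ ∀ η : ℝ, 0 < η → η ≤ η₀ → ∃ c₀ : ℝ, 0 < c₀ ∧ ∀ᶠ m : ℕ in atTop, ∀ N : ℤ,
    ¬ Defic η c₀ m N → (m : ℝ) / Real.log m ^ 5 ≤ (surv N m (zz m)).card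

end Crest.Agent.R1s
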