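import Crest.Agent.R1s.Basic
import Crest.Agent.R5.Mertens

/-! Row 1: sizes of the parameters for large `m`. -/

set_option autoImplicit false

namespace Crest.Agent.R1s

open Finset Filter
open Crest.Agent.R5 (pr pd ee)

theorem tend_log : Tendsto (fun m : ℕ => Real.log m) atTop atTop :=
  Real.tendsto_log_atTop.comp tendsto_natCast_atTop_atTop

theorem ev_log (K : ℝ) : ∀ᶠ m : ℕ in atTop, K ≤ Real.log m :=
  tend_log.eventually_ge_atTop K

theorem ev_loglog (K : ℝ) : ∀ᶠ m : ℕ in atTop, K ≤ Real.log (Real.log m) :=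
  (Real.tendsto_log_atTop.comp tend_log).eventually_ge_atTop K

theorem ev_rpow (K : ℝ) {c : ℝ} (hc : 0 < c) : ∀ᶠ m : ℕ in atTop, K ≤ (m : ℝ) ^ c :=
  ((tendsto_rpow_atTop hc).comp tendsto_natCast_atTop_atTop).eventually_ge_atTop K

theorem real_log_pow (K : ℝ) (A : ℕ) {c : ℝ} (hc : 0 < c) :
    ∀ᶠ x : ℝ in atTop, K * Real.log x ^ A ≤ x ^ c := by
  have h := (isLittleO_log_rpow_rpow_atTop (A : ℝ) hc).bound
    (show 0 < 1 / (|K| + 1) by positivity)
  filter_upwards [h, eventually_ge_atTop (1 : ℝ)] with x hx h1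
  have hl := Real.log_nonneg h1
  rw [Real.norm_of_nonneg (by positivity), Real.norm_of_nonneg (by positivity),
    Real.rpow_natCast] at hx
  have h2 : 0 ≤ Real.log x ^ A := by positivity
  have h3 : (|K| + 1) * Real.log x ^ A ≤ x ^ c := by
    rw [one_div, inv_mul_eq_div, le_div_iff₀ (by positivity)] at hx
    linarith
  nlinarith [le_abs_self K]

/-- powers of `log m` against powers of `m` -/
theorem ev_log_pow (K : ℝ) (A : ℕ) {c : ℝ} (hc : 0 < c) :
    ∀ᶠ m : ℕ in atTop, K * Real.log m ^ A ≤ (m : ℝ) ^ c :=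
  tendsto_natCast_atTop_atTop.eventually (real_log_pow K A hc)

/-- powers of `log log m` against powers of `log m` -/
theorem ev_loglog_pow (K : ℝ) (A : ℕ) {c : ℝ} (hc : 0 < c) :
    ∀ᶠ m : ℕ in atTop, K * Real.log (Real.log m) ^ A ≤ Real.log m ^ c :=
  tend_log.eventually (real_log_pow K A hc)

/-- powers of `log m` against `exp (a (log m)^c)` -/
theorem ev_exp (K : ℝ) (A : ℕ) {a c : ℝ} (ha : 0 < a) (hc : 0 < c) :
    ∀ᶠ m : ℕ in atTop, K * Real.log m ^ A ≤ Real.exp (a * Real.log m ^ c) := by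
  filter_upwards [ev_loglog_pow ((A + 1) / a) 1 hc, ev_log |K|, ev_log 1] with m h1 h2 h3
  have e : Real.log m ^ (A + 1) = Real.exp ((A + 1 : ℕ) * Real.log (Real.log m)) := by
    rw [Real.exp_nat_mul, Real.exp_log (by linarith)]
  have h4 : ((A + 1 : ℕ) : ℝ) * Real.log (Real.log m) ≤ a * Real.log m ^ c := by
    rw [pow_one, div_mul_eq_mul_div, div_le_iff₀ ha] at h1
    push_cast; linarith
  have h5 : 0 ≤ Real.log m ^ A := by positivity
  calc K * Real.log m ^ A ≤ Real.log m * Real.log m ^ A :=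
        mul_le_mul_of_nonneg_right ((le_abs_self K).trans h2) h5
    _ = Real.log m ^ (A + 1) := by ring
    _ ≤ _ := by rw [e]; exact Real.exp_le_exp.2 h4

/-- a smaller power of `log m` -/
theorem ev_log_rpow (K : ℝ) {c c' : ℝ} (h : c < c') :
    ∀ᶠ m : ℕ in atTop, K * Real.log m ^ c ≤ Real.log m ^ c' := by
  have h1 := ((tendsto_rpow_atTop (sub_pos.2 h)).comp tend_log).eventually_ge_atTop K
  filter_upwards [h1, ev_log 1] with m h1 h2
  have e : Real.log m ^ c' = Real.log m ^ (c' - c) * Real.log m ^ c := by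
    rw [← Real.rpow_add (by linarith)]; ring_nf
  rw [e]
  exact mul_le_mul_of_nonneg_right h1 (by positivity)

theorem half_le_floor {x : ℝ} (hx : 1 ≤ x) : x / 2 ≤ ⌊x⌋₊ := by
  have h1 := Nat.lt_floor_add_one x
  have h2 : (1 : ℝ) ≤ ⌊x⌋₊ := by exact_mod_cast Nat.le_floor (by simpa using hx)
  linarith

theorem ev_D0 : ∀ᶠ m : ℕ in atTop,
    (m : ℝ) / (2 * Real.log m ^ 2) ≤ D0 m ∧ (D0 m : ℝ) ≤ m / Real.log m ^ 2 ∧ D0 m ≤ m ∧
      1 ≤ D0 m := by
  filter_upwards [ev_log_pow 1 2 one_pos, ev_log 1] with m h1 h2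
  rw [one_mul, Real.rpow_one] at h1
  have h3 : (1 : ℝ) ≤ Real.log m ^ 2 := one_le_pow₀ h2
  have h4 : (1 : ℝ) ≤ m / Real.log m ^ 2 := by rw [le_div_iff₀ (by linarith)]; linarith
  have h5 : (D0 m : ℝ) ≤ m / Real.log m ^ 2 := Nat.floor_le (by linarith)
  refine ⟨?_, h5, ?_, Nat.le_floor (by simpa using h4)⟩
  · have := half_le_floor h4
    unfold D0
    rwa [div_div, mul_comm] at this
  · have : (m : ℝ) / Real.log m ^ 2 ≤ m := div_le_self (by positivity) h3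
    exact_mod_cast h5.trans this

theorem ev_DD (B : ℕ) : ∀ᶠ m : ℕ in atTop,
    m ≤ DD B m ∧ (DD B m : ℝ) ≤ m * Real.log m ^ B ∧ D0 m ≤ DD B m ∧
      (DD B m : ℝ) ≤ 2 * Real.log m ^ (B + 2) * D0 m ∧
      Real.log (DD B m) ≤ 2 * Real.log m - 1 := by
  filter_upwards [ev_D0, ev_log 1, ev_log_pow 3 B one_pos, eventually_ge_atTop 1] with m h1 h2 h3 hm
  have hm' : (1 : ℝ) ≤ m := by exact_mod_cast hm
  have h4 : (1 : ℝ) ≤ Real.log m ^ B := one_le_pow₀ h2
  have h5 : m ≤ DD B m := Nat.le_floor (by nlinarith)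
  have h6 : (DD B m : ℝ) ≤ m * Real.log m ^ B := Nat.floor_le (by positivity)
  refine ⟨h5, h6, h1.2.2.1.trans h5, h6.trans ?_, ?_⟩
  · have := h1.1
    rw [div_le_iff₀ (by positivity)] at this
    calc (m : ℝ) * Real.log m ^ B ≤ D0 m * (2 * Real.log m ^ 2) * Real.log m ^ B := by gcongr
      _ = _ := by ring
  · rw [Real.rpow_one] at h3
    have h7 : (1 : ℝ) ≤ DD B m := hm'.trans (by exact_mod_cast h5)
    have h8 : 3 * (DD B m : ℝ) ≤ (m : ℝ) ^ 2 := by nlinarith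
    have h9 := Real.log_le_log (by linarith) h8
    rw [Real.log_mul (by norm_num) (by linarith), Real.log_pow] at h9
    have : 1 ≤ Real.log 3 := by
      rw [Real.le_log_iff_exp_le (by norm_num)]
      linarith [Real.exp_one_lt_d9]
    push_cast at h9
    linarith

theorem ev_VV : ∀ᶠ m : ℕ in atTop,
    Real.exp (√(Real.log m)) / 2 ≤ VV m ∧ (VV m : ℝ) ≤ Real.exp (√(Real.log m)) ∧ 2 ≤ VV m := by
  filter_upwards [ev_log 1] with m h
  have h1 : 1 ≤ √(Real.log m) := Real.one_le_sqrt.2 h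
  have h2 := Real.add_one_le_exp (√(Real.log m))
  exact ⟨half_le_floor (by linarith), Nat.floor_le (by positivity),
    Nat.le_floor (by push_cast; linarith)⟩

/-- `VV` beats every power of `log m` and is beaten by every power of `m` -/
theorem ev_VV_pow (K : ℝ) (A : ℕ) {c : ℝ} (hc : 0 < c) : ∀ᶠ m : ℕ in atTop,
    K * Real.log m ^ A ≤ VV m ∧ K * (VV m : ℝ) ^ A ≤ (m : ℝ) ^ c := by
  filter_upwards [ev_VV, ev_exp (2 * K) A one_pos (show (0 : ℝ) < 1 / 2 by norm_num),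
    ev_log_rpow (2 * A / c) (show (1 / 2 : ℝ) < 1 by norm_num), ev_rpow |K| (half_pos hc),
    eventually_ge_atTop 1] with m h1 h2 h3 h4 hm
  have hm' : (0 : ℝ) < m := by exact_mod_cast hm
  rw [one_mul, ← Real.sqrt_eq_rpow] at h2
  rw [Real.rpow_one, ← Real.sqrt_eq_rpow, div_mul_eq_mul_div, div_le_iff₀ hc] at h3
  refine ⟨by linarith [h1.1], ?_⟩
  have h5 : (VV m : ℝ) ^ A ≤ (m : ℝ) ^ (c / 2) := by
    calc (VV m : ℝ) ^ A ≤ Real.exp (√(Real.log m)) ^ A := pow_le_pow_left₀ (by positivity) h1.2.1 A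
      _ = Real.exp (A * √(Real.log m)) := (Real.exp_nat_mul _ _).symm
      _ ≤ Real.exp (Real.log m * (c / 2)) := Real.exp_le_exp.2 (by linarith)
      _ = _ := (Real.rpow_def_of_pos hm' _).symm
  calc K * (VV m : ℝ) ^ A ≤ |K| * (VV m : ℝ) ^ A :=
        mul_le_mul_of_nonneg_right (le_abs_self K) (by positivity)
    _ ≤ (m : ℝ) ^ (c / 2) * (m : ℝ) ^ (c / 2) := by gcongr
    _ = _ := by rw [← Real.rpow_add hm']; ring_nf

theorem ev_zz {c : ℝ} (hc : 0 < c) : ∀ᶠ m : ℕ in atTop,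
    √(m : ℝ) ≤ zz m ∧ zz m ≤ (m : ℝ) ^ (1 / 2 + c) := by
  filter_upwards [ev_log 1, ev_log_pow 1 7 hc, eventually_ge_atTop 1] with m h1 h2 hm
  have hm' : (0 : ℝ) < m := by exact_mod_cast hm
  unfold zz
  refine ⟨le_mul_of_one_le_right (by positivity) (one_le_pow₀ h1), ?_⟩
  rw [Real.rpow_add hm', ← Real.sqrt_eq_rpow]
  exact mul_le_mul_of_nonneg_left (by linarith) (by positivity)

theorem log_ZZ (r m j : ℕ) :
    Real.log (ZZ r m j) = Real.log m ^ (((j : ℝ) + 1) / (10 * ((r : ℝ) + 2))) :=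
  Real.log_exp _

theorem ZZ_pos (r m j : ℕ) : 0 < ZZ r m j := Real.exp_pos _

theorem one_le_log {m : ℕ} (hm : 3 ≤ m) : 1 ≤ Real.log m := by
  have : (3 : ℝ) ≤ m := by exact_mod_cast hm
  rw [Real.le_log_iff_exp_le (by linarith)]
  linarith [Real.exp_one_lt_d9]

theorem ZZ_mono (r : ℕ) {m : ℕ} (hm : 3 ≤ m) {i j : ℕ} (h : i ≤ j) : ZZ r m i ≤ ZZ r m j := by
  refine Real.exp_le_exp.2 (Real.rpow_le_rpow_of_exponent_le (one_le_log hm) ?_)
  have : (i : ℝ) ≤ j := by exact_mod_cast h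
  gcongr

theorem ZZ_top (r m : ℕ) : ZZ r m (r + 1) = Real.exp (Real.log m ^ (1 / 10 : ℝ)) := by
  unfold ZZ
  congr 2
  push_cast
  field_simp
  ring

theorem ZZ_ge {m : ℕ} (hm : 3 ≤ m) (r : ℕ) :
    Real.exp (Real.log m ^ (1 / 20 : ℝ)) ≤ ZZ r m r := by
  refine Real.exp_le_exp.2 (Real.rpow_le_rpow_of_exponent_le (one_le_log hm) ?_)
  rw [div_le_div_iff₀ (by norm_num) (by positivity)]
  have : (0 : ℝ) ≤ r := by positivity
  linarith

/-- all ranges lie between every power of `log m` and every power of `m` -/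
theorem ev_ZZ (K : ℝ) (A r : ℕ) {c : ℝ} (hc : 0 < c) : ∀ᶠ m : ℕ in atTop,
    K * Real.log m ^ A ≤ ZZ r m 0 ∧ ZZ r m (r + 1) ≤ (m : ℝ) ^ c := by
  filter_upwards [ev_exp K A one_pos
      (show 0 < (((0 : ℕ) : ℝ) + 1) / (10 * ((r : ℝ) + 2)) by positivity),
    ev_log_rpow (1 / c) (show (1 / 10 : ℝ) < 1 by norm_num), eventually_ge_atTop 1] with m h1 h2 hm
  have hm' : (0 : ℝ) < m := by exact_mod_cast hm
  refine ⟨by rwa [one_mul] at h1, ?_⟩
  rw [ZZ_top, Real.rpow_def_of_pos hm']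
  rw [Real.rpow_one, div_mul_eq_mul_div, div_le_iff₀ hc] at h2
  exact Real.exp_le_exp.2 (by linarith)

/-- Mertens for all primes up to `x` -/
theorem recip_le : ∃ C : ℝ, 0 < C ∧ ∀ x : ℝ, 2 ≤ x →
    |∑ p ∈ pr 0 x, 1 / (p : ℝ) - Real.log (Real.log x)| ≤ C := by
  obtain ⟨C, hC, h, -⟩ := R5.mertens
  refine ⟨1 + 2 * C + |Real.log (Real.log 2)|, by positivity, fun x hx => ?_⟩
  have e : pr 0 x = insert 2 (pr 2 x) := by
    ext p
    simp only [mem_insert, mem_pr]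
    constructor
    · rintro ⟨a, -, c⟩
      rcases a.two_le.eq_or_lt with h2 | h2
      · exact Or.inl h2.symm
      · exact Or.inr ⟨a, by exact_mod_cast h2, c⟩
    · rintro (rfl | ⟨a, b, c⟩)
      · exact ⟨Nat.prime_two, by norm_num, by simpa using hx⟩
      · exact ⟨a, by linarith, c⟩
  have h2 : 2 ∉ pr 2 x := fun h => by simpa using (mem_pr.1 h).2.1
  rw [e, sum_insert h2]
  have h3 := abs_le.1 (h 2 x le_rfl hx)
  have h4 : C / Real.log 2 ≤ 2 * C := by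
    rw [div_le_iff₀ (by positivity)]; nlinarith [Real.log_two_gt_d9]
  have h5 := le_abs_self (Real.log (Real.log 2))
  have h6 := neg_abs_le (Real.log (Real.log 2))
  rw [abs_le]
  push_cast
  constructor <;> linarith [h3.1, h3.2]

/-- the sum of the reciprocals of the primes up to `m ^ 2` -/
theorem ev_recip : ∀ᶠ m : ℕ in atTop, ∀ S : Finset ℕ,
    (∀ p ∈ S, p.Prime ∧ (p : ℝ) ≤ (m : ℝ) ^ 2) →
    ∑ p ∈ S, 1 / (p : ℝ) ≤ 2 * Real.log (Real.log m) := by
  obtain ⟨C, hC, h⟩ := recip_le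
  filter_upwards [ev_loglog (C + 1), ev_log 1, eventually_ge_atTop 2] with m h1 h2 hm S hS
  have hm' : (2 : ℝ) ≤ m := by exact_mod_cast hm
  have h3 := (abs_le.1 (h ((m : ℝ) ^ 2) (by nlinarith))).2
  rw [Real.log_pow, Real.log_mul (by norm_num) (by linarith)] at h3
  have h4 : ∑ p ∈ S, 1 / (p : ℝ) ≤ ∑ p ∈ pr 0 ((m : ℝ) ^ 2), 1 / (p : ℝ) :=
    sum_le_sum_of_subset_of_nonneg (fun p hp => mem_pr.2
      ⟨(hS p hp).1, by exact_mod_cast (hS p hp).1.pos, (hS p hp).2⟩) fun p _ _ => by positivity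
  have h5 : Real.log 2 ≤ 1 := by linarith [Real.log_two_lt_d9]
  rw [Nat.cast_ofNat] at h3
  linarith

end Crest.Agent.R1s
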