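import Crest.Agent.R1s.Ev

/-! Row 1: the gain of the level extension. -/

set_option autoImplicit false

namespace Crest.Agent.R1s

open Finset Filter
open Crest.Agent.R5 (pr pd ee)

namespace GainAux

theorem arith {c C B L l l0 l1 g0 g1 : ℝ} (hc : 0 < c) (hC : 0 < C) (hB : 0 ≤ B) (hL : 2 ≤ L)
    (hl : l = Real.log L) (h0 : c * L ≤ l0) (h0' : l0 ≤ L) (h1 : l0 + B * l ≤ l1)
    (h1' : l1 ≤ 2 * L) (e0 : |g0 - 4 / l0| ≤ C * Real.log l0 / l0 ^ 2)
    (e1 : |g1 - 4 / l1| ≤ C * Real.log l1 / l1 ^ 2) :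
    (2 * B - 3 * C / c ^ 2) * l / L ^ 2 ≤ g0 - g1 := by
  have hL0 : 0 < L := by linarith
  have hl2 : Real.log 2 ≤ l := hl ▸ Real.log_le_log (by norm_num) hL
  have hlpos : 0 < l := lt_of_lt_of_le (Real.log_pos (by norm_num)) hl2
  have hcL : 0 < c * L := by positivity
  have hl0 : 0 < l0 := by linarith
  have hBl : 0 ≤ B * l := by positivity
  have hl1 : 0 < l1 := by linarith
  have a0 : C * Real.log l0 / l0 ^ 2 ≤ C * l / (c * L) ^ 2 := by
    have : Real.log l0 ≤ l := hl ▸ Real.log_le_log hl0 h0'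
    calc C * Real.log l0 / l0 ^ 2 ≤ C * l / l0 ^ 2 := by gcongr
      _ ≤ C * l / (c * L) ^ 2 := by gcongr
  have a1 : C * Real.log l1 / l1 ^ 2 ≤ C * (2 * l) / (c * L) ^ 2 := by
    have : Real.log l1 ≤ 2 * l := by
      have h2 := Real.log_le_log hl1 h1'
      rw [Real.log_mul (by norm_num) hL0.ne', ← hl] at h2
      linarith
    have h3 : c * L ≤ l1 := by linarith
    calc C * Real.log l1 / l1 ^ 2 ≤ C * (2 * l) / l1 ^ 2 := by gcongr
      _ ≤ C * (2 * l) / (c * L) ^ 2 := by gcongr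
  have a2 : 2 * B * l / L ^ 2 ≤ 4 / l0 - 4 / l1 := by
    have e : 4 / l0 - 4 / l1 = 4 * (l1 - l0) / (l0 * l1) := by
      field_simp
    have e' : 2 * B * l / L ^ 2 = 4 * (B * l) / (L * (2 * L)) := by
      field_simp
      ring
    rw [e, e']
    calc 4 * (B * l) / (L * (2 * L)) ≤ 4 * (B * l) / (l0 * l1) := by gcongr
      _ ≤ 4 * (l1 - l0) / (l0 * l1) := by gcongr; linarith
  have e : (2 * B - 3 * C / c ^ 2) * l / L ^ 2 =
      2 * B * l / L ^ 2 - C * l / (c * L) ^ 2 - C * (2 * l) / (c * L) ^ 2 := by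
    field_simp
    ring
  rw [e]
  have b0 := (abs_le.1 e0).1
  have b1 := (abs_le.1 e1).2
  linarith

end GainAux

theorem gainOK : GMStmt → GainStmt := by
  rintro ⟨C, hC, hG⟩ c hc
  obtain ⟨X, hX⟩ := eventually_atTop.1 hG
  refine ⟨3 * C / c ^ 2, by positivity, fun B => ?_⟩
  filter_upwards [ev_log 2, ev_rpow (X : ℝ) hc, ev_rpow 1 hc, ev_D0, ev_DD B, eventually_ge_atTop 1]
    with m hL hXm h1m hD0 hDD hm1 d hd hx0
  set L := Real.log m with hLdef
  set x0 := D0 m / d with hx0def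
  set x1 := DD B m / d with hx1def
  have hm0 : (0 : ℝ) < m := by exact_mod_cast hm1
  have hd0 : (0 : ℝ) < d := by exact_mod_cast hd
  have hd1 : (1 : ℝ) ≤ d := by exact_mod_cast hd
  have hL0 : 0 < L := by linarith
  have hx01 : (1 : ℝ) ≤ x0 := h1m.trans hx0
  have hLB : (1 : ℝ) ≤ L ^ B := one_le_pow₀ (by linarith)
  have k1 : (x0 : ℝ) * d ≤ D0 m := by exact_mod_cast Nat.div_mul_le_self (D0 m) d
  have k2 : (D0 m : ℝ) * L ^ 2 ≤ m := by
    have := hD0.2.1
    rwa [le_div_iff₀ (by positivity)] at this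
  have k3 : (m : ℝ) * L ^ B < DD B m + 1 := Nat.lt_floor_add_one _
  have k4 : (DD B m : ℝ) + 1 ≤ (x1 + 1) * d := by
    have h1 : DD B m < d * (DD B m / d + 1) := Nat.lt_mul_div_succ _ hd
    have h2 : DD B m + 1 ≤ (x1 + 1) * d := by rw [mul_comm]; exact h1
    exact_mod_cast h2
  have k5 : (x0 : ℝ) * L ^ B ≤ x1 := by
    have h1 : (x0 : ℝ) * L ^ B * L ^ 2 * d ≤ (x1 + 1) * d := by
      calc (x0 : ℝ) * L ^ B * L ^ 2 * d = (x0 * d) * L ^ 2 * L ^ B := by ring
        _ ≤ D0 m * L ^ 2 * L ^ B := by gcongr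
        _ ≤ m * L ^ B := by gcongr
        _ ≤ (x1 + 1) * d := by linarith
    have h2 : (x0 : ℝ) * L ^ B * L ^ 2 ≤ x1 + 1 := le_of_mul_le_mul_right h1 hd0
    have h3 : (1 : ℝ) ≤ x0 * L ^ B := one_le_mul_of_one_le_of_one_le hx01 hLB
    have h4 : (4 : ℝ) ≤ L ^ 2 := by nlinarith
    nlinarith
  have k6 : (x0 : ℝ) ≤ x1 := by nlinarith
  have hX0 : X ≤ x0 := by exact_mod_cast hXm.trans hx0
  have hX1 : X ≤ x1 := by exact_mod_cast (hXm.trans hx0).trans k6
  refine GainAux.arith hc hC (Nat.cast_nonneg B) hL rfl ?_ ?_ ?_ ?_ (hX x0 hX0).1 (hX x1 hX1).1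
  · have := Real.log_le_log (by positivity) hx0
    rwa [Real.log_rpow hm0] at this
  · refine Real.log_le_log (by linarith) ?_
    exact_mod_cast (Nat.div_le_self _ _).trans hD0.2.2.1
  · have := Real.log_le_log (by positivity) k5
    rwa [Real.log_mul (by positivity) (by positivity), Real.log_pow] at this
  · have h1 : (x1 : ℝ) ≤ DD B m := by exact_mod_cast Nat.div_le_self _ _
    have := Real.log_le_log (by linarith) h1
    linarith [hDD.2.2.2.2]

end Crest.Agent.R1s
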