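import Crest.Agent.R1s.Ev

/-! Row 1: summing over the blocks of top primes. -/

set_option autoImplicit false

namespace Crest.Agent.R1s

open Finset Filter
open Crest.Agent.R5 (pr pd ee)

namespace SumAux

theorem card_blocks (P n : ℕ) (hn : 1 ≤ n) :
    ((Icc (P / n) (2 * P / n)).card : ℝ) ≤ (P : ℝ) / n + 2 := by
  have h1 : 2 * P / n ≤ 2 * (P / n) + 1 := by
    have h2 : 2 * P < (2 * (P / n) + 2) * n := by
      have h3 := Nat.div_add_mod P n
      have h4 := Nat.mod_lt P (show 0 < n from hn)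
      nlinarith
    have := (Nat.div_lt_iff_lt_mul (show 0 < n from hn)).2 h2
    omega
  have h5 : (Icc (P / n) (2 * P / n)).card ≤ P / n + 2 := by
    rw [Nat.card_Icc]
    omega
  have h6 : ((P / n : ℕ) : ℝ) ≤ (P : ℝ) / n := Nat.cast_div_le
  have h7 : ((Icc (P / n) (2 * P / n)).card : ℝ) ≤ ((P / n + 2 : ℕ) : ℝ) := by exact_mod_cast h5
  push_cast at h7
  linarith

theorem card_block (S : Finset ℕ) (n t : ℕ) (hn : 1 ≤ n) :
    (S.filter (fun p => p / n = t)).card ≤ n := by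
  have : (S.filter (fun p => p / n = t)).card ≤ (range n).card := by
    apply card_le_card_of_injOn (fun p => p % n)
    · intro p _
      simp only [coe_range, Set.mem_Iio]
      exact Nat.mod_lt p hn
    · intro p hp q hq h
      simp only [coe_filter, Set.mem_ofPred_eq] at hp hq
      have h1 := Nat.div_add_mod p n
      have h2 := Nat.div_add_mod q n
      simp only at h
      rw [hp.2] at h1
      rw [hq.2] at h2
      omega
  simpa using this

/-- the pointwise bound -/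
theorem pt (PP At : Finset ℕ) (P : ℕ) (A ϑ : ℝ) (F : ℕ → ℝ) (Q : ℕ → Prop) [DecidablePred Q]
    (hA : 0 ≤ A) (hϑ : 0 ≤ ϑ) (hP : ∀ p ∈ PP, P ≤ p ∧ p < 2 * P)
    (hF : ∀ p ∈ PP, F p ≤ A ∧ (p ∉ At → ¬ Q p → F p ≤ ϑ * A)) :
    ∑ p ∈ PP, F p ≤ A * (At.card + P * ϑ + (((PP \ At).filter Q).card : ℝ)) := by
  have h1 : ∀ p ∈ PP, F p ≤ A * ((if p ∈ At then 1 else 0) + ϑ +
      (if p ∉ At ∧ Q p then 1 else 0)) := by
    intro p hp
    have hm := mul_nonneg hA hϑ
    by_cases h2 : p ∈ At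
    · simp only [h2, if_true, not_true, false_and, if_false]
      nlinarith [(hF p hp).1]
    · by_cases h3 : Q p
      · simp only [h2, h3, if_false, not_false_iff, true_and, if_true]
        nlinarith [(hF p hp).1]
      · simp only [h2, h3, if_false, and_false]
        nlinarith [(hF p hp).2 h2 h3]
  refine (sum_le_sum h1).trans ?_
  rw [← mul_sum]
  apply mul_le_mul_of_nonneg_left _ hA
  rw [sum_add_distrib, sum_add_distrib, sum_boole, sum_boole, sum_const, nsmul_eq_mul]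
  have h4 : ((PP.filter (fun p => p ∈ At)).card : ℝ) ≤ At.card := by
    exact_mod_cast card_le_card (fun p hp => (mem_filter.1 hp).2)
  have h5 : (PP.card : ℝ) ≤ P := by
    have : PP.card ≤ (Ico P (2 * P)).card := card_le_card (fun p hp => mem_Ico.2 (hP p hp))
    rw [Nat.card_Ico] at this
    exact_mod_cast (show PP.card ≤ P by omega)
  have h6 : PP.filter (fun p => p ∉ At ∧ Q p) = (PP \ At).filter Q := by
    ext p
    simp only [mem_filter, Finset.mem_sdiff, and_assoc]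
  rw [h6]
  have := mul_le_mul_of_nonneg_right h5 hϑ
  linarith

/-- splitting into blocks -/
theorem split (S : Finset ℕ) (P n n₁ : ℕ) (Q : ℕ → Prop) [DecidablePred Q] (hn : 1 ≤ n)
    (hP : ∀ p ∈ S, P ≤ p ∧ p < 2 * P) :
    ((S.filter Q).card : ℝ) ≤ ((P : ℝ) / n + 2) * n₁ + n * ∑ t ∈ Icc (P / n) (2 * P / n),
      if n₁ ≤ ((S.filter (fun p => p / n = t)).filter Q).card then (1 : ℝ) else 0 := by
  have h1 : (S.filter Q).card =
      ∑ t ∈ Icc (P / n) (2 * P / n), ((S.filter Q).filter (fun p => p / n = t)).card := by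
    apply card_eq_sum_card_fiberwise
    intro p hp
    have hp' := hP p (mem_filter.1 hp).1
    exact mem_coe.2 (mem_Icc.2 ⟨Nat.div_le_div_right hp'.1, Nat.div_le_div_right hp'.2.le⟩)
  have h2 : ∀ t ∈ Icc (P / n) (2 * P / n),
      (((S.filter Q).filter (fun p => p / n = t)).card : ℝ) ≤ n₁ + n *
        if n₁ ≤ ((S.filter (fun p => p / n = t)).filter Q).card then (1 : ℝ) else 0 := by
    intro t _
    rw [filter_comm]
    split_ifs with h
    · have h3 : ((S.filter (fun p => p / n = t)).filter Q).card ≤ n :=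
        (card_filter_le _ _).trans (card_block S n t hn)
      have h4 : (((S.filter (fun p => p / n = t)).filter Q).card : ℝ) ≤ n := by exact_mod_cast h3
      have : (0 : ℝ) ≤ n₁ := Nat.cast_nonneg _
      linarith
    · have h4 : (((S.filter (fun p => p / n = t)).filter Q).card : ℝ) ≤ n₁ := by
        exact_mod_cast (not_le.1 h).le
      linarith
  rw [h1]
  push_cast
  refine (sum_le_sum h2).trans ?_
  rw [sum_add_distrib, sum_const, nsmul_eq_mul, ← mul_sum]
  have := mul_le_mul_of_nonneg_right (card_blocks P n hn) (Nat.cast_nonneg (α := ℝ) n₁)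
  linarith

end SumAux

theorem sumOK : LatStmt → SumStmt := by
  intro hL N D G₀ P n₁ n₂ 𝒢 PP At μ Γ A ϑ rp G F hμ hΓ hA hϑ hG₀ hn hD hl h𝒢 hPP hDP hG hF
  set I := Icc (P / n₂) (2 * P / n₂) with hI
  set W : ℝ := (𝒢.image rp).card * (n₂ : ℝ) ^ n₁ * Γ ^ n₁ * μ with hW
  set C₁ : ℝ := At.card + P * ϑ + ((P : ℝ) / n₂ + 2) * n₁ with hC₁
  have hC₁0 : 0 ≤ C₁ := by positivity
  have hW0 : 0 ≤ W := by
    have : 0 ≤ μ := by linarith
    positivity
  have h1D : ∀ g ∈ 𝒢, 1 ≤ g ∧ g ≤ D := fun g hg => ⟨hG₀.trans (h𝒢 g hg).1, (h𝒢 g hg).2⟩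
  have hG₀' : (0 : ℝ) < G₀ := by exact_mod_cast hG₀
  set ind : ℕ → ℕ → ℝ := fun g t =>
    if n₁ ≤ (((PP \ At).filter (fun p => p / n₂ = t)).filter
      (fun p : ℕ => Xg N g % p ∈ G (rp g) p)).card then (1 : ℝ) else 0 with hind
  have hind0 : ∀ g t, 0 ≤ ind g t := by
    intro g t
    simp only [hind]
    split_ifs <;> norm_num
  have h1 : ∀ g ∈ 𝒢, 1 / (g : ℝ) * ∑ p ∈ PP, F g p ≤
      A * C₁ * (1 / (g : ℝ)) + A * n₂ / G₀ * ∑ t ∈ I, ind g t := by
    intro g hg
    have a1 := SumAux.pt PP At P A ϑ (F g) (fun p : ℕ => Xg N g % p ∈ G (rp g) p) hA hϑ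
      (fun p hp => (hPP p hp).2) (hF g hg)
    have a2 := SumAux.split (PP \ At) P n₂ n₁ (fun p : ℕ => Xg N g % p ∈ G (rp g) p) hn
      (fun p hp => (hPP p (Finset.mem_sdiff.1 hp).1).2)
    have a3 : ∑ p ∈ PP, F g p ≤ A * C₁ + A * n₂ * ∑ t ∈ I, ind g t := by
      refine a1.trans ?_
      have := mul_le_mul_of_nonneg_left a2 hA
      simp only [hC₁, hind, hI]
      linarith
    have hg0 : (0 : ℝ) < g := by exact_mod_cast (h1D g hg).1
    have a4 : 1 / (g : ℝ) ≤ 1 / G₀ :=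
      one_div_le_one_div_of_le hG₀' (by exact_mod_cast (h𝒢 g hg).1)
    have a5 : 0 ≤ A * n₂ * ∑ t ∈ I, ind g t :=
      mul_nonneg (mul_nonneg hA (Nat.cast_nonneg _)) (sum_nonneg fun t _ => hind0 g t)
    calc 1 / (g : ℝ) * ∑ p ∈ PP, F g p ≤ 1 / (g : ℝ) * (A * C₁ + A * n₂ * ∑ t ∈ I, ind g t) :=
          mul_le_mul_of_nonneg_left a3 (by positivity)
      _ = A * C₁ * (1 / (g : ℝ)) + 1 / (g : ℝ) * (A * n₂ * ∑ t ∈ I, ind g t) := by ring
      _ ≤ A * C₁ * (1 / (g : ℝ)) + 1 / (G₀ : ℝ) * (A * n₂ * ∑ t ∈ I, ind g t) := by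
          have := mul_le_mul_of_nonneg_right a4 a5
          linarith
      _ = _ := by ring
  have h2 : ∀ t ∈ I, ∑ g ∈ 𝒢, ind g t ≤ W := by
    intro t _
    have b1 := hL N D P n₁ 𝒢 ((PP \ At).filter (fun p => p / n₂ = t)) μ Γ rp G hμ hΓ hl h1D
      (fun p hp => ⟨(hPP p (Finset.mem_sdiff.1 (mem_filter.1 hp).1).1).1,
        (hPP p (Finset.mem_sdiff.1 (mem_filter.1 hp).1).1).2.1⟩) hDP
      (fun τ p hp => hG τ p (Finset.mem_sdiff.1 (mem_filter.1 hp).1).1
        (Finset.mem_sdiff.1 (mem_filter.1 hp).1).2)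
    simp only [hind]
    rw [sum_boole]
    refine b1.trans ?_
    have b2 : ((((PP \ At).filter (fun p => p / n₂ = t)).card : ℕ) : ℝ) ≤ n₂ := by
      exact_mod_cast SumAux.card_block (PP \ At) n₂ t hn
    have hμ0 : 0 ≤ μ := by linarith
    simp only [hW]
    gcongr
  have h3 : ∑ g ∈ 𝒢, ∑ t ∈ I, ind g t ≤ ((P : ℝ) / n₂ + 2) * W := by
    rw [sum_comm]
    refine (sum_le_sum h2).trans ?_
    rw [sum_const, nsmul_eq_mul]
    exact mul_le_mul_of_nonneg_right (SumAux.card_blocks P n₂ hn) hW0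
  refine (sum_le_sum h1).trans ?_
  rw [sum_add_distrib, ← mul_sum, ← mul_sum]
  have h4 := mul_le_mul_of_nonneg_left (sum_inv_le hD h1D) (mul_nonneg hA hC₁0)
  have h5 := mul_le_mul_of_nonneg_left h3 (show 0 ≤ A * n₂ / G₀ by positivity)
  calc _ ≤ A * C₁ * (1 + Real.log D) + A * n₂ / G₀ * (((P : ℝ) / n₂ + 2) * W) := add_le_add h4 h5
    _ = _ := by ring

end Crest.Agent.R1s
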